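import Mathlib

/-!
# P195: cohomology of a cokernel complex, classes at the top

`C → C' → S → 0` with injective comparison maps, `C` and `C'` cochain complexes whose only
cohomology is in the top degree, read by `L` and `L'`. Then `S` has cohomology `ker ρE` in degree
two and `coker ρE` in degree three.
-/

namespace Vale.Agent.P195

variable (R : Type*) [Ring R] (C0 C1 C2 C3 E C0' C1' C2' C3' E' S0 S1 S2 S3 : Type*)
  [AddCommGroup C0] [Module R C0] [AddCommGroup C1] [Module R C1] [AddCommGroup C2] [Module R C2]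
  [AddCommGroup C3] [Module R C3] [AddCommGroup E] [Module R E]
  [AddCommGroup C0'] [Module R C0'] [AddCommGroup C1'] [Module R C1'] [AddCommGroup C2']
  [Module R C2'] [AddCommGroup C3'] [Module R C3'] [AddCommGroup E'] [Module R E']
  [AddCommGroup S0] [Module R S0] [AddCommGroup S1] [Module R S1] [AddCommGroup S2] [Module R S2]
  [AddCommGroup S3] [Module R S3]

/-- The maps and what they satisfy. -/
structure CoCokerData where
  d0 : C0 →ₗ[R] C1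
  d1 : C1 →ₗ[R] C2
  d2 : C2 →ₗ[R] C3
  L : C3 →ₗ[R] E
  d0' : C0' →ₗ[R] C1'
  d1' : C1' →ₗ[R] C2'
  d2' : C2' →ₗ[R] C3'
  L' : C3' →ₗ[R] E'
  e0 : S0 →ₗ[R] S1
  e1 : S1 →ₗ[R] S2
  e2 : S2 →ₗ[R] S3
  ρ0 : C0 →ₗ[R] C0'
  ρ1 : C1 →ₗ[R] C1'
  ρ2 : C2 →ₗ[R] C2'
  ρ3 : C3 →ₗ[R] C3'
  ρE : E →ₗ[R] E'
  π0 : C0' →ₗ[R] S0
  π1 : C1' →ₗ[R] S1
  π2 : C2' →ₗ[R] S2
  π3 : C3' →ₗ[R] S3
  exact1 : Function.Exact d0 d1
  exact2 : Function.Exact d1 d2
  exact_L : Function.Exact d2 L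
  inj0' : Function.Injective d0'
  exact1' : Function.Exact d0' d1'
  exact2' : Function.Exact d1' d2'
  exact_L' : Function.Exact d2' L'
  surj_L : Function.Surjective L
  surj_L' : Function.Surjective L'
  sq0 : ∀ x, d0' (ρ0 x) = ρ1 (d0 x)
  sq1 : ∀ x, d1' (ρ1 x) = ρ2 (d1 x)
  sq2 : ∀ x, d2' (ρ2 x) = ρ3 (d2 x)
  sq3 : ∀ x, L' (ρ3 x) = ρE (L x)
  inj1 : Function.Injective ρ1
  inj2 : Function.Injective ρ2
  inj3 : Function.Injective ρ3
  sq0' : ∀ x, e0 (π0 x) = π1 (d0' x)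
  sq1' : ∀ x, e1 (π1 x) = π2 (d1' x)
  sq2' : ∀ x, e2 (π2 x) = π3 (d2' x)
  coker0 : Function.Exact ρ0 π0
  coker1 : Function.Exact ρ1 π1
  coker2 : Function.Exact ρ2 π2
  coker3 : Function.Exact ρ3 π3
  onto0 : Function.Surjective π0
  onto1 : Function.Surjective π1
  onto2 : Function.Surjective π2
  onto3 : Function.Surjective π3

variable {R C0 C1 C2 C3 E C0' C1' C2' C3' E' S0 S1 S2 S3}

namespace CoCokerData

variable (K : CoCokerData R C0 C1 C2 C3 E C0' C1' C2' C3' E' S0 S1 S2 S3)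

/-- No cohomology in degree zero. -/
theorem inj₀ : Function.Injective K.e0 := by
  refine (injective_iff_map_eq_zero _).2 fun s hs => ?_
  obtain ⟨x, rfl⟩ := K.onto0 s
  rw [K.sq0'] at hs
  obtain ⟨c, hc⟩ := (K.coker1 _).1 hs
  have hc0 : K.d1 c = 0 := K.inj2 (by
    rw [← K.sq1, hc, K.exact1'.apply_apply_eq_zero, map_zero])
  obtain ⟨w, rfl⟩ := (K.exact1 c).1 hc0
  rw [← K.inj0' (show K.d0' (K.ρ0 w) = K.d0' x by rw [K.sq0, hc])]
  exact K.coker0.apply_apply_eq_zero w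

/-- No cohomology in degree one. -/
theorem exact₁ : Function.Exact K.e0 K.e1 := by
  intro s
  constructor
  · intro hs
    obtain ⟨x, rfl⟩ := K.onto1 s
    rw [K.sq1'] at hs
    obtain ⟨c, hc⟩ := (K.coker2 _).1 hs
    have hc0 : K.d2 c = 0 := K.inj3 (by
      rw [← K.sq2, hc, K.exact2'.apply_apply_eq_zero, map_zero])
    obtain ⟨w, rfl⟩ := (K.exact2 c).1 hc0
    obtain ⟨v, hv⟩ := (K.exact1' (x - K.ρ1 w)).1 (by rw [map_sub, K.sq1, hc, sub_self])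
    exact ⟨K.π0 v, by rw [K.sq0', hv, map_sub, K.coker1.apply_apply_eq_zero, sub_zero]⟩
  · rintro ⟨u, rfl⟩
    obtain ⟨v, rfl⟩ := K.onto0 u
    rw [K.sq0', K.sq1', K.exact1'.apply_apply_eq_zero, map_zero]

/-- `e2 ∘ e1 = 0`. -/
theorem e2_e1 (u : S1) : K.e2 (K.e1 u) = 0 := by
  obtain ⟨v, rfl⟩ := K.onto1 u
  rw [K.sq1', K.sq2', K.exact2'.apply_apply_eq_zero, map_zero]

/-- If `ρE` is onto, nothing is left in degree three. -/
theorem surj₃ (h : Function.Surjective K.ρE) : Function.Surjective K.e2 := by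
  intro s
  obtain ⟨x, rfl⟩ := K.onto3 s
  obtain ⟨y, hy⟩ := h (K.L' x)
  obtain ⟨c, rfl⟩ := K.surj_L y
  obtain ⟨u, hu⟩ := (K.exact_L' (x - K.ρ3 c)).1 (by rw [map_sub, K.sq3, hy, sub_self])
  exact ⟨K.π2 u, by rw [K.sq2', hu, map_sub, K.coker3.apply_apply_eq_zero, sub_zero]⟩

/-- A cocycle in degree two has a class in `ker ρE`. -/
theorem exists_class {s : S2} (hs : K.e2 s = 0) :
    ∃ x c, K.π2 x = s ∧ K.d2' x = K.ρ3 c ∧ K.ρE (K.L c) = 0 := by
  obtain ⟨x, rfl⟩ := K.onto2 s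
  rw [K.sq2'] at hs
  obtain ⟨c, hc⟩ := (K.coker3 _).1 hs
  exact ⟨x, c, rfl, hc.symm, by rw [← K.sq3, hc, K.exact_L'.apply_apply_eq_zero]⟩

/-- The class vanishes exactly on coboundaries. -/
theorem class₂ {x : C2'} {c : C3} (h : K.d2' x = K.ρ3 c) :
    (∃ u, K.e1 u = K.π2 x) ↔ K.L c = 0 := by
  constructor
  · rintro ⟨u, hu⟩
    obtain ⟨v, rfl⟩ := K.onto1 u
    rw [K.sq1'] at hu
    obtain ⟨w, hw⟩ := (K.coker2 (x - K.d1' v)).1 (by rw [map_sub, hu, sub_self])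
    have : K.d2 w = c := K.inj3 (by
      rw [← K.sq2, hw, map_sub, K.exact2'.apply_apply_eq_zero, sub_zero, h])
    rw [← this, K.exact_L.apply_apply_eq_zero]
  · intro hc
    obtain ⟨w, rfl⟩ := (K.exact_L c).1 hc
    obtain ⟨v, hv⟩ := (K.exact2' (x - K.ρ2 w)).1 (by rw [map_sub, h, K.sq2, sub_self])
    exact ⟨K.π1 v, by rw [K.sq1', hv, map_sub, K.coker2.apply_apply_eq_zero, sub_zero]⟩

end CoCokerData

end Vale.Agent.P195
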