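import Vale.Agent.P195.Defs

/-!
# P195: matrices acting on rows twisted by the shift

At a vertex `u` a family indexed by generators has its `g`-entry in `H (emb u) (ph (emb (vi g)))`. A
matrix of arrows `m g h : vk h → vi g` acts by `y ↦ ∑ h, Φ (m g h) ∘ y h`; this is the complex dual
to the dual part of the free modules of the algebra.
-/

noncomputable section

namespace Vale.Agent.P195

variable {ι κ μ : Type} {vi : ι → V} {vk : κ → V} {vm : μ → V} {u : V}

/-- The entry at one generator. -/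
abbrev KS (u v : V) : Type := H (emb u) (ph (emb v))

/-- Its directed part. -/
abbrev KB (u v : V) : Type := B (emb u) (ph (emb v))

/-- Its bimodule part. -/
abbrev KW (u v : V) : Type := W (emb u) (ph (emb v))

/-- A matrix of arrows. -/
abbrev Mat (vi : ι → V) (vk : κ → V) : Type := ∀ g h, H (emb (vk h)) (emb (vi g))

/-- The action of a matrix. -/
def kmap [Fintype κ] (u : V) (m : Mat vi vk) : (∀ h, KS u (vk h)) →ₗ[ℚ] ∀ g, KS u (vi g) :=
  LinearMap.pi fun g => ∑ h,
    (hcomp (u := emb u) (phH (m g h))).comp (LinearMap.proj h)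

theorem kmap_apply [Fintype κ] (m : Mat vi vk) (y : ∀ h, KS u (vk h)) (g : ι) :
    kmap u m y g = ∑ h, hcomp (phH (m g h)) (y h) := by
  simp [kmap]

/-- The product of two matrices. -/
def mulMat [Fintype κ] (m' : Mat vi vk) (m : Mat vk vm) : Mat vi vm :=
  fun g l => ∑ h, hcomp (m' g h) (m h l)

theorem kmap_comp [Fintype κ] [Fintype μ] (m' : Mat vi vk) (m : Mat vk vm)
    (y : ∀ l, KS u (vm l)) : kmap u m' (kmap u m y) = kmap u (mulMat m' m) y := by
  funext g
  simp only [kmap_apply, map_sum, mulMat, LinearMap.sum_apply]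
  rw [Finset.sum_comm]
  refine Finset.sum_congr rfl fun l _ => Finset.sum_congr rfl fun h _ => ?_
  have hu := u.1.isLt
  have hh := (vk h).1.isLt
  have hl := (vm l).1.isLt
  have hg := (vi g).1.isLt
  show _ = hcomp (phH (hcomp (m' g h) (m h l))) (y l)
  rw [phH_comp, hcomp_assoc _ _ _ (by simp) (by simp only [wt, ph]; omega)
    (by simp only [wt, ph]; omega)]

theorem kmap_add [Fintype κ] (m m' : Mat vi vk) (y : ∀ h, KS u (vk h)) :
    kmap u m y + kmap u m' y = kmap u (m + m') y := by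
  funext g
  simp only [Pi.add_apply, kmap_apply, ← Finset.sum_add_distrib]
  refine Finset.sum_congr rfl fun h _ => ?_
  rw [← LinearMap.add_apply, ← map_add, ← map_add]

theorem kmap_zero [Fintype κ] (y : ∀ h, KS u (vk h)) : kmap u (0 : Mat vi vk) y = 0 := by
  funext g
  rw [kmap_apply]
  refine Finset.sum_eq_zero fun h _ => ?_
  show hcomp (phH (0 : H (emb (vk h)) (emb (vi g)))) (y h) = 0
  simp

/-- The directed parts. -/
def kfst (vk : κ → V) (u : V) : (∀ h, KS u (vk h)) →ₗ[ℚ] ∀ h, KB u (vk h) :=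
  LinearMap.pi fun h => (LinearMap.fst ℚ (KB u (vk h)) (KW u (vk h))).comp (LinearMap.proj h)

/-- The bimodule parts. -/
def kinr (vk : κ → V) (u : V) : (∀ h, KW u (vk h)) →ₗ[ℚ] ∀ h, KS u (vk h) :=
  LinearMap.pi fun h => (LinearMap.inr ℚ (KB u (vk h)) (KW u (vk h))).comp (LinearMap.proj h)

theorem kfst_apply (y : ∀ h, KS u (vk h)) (h : κ) : kfst vk u y h = (y h).1 := rfl

theorem kinr_apply (z : ∀ h, KW u (vk h)) (h : κ) : kinr vk u z h = (0, z h) := rfl

theorem kinr_injective : Function.Injective (kinr vk u) := fun _ _ e =>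
  funext fun h => congrArg Prod.snd (congrFun e h)

theorem kfst_surjective : Function.Surjective (kfst vk u) := fun b =>
  ⟨fun h => (b h, 0), rfl⟩

theorem kinr_kfst_exact : Function.Exact (kinr vk u) (kfst vk u) := fun y =>
  ⟨fun hy => ⟨fun h => (y h).2, funext fun h => Prod.ext (congrFun hy h).symm rfl⟩,
    fun ⟨_, hz⟩ => hz ▸ rfl⟩

/-- The directed part of the action. -/
def kmapB [Fintype κ] (u : V) (m : Mat vi vk) : (∀ h, KB u (vk h)) →ₗ[ℚ] ∀ g, KB u (vi g) :=
  LinearMap.pi fun g => ∑ h,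
    (mulBL (u := emb u) (phB (m g h).1)).comp (LinearMap.proj h)

theorem kmapB_apply [Fintype κ] (m : Mat vi vk) (f : ∀ h, KB u (vk h)) (g : ι) :
    kmapB u m f g = ∑ h, mulB (phB (m g h).1) (f h) := by
  simp [kmapB, mulBL]

theorem kmapB_val [Fintype κ] (m : Mat vi vk) (f : ∀ h, KB u (vk h)) (g : ι) :
    (kmapB u m f g).1 = ∑ h, (m g h).1.1 * (f h).1 := by
  rw [kmapB_apply, Submodule.coe_sum]
  rfl

/-- The bimodule part of the action. -/
def kmapW [Fintype κ] (u : V) (m : Mat vi vk) : (∀ h, KW u (vk h)) →ₗ[ℚ] ∀ g, KW u (vi g) :=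
  LinearMap.pi fun g => ∑ h,
    (lmul (u := emb u) (phB (m g h).1)).comp (LinearMap.proj h)

theorem kmapW_apply [Fintype κ] (m : Mat vi vk) (z : ∀ h, KW u (vk h)) (g : ι) :
    kmapW u m z g = ∑ h, lmul (phB (m g h).1) (z h) := by
  simp [kmapW]

theorem kfst_kmap [Fintype κ] (m : Mat vi vk) (y : ∀ h, KS u (vk h)) :
    kfst vi u (kmap u m y) = kmapB u m (kfst vk u y) := by
  funext g
  rw [kfst_apply, kmap_apply, Prod.fst_sum, kmapB_apply]
  exact Finset.sum_congr rfl fun h _ => by rw [hcomp_apply]; rfl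

theorem kmap_kinr [Fintype κ] (m : Mat vi vk) (z : ∀ h, KW u (vk h)) :
    kmap u m (kinr vk u z) = kinr vi u (kmapW u m z) := by
  funext g
  rw [kmap_apply, kinr_apply, kmapW_apply,
    show ((0 : KB u (vi g)), ∑ h, lmul (phB (m g h).1) (z h)) =
      ∑ h, ((0 : KB u (vi g)), lmul (phB (m g h).1) (z h)) from
      Prod.ext (by simp [Prod.fst_sum]) (by simp [Prod.snd_sum])]
  refine Finset.sum_congr rfl fun h _ => ?_
  rw [hcomp_apply, kinr_apply]
  refine Prod.ext (Subtype.ext ?_) ?_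
  · show _ * (0 : Op) = 0
    exact mul_zero _
  · simp [phH]

/-- A matrix in the bimodule acts through the directed part. -/
def kmapS [Fintype κ] (u : V) (m : Mat vi vk) : (∀ h, KB u (vk h)) →ₗ[ℚ] ∀ g, KW u (vi g) :=
  LinearMap.pi fun g => ∑ h,
    ((rmul (u := emb u)).flip (phW (m g h).2)).comp
      (LinearMap.proj h)

theorem kmapS_apply [Fintype κ] (m : Mat vi vk) (f : ∀ h, KB u (vk h)) (g : ι) :
    kmapS u m f g = ∑ h, rmul (f h) (phW (m g h).2) := by
  simp [kmapS]

theorem kmap_of_fst_zero [Fintype κ] (m : Mat vi vk) (hm : ∀ g h, (m g h).1 = 0)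
    (y : ∀ h, KS u (vk h)) : kmap u m y = kinr vi u (kmapS u m (kfst vk u y)) := by
  funext g
  rw [kmap_apply, kinr_apply, kmapS_apply,
    show ((0 : KB u (vi g)), ∑ h, rmul (kfst vk u y h)
        (phW (m g h).2)) =
      ∑ h, ((0 : KB u (vi g)), rmul (kfst vk u y h)
        (phW (m g h).2)) from
      Prod.ext (by simp [Prod.fst_sum]) (by simp [Prod.snd_sum])]
  refine Finset.sum_congr rfl fun h _ => ?_
  rw [hcomp_apply, show (phH (m g h)).1 = 0 by simp [phH, hm]]
  refine Prod.ext (Subtype.ext ?_) ?_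
  · show (0 : Op) * _ = 0
    exact zero_mul _
  · simp [phH, kfst_apply]

end Vale.Agent.P195
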