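import Vale.Agent.P195.Defs
import Vale.Agent.P195.ResR.Entries

/-!
# P195: the resolution of `Y n` as matrices of morphisms

`N = -(n+1)`. Level `j` of a copy is the sum of the columns at `vg_j i`, `i : G_j N`; the matrix of
a map from level `j` to level `j'` has entries in `catA0.H (vg_j' h) (vg_j g)`, as `freeHom`
expects. Copy `k` has `d_j`, the map `Psi_j` to copy `k - 1` and `th k` to copy `k + 1`.
-/

noncomputable section

namespace Vale.Agent.P195.Res

open ResR

variable (N : ℕ)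

/-- `-(N + 1)`. -/
abbrev nn : ℤ := -((N : ℤ) + 1)

/-! ### Generators -/

/-- `e_1, …, e_N`. -/
abbrev G0 : Type := Fin N

/-- `r_0, …, r_N` and `rho (j, i)`, `1 ≤ i < N`. -/
abbrev G1 : Type := Fin (N + 1) ⊕ Fin 2 × Fin (N - 1)

/-- `q (j, i)`, `i < N`, and `s_1, …, s_(N-2)`. -/
abbrev G2 : Type := Fin 2 × Fin N ⊕ Fin (N - 2)

/-- `t_0, …, t_(N-2)`. -/
abbrev G3 : Type := Fin (N - 1)

variable {N}

/-- The generator of an index. -/
def gen0 (i : G0 N) : Gen := .e (i.val + 1)

/-- The generator of an index. -/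
def gen1 : G1 N → Gen
  | .inl i => .r i.val
  | .inr (j, i) => .rho j (i.val + 1)

/-- The generator of an index. -/
def gen2 : G2 N → Gen
  | .inl (j, i) => .q j i.val
  | .inr i => .s (i.val + 1)

/-- The generator of an index. -/
def gen3 (i : G3 N) : Gen := .t i.val

/-- The vertex of a generator among the six. -/
def vV : Gen → V
  | .e _ => (0, 0)
  | .r _ => (1, 0)
  | .rho _ _ => (0, 1)
  | .q _ _ => (1, 1)
  | .s _ => (0, 2)
  | .t _ => (1, 2)

theorem emb_vV (g : Gen) : emb (vV g) = (g.vtx.1, (g.vtx.2 : ℤ)) := by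
  cases g <;> rfl

/-- The vertices at level zero. -/
abbrev vg0 (i : G0 N) : V := vV (gen0 i)

/-- The vertices at level one. -/
abbrev vg1 (i : G1 N) : V := vV (gen1 i)

/-- The vertices at level two. -/
abbrev vg2 (i : G2 N) : V := vV (gen2 i)

/-- The vertices at level three. -/
abbrev vg3 (i : G3 N) : V := vV (gen3 i)

/-! ### Entries -/

theorem mem_entry {g h : Gen} {δ : ℤ} {x : Row} (hx : x ∈ Typed g δ) :
    x h ∈ F (wt (emb (vV h)) (emb (vV g))) (od (emb (vV h)) (emb (vV g)) + δ) := by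
  rw [emb_vV, emb_vV]
  exact hx h

theorem mem_entry_zero {g h : Gen} {x : Row} (hx : x ∈ Typed g 0) :
    x h ∈ B (emb (vV h)) (emb (vV g)) := by
  simpa using mem_entry (h := h) hx

variable (N)

/-- The operator part of `d`. -/
def dB (g h : Gen) : B (emb (vV h)) (emb (vV g)) := ⟨dRow N g h, mem_entry_zero (dRow_mem N g)⟩

/-- The operator part of `th 0`. -/
def thB (g h : Gen) : B (emb (vV h)) (emb (vV g)) :=
  ⟨thRow N g h, mem_entry_zero (thRow_mem N g)⟩

/-- The constant correction, in the first component. -/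
def etaH (g h : Gen) : W (emb (vV h)) (emb (vV g)) :=
  first ⟨hRow N g h, mem_entry (hRow_mem N g)⟩

/-- The linear correction, in the first component. -/
def etaG (g h : Gen) : W (emb (vV h)) (emb (vV g)) :=
  first ⟨gRow N g h, mem_entry (gRow_mem N g)⟩

/-- The triple `(X, n X, n² X)`. -/
def sigTri {u v : Vtx} : F (wt u v) (od u v + 1) →ₗ[ℚ] Tri u v :=
  LinearMap.pi fun i => ((nn N : ℚ) ^ (i : ℕ)) • LinearMap.id

/-- The class of `(X, n X, n² X)`. -/
def sigma {u v : Vtx} : F (wt u v) (od u v + 1) →ₗ[ℚ] W u v := (cls u v).comp (sigTri N)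

/-- `d` on copy `k`. -/
def dArr (k : ℕ) (g h : Gen) : catA0.H (vV h) (vV g) := (dB N g h, etaH N g h + (k : ℚ) • etaG N g h)

/-- The map to the previous copy. -/
def psiArr (g h : Gen) : catA0.H (vV h) (vV g) :=
  ((0 : B (emb (vV h)) (emb (vV g))), sigma N ⟨sRow N g h, mem_entry (sRow_mem N g)⟩)

/-- The map to the next copy. -/
def thArr (k : ℕ) (g h : Gen) : catA0.H (vV h) (vV g) :=
  (((k : ℚ) + 1) • thB N g h, (0 : W (emb (vV h)) (emb (vV g))))

/-- Level one to level zero. -/
def d1 (k : ℕ) (g : G1 N) (h : G0 N) : catA0.H (vg0 h) (vg1 g) := dArr N k (gen1 g) (gen0 h)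

/-- Level two to level one. -/
def d2 (k : ℕ) (g : G2 N) (h : G1 N) : catA0.H (vg1 h) (vg2 g) := dArr N k (gen2 g) (gen1 h)

/-- Level three to level two. -/
def d3 (k : ℕ) (g : G3 N) (h : G2 N) : catA0.H (vg2 h) (vg3 g) := dArr N k (gen3 g) (gen2 h)

/-- Level zero to level one of the previous copy. -/
def Psi0 (g : G0 N) (h : G1 N) : catA0.H (vg1 h) (vg0 g) := psiArr N (gen0 g) (gen1 h)

/-- Level one to level two of the previous copy. -/
def Psi1 (g : G1 N) (h : G2 N) : catA0.H (vg2 h) (vg1 g) := psiArr N (gen1 g) (gen2 h)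

/-- Level two to level three of the previous copy. -/
def Psi2 (g : G2 N) (h : G3 N) : catA0.H (vg3 h) (vg2 g) := psiArr N (gen2 g) (gen3 h)

/-- Level three of copy `k` to level zero of copy `k + 1`. -/
def th (k : ℕ) (g : G3 N) (h : G0 N) : catA0.H (vg0 h) (vg3 g) := thArr N k (gen3 g) (gen0 h)

/-- The generator `e_(i+1)` goes to `x^-(i+1) y^-(N-i)`. -/
def eps (i : G0 N) : (repY0 (nn N)).X (vg0 i) :=
  ⟨Finsupp.single (-((i.val : ℤ) + 1), -((N : ℤ) - i.val)) 1,
    Finsupp.single_mem_supported ℚ _ (show _ ∈ negSet _ by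
      have := i.isLt
      simp only [negSet, nn, Set.mem_ofPred_eq, vg0, gen0, vV, Fin.val_zero, Nat.cast_zero]
      omega)⟩

end Vale.Agent.P195.Res
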