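import Vale.Agent.P195.ResX.WPart
import Vale.Agent.P195.ResGen
import Vale.Agent.P195.CoCoker
import Vale.Agent.P195.KMap

/-!
# P195: homomorphisms from the resolution to a column over `B`

`ColExactAt N s` is the statement on tables `f i ∈ B s (vertex i)` under left multiplication by the
matrices of `d`: injective, exact twice, and in degree three the pairing `colPair` with the inverse
monomials at `s` reads off the cokernel. `colW` turns it into the cohomology of the same complex
with values in the bimodule, at the vertices twisted by the shift.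
-/

noncomputable section

namespace Vale.Agent.P195.Res

open ResR

variable {ι κ : Type}

/-- A matrix acting on the left of raw tables. -/
def lap [Fintype κ] (m : ι → κ → Op) : (κ → Op) →ₗ[ℚ] ι → Op where
  toFun f g := ∑ h, m g h * f h
  map_add' f f' := funext fun g => by simp [mul_add, Finset.sum_add_distrib]
  map_smul' c f := funext fun g => by simp [Finset.smul_sum]

theorem lap_apply [Fintype κ] (m : ι → κ → Op) (f : κ → Op) (g : ι) :
    lap m f g = ∑ h, m g h * f h := rfl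

/-- Tables of the right weights and orders out of `s`. -/
def CMem (s : Vtx) (vi : ι → V) (f : ι → Op) : Prop := ∀ i, f i ∈ B s (emb (vi i))

variable (N : ℕ)

/-- The operators of `d` from level zero. -/
def o1 (g : G1 N) (h : G0 N) : Op := dRow N (gen1 g) (gen0 h)

/-- The operators of `d` from level one. -/
def o2 (g : G2 N) (h : G1 N) : Op := dRow N (gen2 g) (gen1 h)

/-- The operators of `d` from level two. -/
def o3 (g : G3 N) (h : G2 N) : Op := dRow N (gen3 g) (gen2 h)

/-- The residue pairing of a table at level three with inverse monomials. -/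
def colPair (f : G3 N → Op) (z : T) : ℚ :=
  ∑ i : G3 N, f i z (-((i.val : ℤ) + 1), -((N : ℤ) - 1 - i.val))

theorem colPair_add (f : G3 N → Op) (z z' : T) :
    colPair N f (z + z') = colPair N f z + colPair N f z' := by
  simp [colPair, Finset.sum_add_distrib]

theorem colPair_smul (f : G3 N → Op) (c : ℚ) (z : T) :
    colPair N f (c • z) = c * colPair N f z := by
  simp [colPair, Finset.mul_sum]

/-- The cohomology of maps to the column at `s`. -/
structure ColExactAt (s : Vtx) : Prop where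
  inj : ∀ f, CMem s vg0 f → lap (o1 N) f = 0 → f = 0
  exact₁ : ∀ f, CMem s vg1 f → (lap (o2 N) f = 0 ↔ ∃ u, CMem s vg0 u ∧ lap (o1 N) u = f)
  exact₂ : ∀ f, CMem s vg2 f → (lap (o3 N) f = 0 ↔ ∃ u, CMem s vg1 u ∧ lap (o2 N) u = f)
  top : ∀ f, CMem s vg3 f →
    ((∀ z ∈ Y (nn N) s, colPair N f z = 0) ↔ ∃ u, CMem s vg2 u ∧ lap (o3 N) u = f)
  surj : ∀ ξ : Module.Dual ℚ (Y (nn N) s),
    ∃ f, CMem s vg3 f ∧ ∀ z : Y (nn N) s, colPair N f z.1 = ξ z

variable {N} {u : V}

/-- The vertex below the twist. -/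
abbrev sdown (u : V) : Vtx := ((u.1.val : ℤ) - 1, (u.2.val : ℤ))

/-- One level further down. -/
abbrev sdown' (u : V) : Vtx := ((u.1.val : ℤ) - 1, (u.2.val : ℤ) - 1)

theorem B_sdown (u v : V) : B (sdown u) (emb v) = B (emb u) (ph (emb v)) := by
  show F _ _ = F _ _
  congr 1
  simp only [wt, ph, sdown, emb]
  ring

theorem B_sdown' (u v : V) :
    B (sdown' u) (emb v) = F (wt (emb u) (ph (emb v))) (od (emb u) (ph (emb v)) + 1) := by
  show F _ _ = F _ _
  congr 1 <;> simp only [wt, od, ph, sdown', emb] <;> ring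

/-- `m = n - 1`. -/
abbrev mm (N : ℕ) : ℤ := nn (N + 1)

theorem Y_sdown (N : ℕ) (u : V) (b : ℤ) :
    Y (nn N) ((u.1.val : ℤ) - 1, b) = Y (mm N) (emb u) := by
  show Finsupp.supported ℚ ℚ (negSet _) = Finsupp.supported ℚ ℚ (negSet _)
  congr 2
  simp only [mm, nn, emb, Nat.cast_add, Nat.cast_one]
  ring

/-- Classes at the top. -/
abbrev KE (N : ℕ) (u : V) : Type := Module.Dual ℚ (Y (mm N) (emb u))

/-- The pairing, on tables of the twisted row. -/
def pairB (N : ℕ) (u : V) : (∀ i : G3 N, KB u (vg3 i)) →ₗ[ℚ] KE N u where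
  toFun f :=
    { toFun := fun z => colPair N (fun i => (f i).1) z.1
      map_add' := fun z z' => colPair_add N _ _ _
      map_smul' := fun c z => colPair_smul N _ _ _ }
  map_add' f f' := LinearMap.ext fun z => by simp [colPair, Finset.sum_add_distrib]
  map_smul' c f := LinearMap.ext fun z => by simp [colPair, Finset.mul_sum]

/-- Four tables at the twisted vertices. -/
abbrev K4 (u : V) (vi : ι → V) : Type := ∀ i, Fin 4 → KB u (vi i)

/-- Triples at the twisted vertices. -/
abbrev K3 (u : V) (vi : ι → V) : Type := ∀ i, Tri (emb u) (ph (emb (vi i)))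

/-- Classes at the twisted vertices. -/
abbrev KWt (u : V) (vi : ι → V) : Type := ∀ i, KW u (vi i)

variable {vi : ι → V} {vk : κ → V}

/-- A matrix of operators. -/
abbrev OMat (vi : ι → V) (vk : κ → V) : Type := ∀ g h, B (emb (vk h)) (emb (vi g))

/-- On four tables. -/
def l4 [Fintype κ] (m : OMat vi vk) (u : V) : K4 u vk →ₗ[ℚ] K4 u vi where
  toFun x g l := ∑ h, mulB (phB (m g h)) (x h l)
  map_add' x x' := funext fun g => funext fun l => by
    simp [mulB_add_right, Finset.sum_add_distrib]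
  map_smul' c x := funext fun g => funext fun l => by
    simp [mulB_smul_right, Finset.smul_sum]

/-- On triples. -/
def l3 [Fintype κ] (m : OMat vi vk) (u : V) : K3 u vk →ₗ[ℚ] K3 u vi :=
  LinearMap.pi fun g => ∑ h, (lmulTri (u := emb u) (phB (m g h))).comp (LinearMap.proj h)

/-- On classes. -/
def lW [Fintype κ] (m : OMat vi vk) (u : V) : KWt u vk →ₗ[ℚ] KWt u vi :=
  LinearMap.pi fun g => ∑ h, (lmul (u := emb u) (phB (m g h))).comp (LinearMap.proj h)

/-- Relations, componentwise. -/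
def krho (u : V) (vi : ι → V) : K4 u vi →ₗ[ℚ] K3 u vi :=
  LinearMap.pi fun i => (rel (emb u) (ph (emb (vi i)))).comp (LinearMap.proj i)

/-- Classes, componentwise. -/
def kpr (u : V) (vi : ι → V) : K3 u vi →ₗ[ℚ] KWt u vi :=
  LinearMap.pi fun i => (cls (emb u) (ph (emb (vi i)))).comp (LinearMap.proj i)

theorem l4_val [Fintype κ] (m : OMat vi vk) (x : K4 u vk) (g : ι) (l : Fin 4) :
    (l4 m u x g l).1 = lap (fun g h => (m g h).1) (fun h => (x h l).1) g := by
  show (∑ h, mulB (phB (m g h)) (x h l)).1 = _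
  rw [Submodule.coe_sum]
  rfl

theorem l3_val [Fintype κ] (m : OMat vi vk) (x : K3 u vk) (g : ι) (l : Fin 3) :
    (l3 m u x g l).1 = lap (fun g h => (m g h).1) (fun h => (x h l).1) g := by
  simp [l3, lap_apply, lmulTri, phB]

theorem kpr_surjective : Function.Surjective (kpr u vi) := fun z =>
  ⟨fun i => (Submodule.mkQ_surjective _ (z i)).choose,
    funext fun i => (Submodule.mkQ_surjective _ (z i)).choose_spec⟩

theorem exact_krho_kpr : Function.Exact (krho u vi) (kpr u vi) := by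
  intro x
  constructor
  · intro h
    choose q hq using fun i => (Submodule.Quotient.mk_eq_zero _).1 (congrFun h i)
    exact ⟨q, funext hq⟩
  · rintro ⟨q, rfl⟩
    exact funext fun i => (Submodule.Quotient.mk_eq_zero _).2 ⟨q i, rfl⟩

theorem krho_injective : Function.Injective (krho u vi) := fun _ _ h => funext fun i =>
  ResX.rel_injective (by have := (vi i).2.isLt; simp only [od, ph, emb]; omega) (congrFun h i)

theorem l3_krho [Fintype κ] (m : OMat vi vk) (x : K4 u vk) :
    l3 m u (krho u vk x) = krho u vi (l4 m u x) := by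
  ext g l : 3
  rw [l3_val]
  show _ = (l4 m u x g l.castSucc).1 * eul' (emb u).1 - (l4 m u x g l.succ).1
  rw [l4_val, l4_val, lap_apply, lap_apply, lap_apply, Finset.sum_mul, ← Finset.sum_sub_distrib]
  refine Finset.sum_congr rfl fun h _ => ?_
  show (m g h).1 * ((x h l.castSucc).1 * eul' (emb u).1 - (x h l.succ).1) = _
  rw [mul_sub, mul_assoc]

theorem lW_kpr [Fintype κ] (m : OMat vi vk) (x : K3 u vk) :
    lW m u (kpr u vk x) = kpr u vi (l3 m u x) := by
  funext g
  simp only [lW, kpr, l3, LinearMap.pi_apply, LinearMap.sum_apply, LinearMap.comp_apply,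
    LinearMap.proj_apply, map_sum, lmul_cls]

/-- The relations on the classes. -/
def kR (N : ℕ) (u : V) : (Fin 4 → KE N u) →ₗ[ℚ] Fin 3 → KE N u :=
  LinearMap.pi fun l =>
    (mm N : ℚ) • LinearMap.proj (R := ℚ) (φ := fun _ : Fin 4 => KE N u) l.castSucc -
      LinearMap.proj (R := ℚ) (φ := fun _ : Fin 4 => KE N u) l.succ

theorem kR_surjective (N : ℕ) (u : V) : Function.Surjective (kR N u) := by
  intro z
  refine ⟨![0, -z 0, -((mm N : ℚ) • z 0) - z 1,
    -((mm N : ℚ) • ((mm N : ℚ) • z 0 + z 1)) - z 2], ?_⟩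
  funext l
  fin_cases l <;> simp [kR, smul_add]
  all_goals module

theorem eq_of_kR {N : ℕ} {u : V} {z : Fin 4 → KE N u} (h : kR N u z = 0) (l : Fin 4) :
    z l = ((mm N : ℚ) ^ (l : ℕ)) • z 0 := by
  have e : ∀ j : Fin 3, z j.succ = (mm N : ℚ) • z j.castSucc := fun j => by
    have := congrFun h j
    exact (sub_eq_zero.1 this).symm
  have h1 : z 1 = (mm N : ℚ) • z 0 := e 0
  have h2 : z 2 = (mm N : ℚ) • z 1 := e 1
  have h3 : z 3 = (mm N : ℚ) • z 2 := e 2
  fin_cases l <;> simp [h1, h2, h3, pow_succ, smul_smul, mul_assoc]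

theorem eul'_Y {n : ℤ} {v : Vtx} {x : T} (hx : x ∈ Y n v) : eul' v.1 x = (n : ℚ) • x := by
  change x ∈ Finsupp.supported ℚ ℚ (negSet (n + v.1)) at hx
  rw [Finsupp.supported_eq_span_single] at hx
  refine LinearMap.eqOn_span (g := (n : ℚ) • (LinearMap.id : T →ₗ[ℚ] T)) ?_ hx
  rintro _ ⟨e, he, rfl⟩
  show eul' _ (Finsupp.single e 1) = (n : ℚ) • Finsupp.single e 1
  rw [eul'_single, Finsupp.smul_single, smul_eq_mul]
  have h' : (e.1 : ℚ) + e.2 = n + v.1 := by exact_mod_cast he.2.2
  congr 1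
  linear_combination h'

/-- The matrices of operators at level one. -/
abbrev m1 (N : ℕ) : OMat (ι := G1 N) (κ := G0 N) vg1 vg0 := fun g h => dB N (gen1 g) (gen0 h)

/-- The matrices of operators at level two. -/
abbrev m2 (N : ℕ) : OMat (ι := G2 N) (κ := G1 N) vg2 vg1 := fun g h => dB N (gen2 g) (gen1 h)

/-- The matrices of operators at level three. -/
abbrev m3 (N : ℕ) : OMat (ι := G3 N) (κ := G2 N) vg3 vg2 := fun g h => dB N (gen3 g) (gen2 h)

theorem exists_l4 [Fintype κ] (m : OMat vi vk) {z : K4 u vi}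
    (h : ∀ l, ∃ f, CMem (sdown u) vk f ∧ lap (fun g h => (m g h).1) f = fun g => (z g l).1) :
    ∃ x, l4 m u x = z := by
  choose f hf he using h
  refine ⟨fun i l => ⟨f l i, (B_sdown u (vk i)).le (hf l i)⟩, ?_⟩
  ext g l : 3
  rw [l4_val]
  exact congrFun (he l) g

theorem exists_l3 [Fintype κ] (m : OMat vi vk) {z : K3 u vi}
    (h : ∀ l, ∃ f, CMem (sdown' u) vk f ∧ lap (fun g h => (m g h).1) f = fun g => (z g l).1) :
    ∃ x, l3 m u x = z := by
  choose f hf he using h
  refine ⟨fun i l => ⟨f l i, (B_sdown' u (vk i)).le (hf l i)⟩, ?_⟩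
  ext g l : 3
  rw [l3_val]
  exact congrFun (he l) g

theorem cmem4 (x : K4 u vi) (l : Fin 4) : CMem (sdown u) vi fun i => (x i l).1 := fun i =>
  (B_sdown u (vi i)).ge (x i l).2

theorem cmem3 (x : K3 u vi) (l : Fin 3) : CMem (sdown' u) vi fun i => (x i l).1 := fun i =>
  (B_sdown' u (vi i)).ge (x i l).2

theorem lap_cmem [Fintype κ] (m : OMat vi vk) {s : Vtx} {f : κ → Op} (hf : CMem s vk f) :
    CMem s vi (lap (fun g h => (m g h).1) f) := fun g =>
  sum_mem fun h _ => mul_mem_B (m g h).2 (hf h)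

/-- The pairing of four tables. -/
def pair4 (N : ℕ) (u : V) : K4 u (vg3 (N := N)) →ₗ[ℚ] Fin 4 → KE N u :=
  LinearMap.pi fun l => (pairB N u).comp (LinearMap.pi fun i =>
    (LinearMap.proj (R := ℚ) (φ := fun _ : Fin 4 => KB u (vg3 i)) l).comp (LinearMap.proj i))

/-- The pairing of triples. -/
def pair3 (N : ℕ) (u : V) : K3 u (vg3 (N := N)) →ₗ[ℚ] Fin 3 → KE N u where
  toFun x l :=
    { toFun := fun z => colPair N (fun i => (x i l).1) z.1
      map_add' := fun z z' => colPair_add N _ _ _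
      map_smul' := fun c z => colPair_smul N _ _ _ }
  map_add' x x' := funext fun l => LinearMap.ext fun z => by
    simp [colPair, Finset.sum_add_distrib]
  map_smul' c x := funext fun l => LinearMap.ext fun z => by simp [colPair, Finset.mul_sum]

theorem pair4_apply (x : K4 u (vg3 (N := N))) (l : Fin 4) :
    pair4 N u x l = pairB N u fun i => x i l := rfl

theorem pair3_krho (x : K4 u (vg3 (N := N))) :
    pair3 N u (krho u vg3 x) = kR N u (pair4 N u x) := by
  funext l
  refine LinearMap.ext fun z => ?_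
  show colPair N (fun i => (x i l.castSucc).1 * eul' (emb u).1 - (x i l.succ).1) z.1 =
    (mm N : ℚ) * colPair N (fun i => (x i l.castSucc).1) z.1 -
      colPair N (fun i => (x i l.succ).1) z.1
  rw [← colPair_smul, ← eul'_Y z.2]
  simp [colPair, Finset.sum_sub_distrib, Module.End.mul_apply]

theorem top_iff {N : ℕ} {u : V} {b : ℤ} (h : ColExactAt N ((u.1.val : ℤ) - 1, b)) {f : G3 N → Op}
    (hf : CMem ((u.1.val : ℤ) - 1, b) vg3 f) :
    (∀ z : Y (mm N) (emb u), colPair N f z.1 = 0) ↔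
      ∃ w, CMem ((u.1.val : ℤ) - 1, b) vg2 w ∧ lap (o3 N) w = f :=
  Iff.trans ⟨fun e z hz => e ⟨z, (Y_sdown N u b).le hz⟩,
    fun e z => e z.1 ((Y_sdown N u b).ge z.2)⟩ (h.top f hf)

theorem exists_pair {N : ℕ} {u : V} {b : ℤ} (h : ColExactAt N ((u.1.val : ℤ) - 1, b))
    (ξ : KE N u) :
    ∃ f, CMem ((u.1.val : ℤ) - 1, b) vg3 f ∧
      ∀ z : Y (mm N) (emb u), colPair N f z.1 = ξ z := by
  obtain ⟨f, hf, e⟩ := h.surj (ξ.comp (LinearEquiv.ofEq _ _ (Y_sdown N u b)).toLinearMap)
  exact ⟨f, hf, fun z => e ⟨z.1, (Y_sdown N u b).ge z.2⟩⟩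

/-- The cokernel data of the twisted rows at `u`. -/
def colW (N : ℕ) (u : V) (h : ColExactAt N (sdown u)) (h' : ColExactAt N (sdown' u)) :
    CoCokerData ℚ (K4 u (vg0 (N := N))) (K4 u (vg1 (N := N))) (K4 u (vg2 (N := N)))
      (K4 u (vg3 (N := N))) (Fin 4 → KE N u) (K3 u (vg0 (N := N))) (K3 u (vg1 (N := N)))
      (K3 u (vg2 (N := N))) (K3 u (vg3 (N := N))) (Fin 3 → KE N u) (KWt u (vg0 (N := N)))
      (KWt u (vg1 (N := N))) (KWt u (vg2 (N := N))) (KWt u (vg3 (N := N))) where
  d0 := l4 (m1 N) u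
  d1 := l4 (m2 N) u
  d2 := l4 (m3 N) u
  L := pair4 N u
  d0' := l3 (m1 N) u
  d1' := l3 (m2 N) u
  d2' := l3 (m3 N) u
  L' := pair3 N u
  e0 := lW (m1 N) u
  e1 := lW (m2 N) u
  e2 := lW (m3 N) u
  ρ0 := krho u vg0
  ρ1 := krho u vg1
  ρ2 := krho u vg2
  ρ3 := krho u vg3
  ρE := kR N u
  π0 := kpr u vg0
  π1 := kpr u vg1
  π2 := kpr u vg2
  π3 := kpr u vg3
  exact1 x := by
    refine ⟨fun e => exists_l4 _ fun l => (h.exact₁ _ (cmem4 x l)).1 (funext fun g =>
      (l4_val (m2 N) x g l).symm.trans (congrArg (fun y => (y g l).1) e)), ?_⟩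
    rintro ⟨w, rfl⟩
    ext g l : 3
    rw [l4_val, show (fun i => (l4 (m1 N) u w i l).1) = lap (o1 N) (fun i => (w i l).1) from
      funext fun i => l4_val _ _ _ _]
    exact congrFun ((h.exact₁ _ (lap_cmem (m1 N) (cmem4 w l))).2 ⟨_, cmem4 w l, rfl⟩) g
  exact2 x := by
    refine ⟨fun e => exists_l4 _ fun l => (h.exact₂ _ (cmem4 x l)).1 (funext fun g =>
      (l4_val (m3 N) x g l).symm.trans (congrArg (fun y => (y g l).1) e)), ?_⟩
    rintro ⟨w, rfl⟩
    ext g l : 3
    rw [l4_val, show (fun i => (l4 (m2 N) u w i l).1) = lap (o2 N) (fun i => (w i l).1) from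
      funext fun i => l4_val _ _ _ _]
    exact congrFun ((h.exact₂ _ (lap_cmem (m2 N) (cmem4 w l))).2 ⟨_, cmem4 w l, rfl⟩) g
  exact_L x := by
    refine ⟨fun e => exists_l4 _ fun l => (top_iff h (cmem4 x l)).1 fun z =>
      LinearMap.congr_fun (congrFun e l) z, ?_⟩
    rintro ⟨w, rfl⟩
    funext l
    refine LinearMap.ext fun z => ?_
    show colPair N (fun i => (l4 (m3 N) u w i l).1) z.1 = 0
    rw [show (fun i => (l4 (m3 N) u w i l).1) = lap (o3 N) (fun i => (w i l).1) from
      funext fun i => l4_val _ _ _ _]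
    exact (top_iff h (lap_cmem (m3 N) (cmem4 w l))).2 ⟨_, cmem4 w l, rfl⟩ z
  inj0' := (injective_iff_map_eq_zero _).2 fun x e => by
    ext i l : 3
    exact congrFun (h'.inj _ (cmem3 x l) (funext fun g =>
      (l3_val (m1 N) x g l).symm.trans (congrArg (fun y => (y g l).1) e))) i
  exact1' x := by
    refine ⟨fun e => exists_l3 _ fun l => (h'.exact₁ _ (cmem3 x l)).1 (funext fun g =>
      (l3_val (m2 N) x g l).symm.trans (congrArg (fun y => (y g l).1) e)), ?_⟩
    rintro ⟨w, rfl⟩
    ext g l : 3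
    rw [l3_val, show (fun i => (l3 (m1 N) u w i l).1) = lap (o1 N) (fun i => (w i l).1) from
      funext fun i => l3_val _ _ _ _]
    exact congrFun ((h'.exact₁ _ (lap_cmem (m1 N) (cmem3 w l))).2 ⟨_, cmem3 w l, rfl⟩) g
  exact2' x := by
    refine ⟨fun e => exists_l3 _ fun l => (h'.exact₂ _ (cmem3 x l)).1 (funext fun g =>
      (l3_val (m3 N) x g l).symm.trans (congrArg (fun y => (y g l).1) e)), ?_⟩
    rintro ⟨w, rfl⟩
    ext g l : 3
    rw [l3_val, show (fun i => (l3 (m2 N) u w i l).1) = lap (o2 N) (fun i => (w i l).1) from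
      funext fun i => l3_val _ _ _ _]
    exact congrFun ((h'.exact₂ _ (lap_cmem (m2 N) (cmem3 w l))).2 ⟨_, cmem3 w l, rfl⟩) g
  exact_L' x := by
    refine ⟨fun e => exists_l3 _ fun l => (top_iff h' (cmem3 x l)).1 fun z =>
      LinearMap.congr_fun (congrFun e l) z, ?_⟩
    rintro ⟨w, rfl⟩
    funext l
    refine LinearMap.ext fun z => ?_
    show colPair N (fun i => (l3 (m3 N) u w i l).1) z.1 = 0
    rw [show (fun i => (l3 (m3 N) u w i l).1) = lap (o3 N) (fun i => (w i l).1) from
      funext fun i => l3_val _ _ _ _]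
    exact (top_iff h' (lap_cmem (m3 N) (cmem3 w l))).2 ⟨_, cmem3 w l, rfl⟩ z
  surj_L ξ := by
    choose f hf e using fun l => exists_pair h (ξ l)
    exact ⟨fun i l => ⟨f l i, (B_sdown u (vg3 i)).le (hf l i)⟩,
      funext fun l => LinearMap.ext (e l)⟩
  surj_L' ξ := by
    choose f hf e using fun l => exists_pair h' (ξ l)
    exact ⟨fun i l => ⟨f l i, (B_sdown' u (vg3 i)).le (hf l i)⟩,
      funext fun l => LinearMap.ext (e l)⟩
  sq0 := l3_krho _
  sq1 := l3_krho _
  sq2 := l3_krho _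
  sq3 := pair3_krho
  inj1 := krho_injective
  inj2 := krho_injective
  inj3 := krho_injective
  sq0' := lW_kpr _
  sq1' := lW_kpr _
  sq2' := lW_kpr _
  coker0 := exact_krho_kpr
  coker1 := exact_krho_kpr
  coker2 := exact_krho_kpr
  coker3 := exact_krho_kpr
  onto0 := kpr_surjective
  onto1 := kpr_surjective
  onto2 := kpr_surjective
  onto3 := kpr_surjective

end Vale.Agent.P195.Res
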