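import Vale.Agent.P195.BRes.Col
import Vale.Agent.P195.KCol

/-!
# P195: the columns of the `B`-resolution on indexed tables

`colExactAt` transports `BRes.col_zero`, ..., `BRes.col_pair` along the enumerations of the levels.
-/

noncomputable section

namespace Vale.Agent.P195.Res

open ResR Finset

variable {N l l' : ℕ} {ι κ : Type} [Fintype ι] [Fintype κ] {s : Vtx}

/-- A table, extended by zero to all generators. -/
def ext0 (E : Enum N l ι) (f : ι → Op) : Gen → Op := Function.extend E.gen f 0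

theorem ext0_gen (E : Enum N l ι) (f : ι → Op) (i : ι) : ext0 E f (E.gen i) = f i :=
  E.inj.extend_apply f 0 i

theorem ext0_mem (E : Enum N l ι) {f : ι → Op} (hf : CMem s (fun i => vV (E.gen i)) f) :
    ext0 E f ∈ BRes.Co N s l := fun g => by
  by_cases hg : ∃ i, E.gen i = g
  · obtain ⟨i, rfl⟩ := hg
    rw [ext0_gen]
    exact ⟨by
        have h : f i ∈ B s (emb (vV (E.gen i))) := hf i
        rwa [emb_vV] at h,
      fun h => absurd ((E.range _).2 ⟨i, rfl⟩) h⟩
  · rw [ext0, Function.extend_apply' _ _ _ hg]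
    exact ⟨zero_mem _, fun _ => rfl⟩

theorem restrict_mem (E : Enum N l ι) {h : Gen → Op} (hh : h ∈ BRes.Co N s l) :
    CMem s (fun i => vV (E.gen i)) fun i => h (E.gen i) := fun i => by
  show h (E.gen i) ∈ B s (emb (vV (E.gen i)))
  rw [emb_vV]
  exact (hh (E.gen i)).1

theorem ext_restrict (E : Enum N l ι) {h : Gen → Op} (hh : h ∈ BRes.Co N s l) :
    ext0 E (fun i => h (E.gen i)) = h := by
  funext g
  by_cases hg : ∃ i, E.gen i = g
  · obtain ⟨i, rfl⟩ := hg
    rw [ext0_gen]
  · rw [ext0, Function.extend_apply' _ _ _ hg]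
    exact ((hh g).2 fun hc => hg ((E.range g).1 hc)).symm

theorem dl_ext0 (E : Enum N l ι) (E' : Enum N l' κ) (hl : l' = l + 1) {f : ι → Op}
    (hf : CMem s (fun i => vV (E.gen i)) f) :
    BRes.dl N (ext0 E f) = ext0 E' (lap (fun g h => dRow N (E'.gen g) (E.gen h)) f) := by
  funext g
  by_cases hg : ∃ i, E'.gen i = g
  · obtain ⟨i, rfl⟩ := hg
    obtain ⟨hv, hlev⟩ := (E'.range _).2 ⟨i, rfl⟩
    have hx : dRow N (E'.gen i) ∈ Lev N l := by
      have h := dRow_lev (N := N) (E'.gen i)
      rwa [hlev, show l' - 1 = l by omega] at h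
    rw [ext0_gen, lap_apply, BRes.dl, if_pos hv, Finsupp.linearCombination_apply,
      E.sum_eq hx (fun g c => c • ext0 E f g) fun g => zero_smul _ _]
    exact sum_congr rfl fun j _ => by rw [ext0_gen, smul_eq_mul]
  · rw [ext0, ext0, Function.extend_apply' _ _ _ hg]
    subst hl
    exact (BRes.dl_mem (ext0_mem E hf) g).2 fun hc => hg ((E'.range g).1 hc)

theorem ext0_injective (E : Enum N l ι) {f f' : ι → Op} (h : ext0 E f = ext0 E f') : f = f' :=
  funext fun i => by rw [← ext0_gen E f, h, ext0_gen]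

theorem ext0_zero (E : Enum N l ι) : ext0 E (0 : ι → Op) = 0 := by
  funext g
  by_cases hg : ∃ i, E.gen i = g
  · obtain ⟨i, rfl⟩ := hg
    rw [ext0_gen]; rfl
  · rw [ext0, Function.extend_apply' _ _ _ hg]

theorem colRes_ext0 (f : G3 N → Op) (z : T) :
    BRes.colRes N (ext0 (enum3 N) f) z = colPair N f z := by
  rcases Nat.lt_or_ge N 2 with hN | hN
  · rw [BRes.colRes, BRes.Lam, show N - 2 = 0 by omega, colPair]
    have : IsEmpty (Fin (N - 1)) := by rw [show N - 1 = 0 by omega]; infer_instance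
    simp only [univ_eq_empty, sum_empty]
    rw [sum_range_one, BRes.tab, ext0, Function.extend_apply' _ _ _ fun ⟨i, _⟩ => isEmptyElim i]
    simp
  have key : ∀ (i j : ℕ) (t : T),
      BRes.res ((X₀ ^ i * X₁ ^ j) t) = t (-((i : ℤ) + 1), -((j : ℤ) + 1)) := by
    intro i j t
    induction t using Finsupp.induction_linear with
    | zero => simp
    | add f g hf hg => rw [map_add, map_add, hf, hg, Finsupp.add_apply]
    | single e c =>
      rw [Module.End.mul_apply, X₁_pow_single, X₀_pow_single, BRes.res, Finsupp.lapply_apply,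
        Finsupp.single_apply, Finsupp.single_apply]
      refine if_congr ?_ rfl rfl
      simp only [Prod.ext_iff]
      omega
  obtain ⟨M, rfl⟩ : ∃ M, N = M + 2 := ⟨N - 2, by omega⟩
  rw [BRes.colRes, BRes.Lam, Nat.add_sub_cancel, LinearMap.comp_apply, LinearMap.sum_apply,
    map_sum, sum_range]
  refine sum_congr rfl fun i _ => ?_
  rw [← mul_assoc, Module.End.mul_apply, key]
  have hi : ext0 (enum3 (M + 2)) f (.t i.val) = f i := ext0_gen (enum3 (M + 2)) f i
  rw [show BRes.tab (ext0 (enum3 (M + 2)) f) Gen.t i.val = f i from hi]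
  congr 2
  have h := i.isLt
  push_cast
  omega

/-- The cohomology of the columns of the `B`-resolution. -/
theorem colExactAt_of_le (hN : 2 ≤ N) {s : Vtx} (ha : s.1 ≤ 1) (hb : s.2 ≤ 2) : ColExactAt N s where
  inj f hf h := by
    have hc := ext0_mem (enum0 N) hf
    refine ext0_injective (enum0 N) ?_
    rw [ext0_zero]
    refine BRes.col_zero hc ?_
    rw [dl_ext0 (enum0 N) (enum1 N) rfl hf]
    exact (congrArg (ext0 (enum1 N)) h).trans (ext0_zero _)
  exact₁ f hf := by
    constructor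
    · intro h
      obtain ⟨x, hx, e⟩ := BRes.col_one hN (ext0_mem (enum1 N) hf)
        ((dl_ext0 (enum1 N) (enum2 N) rfl hf).trans
          ((congrArg (ext0 (enum2 N)) h).trans (ext0_zero _)))
      refine ⟨_, restrict_mem (enum0 N) hx, ext0_injective (enum1 N) ?_⟩
      rw [← e]
      conv_rhs => rw [← ext_restrict (enum0 N) hx]
      exact (dl_ext0 (enum0 N) (enum1 N) rfl (restrict_mem (enum0 N) hx)).symm
    · rintro ⟨u, hu, rfl⟩
      refine ext0_injective (enum2 N) ?_
      refine (dl_ext0 (enum1 N) (enum2 N) rfl hf).symm.trans ?_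
      rw [ext0_zero, show ext0 (enum1 N) (lap (o1 N) u) = BRes.dl N (ext0 (enum0 N) u) from
        (dl_ext0 (enum0 N) (enum1 N) rfl hu).symm, BRes.dl_dl hN]
  exact₂ f hf := by
    constructor
    · intro h
      obtain ⟨x, hx, e⟩ := BRes.col_two hN ha (ext0_mem (enum2 N) hf)
        ((dl_ext0 (enum2 N) (enum3 N) rfl hf).trans
          ((congrArg (ext0 (enum3 N)) h).trans (ext0_zero _)))
      refine ⟨_, restrict_mem (enum1 N) hx, ext0_injective (enum2 N) ?_⟩
      rw [← e]
      conv_rhs => rw [← ext_restrict (enum1 N) hx]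
      exact (dl_ext0 (enum1 N) (enum2 N) rfl (restrict_mem (enum1 N) hx)).symm
    · rintro ⟨u, hu, rfl⟩
      refine ext0_injective (enum3 N) ?_
      refine (dl_ext0 (enum2 N) (enum3 N) rfl hf).symm.trans ?_
      rw [ext0_zero, show ext0 (enum2 N) (lap (o2 N) u) = BRes.dl N (ext0 (enum1 N) u) from
        (dl_ext0 (enum1 N) (enum2 N) rfl hu).symm, BRes.dl_dl hN]
  top f hf := by
    have h3 := BRes.col_three hN ha (ext0_mem (enum3 N) hf)
    constructor
    · intro hz
      obtain ⟨x, hx, e⟩ := h3.2 fun z => by rw [colRes_ext0]; exact hz z.1 z.2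
      refine ⟨_, restrict_mem (enum2 N) hx, ext0_injective (enum3 N) ?_⟩
      rw [← e]
      conv_rhs => rw [← ext_restrict (enum2 N) hx]
      exact (dl_ext0 (enum2 N) (enum3 N) rfl (restrict_mem (enum2 N) hx)).symm
    · rintro ⟨u, hu, rfl⟩ z hz
      rw [← colRes_ext0]
      exact h3.1 ⟨_, ext0_mem (enum2 N) hu, dl_ext0 (enum2 N) (enum3 N) rfl hu⟩ ⟨z, hz⟩
  surj ξ := by
    obtain ⟨h, hh, e⟩ := BRes.col_pair hN ha hb ξ
    refine ⟨_, restrict_mem (enum3 N) hh, fun z => ?_⟩
    rw [← e z, ← colRes_ext0, ext_restrict (enum3 N) hh]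

/-- The case used at the twisted vertices. -/
theorem colExactAt {N : ℕ} (hN : 4 ≤ N) {s : Vtx} (_h : -1 ≤ s.1) (h' : s.1 ≤ 0)
    (_hb : -1 ≤ s.2) (hb' : s.2 ≤ 2) : ColExactAt N s :=
  colExactAt_of_le (by omega) (h'.trans zero_le_one) hb'

end Vale.Agent.P195.Res
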