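import Vale.Agent.P195.KDual

/-!
# P195: naturality of the classes in degree two

For an arrow `f : u → w` the class `kap w η` composed with `f` is that of `η ∘ f`, up to a
coboundary of the bimodule part of copy zero.
-/

noncomputable section

namespace Vale.Agent.P195.Res

variable {N : ℕ} {u w : V}

/-- A table composed with an operator from `u`. -/
def compB (f : B (emb u) (emb w)) (g : ∀ i : G3 N, KB w (vg3 i)) : ∀ i : G3 N, KB u (vg3 i) :=
  fun i => mulB (g i) f

theorem pairB_compB (f : B (emb u) (emb w)) (g : ∀ i : G3 N, KB w (vg3 i)) :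
    pairB N u (compB f g) = (pairB N w g).comp (yact (mm N) f) := by
  classical
  refine LinearMap.ext fun z => ?_
  show colPair N (fun i => (g i).1 * f.1) z.1 =
    colPair N (fun i => (g i).1) (trunc (mm N) (emb w) (f.1 z.1)).1
  set t := f.1 z.1 with ht
  set t' := (trunc (mm N) (emb w) t).1 with ht'
  suffices h : colPair N (fun i => (g i).1) (t - t') = 0 by
    have e := colPair_add N (fun i => (g i).1) (t - t') t'
    rw [sub_add_cancel, h, zero_add] at e
    exact e
  have hd : t ∈ Finsupp.supported ℚ ℚ {e : ℤ × ℤ | e.1 + e.2 = mm N + (emb w).1} := by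
    have := apply_supported f.2 (Finsupp.supported_mono (fun e he => he.2.2) z.2)
    rwa [show mm N + (emb u).1 + wt (emb u) (emb w) = mm N + (emb w).1 by
      simp only [wt]; ring] at this
  have hs : t - t' ∈ Finsupp.supported ℚ ℚ {e : ℤ × ℤ | 0 ≤ e.1 ∨ 0 ≤ e.2} := by
    intro e he
    have he' := Finsupp.mem_support_iff.1 he
    by_contra hc
    simp only [Set.mem_setOf_eq, not_or, not_le] at hc
    apply he'
    rw [Finsupp.sub_apply, ht', trunc_coe]
    by_cases h : e.1 + e.2 = mm N + (emb w).1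
    · rw [Finsupp.filter_apply_pos _ _ (show e ∈ negSet _ from ⟨hc.1, hc.2, h⟩), sub_self]
    · rw [Finsupp.filter_apply_neg _ _ (fun q : e ∈ negSet _ => h q.2.2),
        Finsupp.notMem_support_iff.1 fun q => h (hd q), sub_zero]
  refine Finset.sum_eq_zero fun i _ => ?_
  by_contra hne
  have := i.isLt
  rcases apply_nonneg (g i).2 hs (Finsupp.mem_support_iff.2 hne) with h | h <;>
    simp only at h <;> omega

theorem kmapS_compB (f : H (emb u) (emb w)) (g : ∀ i : G3 N, KB w (vg3 i)) (i : G2 N) :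
    hcomp (kinr vg2 w (kmapS w (vi := vg2) (vk := vg3) (Psi2 N) g) i) f =
      ((0 : KB u (vg2 i)), kmapS u (vi := vg2) (vk := vg3) (Psi2 N) (compB f.1 g) i) := by
  rw [hcomp_apply, kinr_apply]
  refine Prod.ext (Subtype.ext (zero_mul _)) ?_
  simp only [map_zero, LinearMap.zero_apply, zero_add, add_zero]
  refine Eq.trans ?_ (kmapS_apply (Psi2 N) (compB f.1 g) i).symm
  refine (congrArg (rmul f.1) (kmapS_apply (Psi2 N) g i)).trans ?_
  rw [map_sum]
  exact Finset.sum_congr rfl fun h _ => (rmul_rmul (g h) f.1 _).symm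

theorem kinr_add_kinr (z z' : KWt u (vg2 (N := N))) (a : KWt u (vg1 (N := N)))
    (hz : lW (m2 N) u a + z = z') :
    kinr vg2 u z' = kmap u (vi := vg2) (vk := vg1) (d2 N 0) (kinr vg1 u a) + kinr vg2 u z := by
  subst hz
  rw [map_add]
  exact congrArg (· + kinr vg2 u z) (kmap_kinr (d2 N 0) a).symm

variable (hN : 2 ≤ N) (hu : ColExactAt N (sdown u)) (hu' : ColExactAt N (sdown' u))
  (hw : ColExactAt N (sdown w))
include hN hu hu'

theorem kap_nat (f : H (emb u) (emb w)) (η : KE N w) :
    ∃ a : KWt u (vg1 (N := N)), (fun i => hcomp (kap N w hw η i) f) =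
      kmap u (vi := vg2) (vk := vg1) (d2 N 0) (kinr vg1 u a) +
        kap N u hu (η.comp (yact (mm N) f.1)) := by
  set g := compB f.1 (kapSec N w hw η) with hg
  set g' := kapSec N u hu (η.comp (yact (mm N) f.1)) with hg'
  obtain ⟨a, ha⟩ := (kap_boundary_iff hN hu hu' (g - g')).2 (by
    rw [map_sub, hg, hg', pairB_compB, pairB_kapSec hN hw, pairB_kapSec hN hu, sub_self])
  have e : lW (m2 N) u a + kmapS u (vi := vg2) (vk := vg3) (Psi2 N) g' =
      kmapS u (vi := vg2) (vk := vg3) (Psi2 N) g := by rw [ha, map_sub, sub_add_cancel]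
  exact ⟨a, (funext fun i => kmapS_compB f _ i).trans (kinr_add_kinr _ _ a e)⟩

end Vale.Agent.P195.Res
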