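import Vale.Agent.P195.ResR.Squares

/-!
# P195: the differential of the resolution squares to zero

Sums over one level of `hcomp` of two entries. The maps `Psi_j` are the same on every copy, so the
two identities mixing them with `d` hold for any two copies.
-/

noncomputable section

namespace Vale.Agent.P195.Res

open ResR

variable {N : ℕ}

theorem lev0 (i : G0 N) : (gen0 i).Valid N ∧ (gen0 i).lev = 0 := ((enum0 N).range _).2 ⟨i, rfl⟩

theorem lev1 (i : G1 N) : (gen1 i).Valid N ∧ (gen1 i).lev = 1 := ((enum1 N).range _).2 ⟨i, rfl⟩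

theorem lev2 (i : G2 N) : (gen2 i).Valid N ∧ (gen2 i).lev = 2 := ((enum2 N).range _).2 ⟨i, rfl⟩

theorem lev3 (i : G3 N) : (gen3 i).Valid N ∧ (gen3 i).lev = 3 := ((enum3 N).range _).2 ⟨i, rfl⟩

/-- Level two to level zero of the first copy. -/
theorem sq21_zero (hN : 2 ≤ N) (g : G2 N) (h : G0 N) :
    ∑ m, hc (d2 N 0 g m) (d1 N 0 m h) = 0 := by
  obtain ⟨hg, hgl⟩ := lev2 g
  obtain ⟨hh, hhl⟩ := lev0 h
  refine (pair_dd hN (enum1 N) 0 hg hgl le_rfl hh (by rw [hhl])).trans (Prod.ext rfl ?_)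
  refine first_dd (N := N) _ ?_
  have t := congrArg (fun y : Row => y (gen0 h)) (total hN 0 hg hgl.ge)
  have z : thRow N (gen2 g) = 0 := by rcases g with ⟨j, i⟩ | i <;> rfl
  simpa [z] using t

/-- Level two to level zero of a later copy. -/
theorem sq21 (hN : 2 ≤ N) (k : ℕ) (g : G2 N) (h : G0 N) :
    ∑ m, hc (d2 N (k + 1) g m) (d1 N (k + 1) m h) + ∑ m, hc (Psi2 N g m) (th N k m h) = 0 := by
  obtain ⟨hg, hgl⟩ := lev2 g
  obtain ⟨hh, hhl⟩ := lev0 h
  refine (congrArg₂ (· + ·) (pair_dd hN (enum1 N) (k + 1) hg hgl le_rfl hh (by rw [hhl]))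
    (pair_psi_th (enum3 N) k (by rw [hgl]))).trans (Prod.ext (add_zero _) ?_)
  rw [Prod.snd_add, sigma_eq_first N _ (by
    simpa [sub_eq_add_neg] using mem_entry (h := gen0 h) (thS_mem hN hg hgl)),
    ← map_smul, ← map_add]
  refine first_dd (N := N) _ ?_
  have t := congrArg (fun y : Row => y (gen0 h)) (total hN (k + 1) hg hgl.ge)
  have z : thRow N (gen2 g) = 0 := by rcases g with ⟨j, i⟩ | i <;> rfl
  simpa [z] using t

/-- Level three to level one. -/
theorem sq32 (hN : 2 ≤ N) (k : ℕ) (g : G3 N) (h : G1 N) :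
    ∑ m, hc (d3 N k g m) (d2 N k m h) + ∑ m, hc (th N k g m) (Psi0 N m h) = 0 := by
  obtain ⟨hg, hgl⟩ := lev3 g
  obtain ⟨hh, hhl⟩ := lev1 h
  refine (congrArg₂ (· + ·) (pair_dd hN (enum2 N) k hg hgl one_le_two hh (by rw [hhl]))
    (pair_th_psi (enum0 N) k)).trans (Prod.ext (add_zero _) ?_)
  rw [Prod.snd_add, sigma_eq_first N _ (by
    simpa [sub_eq_add_neg] using mem_entry (h := gen1 h) (sTh_mem hN hgl)),
    ← map_smul, ← map_add]
  refine first_dd (N := N) _ ?_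
  have t := congrArg (fun y : Row => y (gen1 h)) (total hN k hg (by omega))
  have z : sRow N (gen3 g) = 0 := rfl
  simpa [z] using t

/-- `Psi` then `d`, from level zero. -/
theorem sqP0 (hN : 2 ≤ N) (k : ℕ) (g : G0 N) (h : G0 N) :
    ∑ m, hc (Psi0 N g m) (d1 N k m h) = 0 := by
  obtain ⟨hg, hgl⟩ := lev0 g
  refine (pair_psi_d (enum1 N) k (by rw [hgl])).trans (Prod.ext rfl ?_)
  refine sigma_euler_row hN hg _ ?_
  have z : dRow N (gen0 g) = 0 := rfl
  simp [z]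

/-- `Psi` and `d`, from level one. -/
theorem sqP1 (hN : 2 ≤ N) (k k' : ℕ) (g : G1 N) (h : G1 N) :
    ∑ m, hc (Psi1 N g m) (d2 N k m h) + ∑ m, hc (d1 N k' g m) (Psi0 N m h) = 0 := by
  obtain ⟨hg, hgl⟩ := lev1 g
  refine (congrArg₂ (· + ·) (pair_psi_d (enum2 N) k (by rw [hgl]))
    (pair_d_psi (enum0 N) k' (by rw [hgl]))).trans (Prod.ext (add_zero _) ?_)
  rw [Prod.snd_add, ← map_add]
  exact sigma_euler_row hN hg _ rfl

/-- `Psi` and `d`, from level two. -/
theorem sqP2 (hN : 2 ≤ N) (k k' : ℕ) (g : G2 N) (h : G2 N) :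
    ∑ m, hc (Psi2 N g m) (d3 N k m h) + ∑ m, hc (d2 N k' g m) (Psi1 N m h) = 0 := by
  obtain ⟨hg, hgl⟩ := lev2 g
  refine (congrArg₂ (· + ·) (pair_psi_d (enum3 N) k (by rw [hgl]))
    (pair_d_psi (enum1 N) k' (by rw [hgl]))).trans (Prod.ext (add_zero _) ?_)
  rw [Prod.snd_add, ← map_add]
  exact sigma_euler_row hN hg _ rfl

/-- `d` then `Psi`, from level three. -/
theorem sqP3 (hN : 2 ≤ N) (k : ℕ) (g : G3 N) (h : G3 N) :
    ∑ m, hc (d3 N k g m) (Psi2 N m h) = 0 := by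
  obtain ⟨hg, hgl⟩ := lev3 g
  refine (pair_d_psi (enum2 N) k (by rw [hgl])).trans (Prod.ext rfl ?_)
  refine sigma_euler_row hN hg _ ?_
  have z : sRow N (gen3 g) = 0 := rfl
  simp [z]

/-- Two maps to previous copies compose to zero. -/
theorem psi_psi (g m h : Gen) : hc (psiArr N g m) (psiArr N m h) = 0 := by
  rw [hc_apply]
  refine Prod.ext (Subtype.ext (zero_mul _)) ?_
  simp [psiArr]

end Vale.Agent.P195.Res
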