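import Vale.Agent.P195.ResExact
import Vale.Agent.P195.ResD

/-!
# P195: the squares, as products of matrices
-/

noncomputable section

namespace Vale.Agent.P195.Res

variable {N : ℕ}

/-- The squares of the glued matrix hold. -/
theorem squares (hN : 2 ≤ N) : Squares N where
  sq21_zero := funext fun g => funext fun h => sq21_zero hN g h
  sq21 k := funext fun g => funext fun h => sq21 hN k g h
  sq32 k := funext fun g => funext fun h => sq32 hN k g h
  sqP₁ k := funext fun g => funext fun h => sqP1 hN k (k + 1) g h
  sqP₂ k := funext fun g => funext fun h => sqP2 hN k (k + 1) g h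

end Vale.Agent.P195.Res
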