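import Vale.Agent.P195.Homological

/-!
# P195: gluing copies of a length three complex into a resolution

Copy `k` of `P3 → P2 → P1 → P0` sits in degrees `2k+3, …, 2k`; `S j ⊆ P j` are the parts that go
to zero modulo the square zero ideal. Modulo `S` each copy resolves `Y`, on `S` the homology is `Y`
in degree one, and `Ψ` (copy `k` to copy `k-1`, values in `S`) identifies the two. `θ` runs from
copy `k` to copy `k+1`. The total complex is then a projective resolution of `Y`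
(`GlueData.projSeq`), and `GlueData.extVan` reduces vanishing of `Ext(Y,Y')` to statements about
one copy.
-/

universe v

namespace Vale.Agent.P195

variable (A : Type v) [Ring A] (P0 P1 P2 P3 Y : Type v) [AddCommGroup P0] [Module A P0]
  [AddCommGroup P1] [Module A P1] [AddCommGroup P2] [Module A P2] [AddCommGroup P3] [Module A P3]
  [AddCommGroup Y] [Module A Y]

/-- The maps of the glued complex and what they satisfy. The index `k` is the copy of the source. -/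
structure GlueData where
  S0 : Submodule A P0
  S1 : Submodule A P1
  S2 : Submodule A P2
  S3 : Submodule A P3
  ε : P0 →ₗ[A] Y
  d1 : ℕ → P1 →ₗ[A] P0
  d2 : ℕ → P2 →ₗ[A] P1
  d3 : ℕ → P3 →ₗ[A] P2
  Ψ0 : ℕ → P0 →ₗ[A] P1
  Ψ1 : ℕ → P1 →ₗ[A] P2
  Ψ2 : ℕ → P2 →ₗ[A] P3
  θ : ℕ → P3 →ₗ[A] P0
  Ψ0_range : ∀ k x, Ψ0 k x ∈ S1
  Ψ1_range : ∀ k x, Ψ1 k x ∈ S2
  Ψ2_range : ∀ k x, Ψ2 k x ∈ S3
  Ψ1_kill : ∀ k, ∀ x ∈ S1, Ψ1 k x = 0
  Ψ2_kill : ∀ k, ∀ x ∈ S2, Ψ2 k x = 0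
  θ_S : ∀ k, ∀ x ∈ S3, θ k x ∈ S0
  d12_zero : ∀ x, d1 0 (d2 0 x) = 0
  d12 : ∀ k x, d1 (k + 1) (d2 (k + 1) x) + θ k (Ψ2 (k + 1) x) = 0
  d23 : ∀ k x, d2 k (d3 k x) + Ψ0 (k + 1) (θ k x) = 0
  dΨ0 : ∀ k x, d1 k (Ψ0 (k + 1) x) = 0
  dΨ1 : ∀ k x, d2 k (Ψ1 (k + 1) x) + Ψ0 (k + 1) (d1 (k + 1) x) = 0
  dΨ2 : ∀ k x, d3 k (Ψ2 (k + 1) x) + Ψ1 (k + 1) (d2 (k + 1) x) = 0
  ε_surj : Function.Surjective ε
  /-- exactness modulo `S` -/
  ker_ε : ∀ k, LinearMap.ker ε = LinearMap.range (d1 k) ⊔ S0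
  mod1 : ∀ k x, d1 k x ∈ S0 → ∃ u, x - d2 k u ∈ S1
  mod2 : ∀ k x, d2 k x ∈ S1 → ∃ u, x - d3 k u ∈ S2
  mod3 : ∀ k x, d3 k x ∈ S2 → x ∈ S3
  /-- homology on `S` -/
  sub0 : ∀ k, ∀ x ∈ S0, ∃ u ∈ S1, d1 k u = x
  sub1 : ∀ k, ∀ x ∈ S1, d1 k x = 0 → ∃ x₀, ∃ u ∈ S2, x = d2 k u + Ψ0 (k + 1) x₀
  sub2 : ∀ k, ∀ x ∈ S2, d2 k x = 0 → ∃ u ∈ S3, d3 k u = x
  sub3 : ∀ k, ∀ x ∈ S3, d3 k x = 0 → x = 0
  connect : ∀ k x, ∀ u ∈ S2, d2 k u = Ψ0 (k + 1) x → ε x = 0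

/-- The terms `P0, P1, P2 × P0, P3 × P1, P2 × P0, …`. -/
def GlueQ : ℕ → Type v
  | 0 => P0
  | 1 => P1
  | 2 => P2 × P0
  | 3 => P3 × P1
  | n + 4 => GlueQ (n + 2)

instance GlueQ.addCommGroup : ∀ n, AddCommGroup (GlueQ P0 P1 P2 P3 n)
  | 0 => inferInstanceAs (AddCommGroup P0)
  | 1 => inferInstanceAs (AddCommGroup P1)
  | 2 => inferInstanceAs (AddCommGroup (P2 × P0))
  | 3 => inferInstanceAs (AddCommGroup (P3 × P1))
  | n + 4 => GlueQ.addCommGroup (n + 2)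

instance GlueQ.module : ∀ n, Module A (GlueQ P0 P1 P2 P3 n)
  | 0 => inferInstanceAs (Module A P0)
  | 1 => inferInstanceAs (Module A P1)
  | 2 => inferInstanceAs (Module A (P2 × P0))
  | 3 => inferInstanceAs (Module A (P3 × P1))
  | n + 4 => GlueQ.module (n + 2)

variable {A P0 P1 P2 P3 Y}

namespace GlueData

variable (G : GlueData A P0 P1 P2 P3 Y)

/-- Degree `2` to degree `1`. -/
def first : P2 × P0 →ₗ[A] P1 := (G.d2 0).coprod (G.Ψ0 1)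

/-- Degree `2s+4` to degree `2s+3`. -/
def even (s : ℕ) : P2 × P0 →ₗ[A] P3 × P1 :=
  LinearMap.prod ((G.Ψ2 (s + 1)).comp (LinearMap.fst A P2 P0))
    ((G.d2 (s + 1)).coprod (G.Ψ0 (s + 2)))

/-- Degree `2s+3` to degree `2s+2`. -/
def odd (s : ℕ) : P3 × P1 →ₗ[A] P2 × P0 :=
  LinearMap.prod ((G.d3 s).coprod (G.Ψ1 (s + 1))) ((G.θ s).coprod (G.d1 (s + 1)))

theorem first_apply (x : P2) (y : P0) : G.first (x, y) = G.d2 0 x + G.Ψ0 1 y := rfl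

theorem even_apply (s : ℕ) (x : P2) (y : P0) :
    G.even s (x, y) = (G.Ψ2 (s + 1) x, G.d2 (s + 1) x + G.Ψ0 (s + 2) y) := rfl

theorem odd_apply (s : ℕ) (x : P3) (y : P1) :
    G.odd s (x, y) = (G.d3 s x + G.Ψ1 (s + 1) y, G.θ s x + G.d1 (s + 1) y) := rfl

theorem exists_odd (s : ℕ) {x : P2} {y : P0} (h : G.d2 s x + G.Ψ0 (s + 1) y = 0) :
    ∃ u, G.odd s u = (x, y) := by
  obtain ⟨u, hu⟩ := G.mod2 s x
    (by rw [eq_neg_of_add_eq_zero_left h]; exact neg_mem (G.Ψ0_range _ _))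
  have hv : G.d2 s (-(x - G.d3 s u)) = G.Ψ0 (s + 1) (y - G.θ s u) := by
    rw [map_neg, map_sub, map_sub]
    linear_combination (norm := module) -h + G.d23 s u
  have hε : y - G.θ s u ∈ LinearMap.ker G.ε := G.connect s _ _ (neg_mem hu) hv
  rw [G.ker_ε (s + 1), Submodule.mem_sup] at hε
  obtain ⟨_, ⟨u₁, rfl⟩, v₀, hv₀, he⟩ := hε
  obtain ⟨v₁, hv₁, rfl⟩ := G.sub0 (s + 1) v₀ hv₀
  rw [← map_add] at he
  set z := x - G.d3 s u - G.Ψ1 (s + 1) (u₁ + v₁) with hz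
  have hz0 : G.d2 s z = 0 := by
    rw [hz, map_sub, map_sub]
    have h1 := G.dΨ1 s (u₁ + v₁)
    rw [he, map_sub] at h1
    linear_combination (norm := module) h - G.d23 s u - h1
  obtain ⟨v₃, hv₃, hd⟩ := G.sub2 s z (sub_mem hu (G.Ψ1_range _ _)) hz0
  obtain ⟨w, hw, hwd⟩ := G.sub0 (s + 1) _ (neg_mem (G.θ_S s v₃ hv₃))
  refine ⟨(u + v₃, u₁ + v₁ + w), ?_⟩
  rw [odd_apply, map_add (G.d3 s), map_add (G.Ψ1 (s + 1)) _ w, G.Ψ1_kill _ w hw, map_add (G.θ s),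
    map_add (G.d1 (s + 1)) _ w, he, hwd, hd, hz]
  ext <;> dsimp only <;> abel

theorem exists_even (s : ℕ) {x : P3} {y : P1} (h₁ : G.d3 s x + G.Ψ1 (s + 1) y = 0)
    (h₂ : G.θ s x + G.d1 (s + 1) y = 0) : ∃ u, G.even s u = (x, y) := by
  have hx : x ∈ G.S3 :=
    G.mod3 s x (by rw [eq_neg_of_add_eq_zero_left h₁]; exact neg_mem (G.Ψ1_range _ _))
  obtain ⟨u, hu⟩ := G.mod1 (s + 1) y
    (by rw [eq_neg_of_add_eq_zero_right h₂]; exact neg_mem (G.θ_S s x hx))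
  have hxu : x = G.Ψ2 (s + 1) u := by
    refine sub_eq_zero.1 (G.sub3 s _ (sub_mem hx (G.Ψ2_range _ _)) ?_)
    have h3 := G.Ψ1_kill (s + 1) _ hu
    rw [map_sub] at h3 ⊢
    linear_combination (norm := module) h₁ - h3 - G.dΨ2 s u
  obtain ⟨x₀, v₂, hv₂, hv⟩ := G.sub1 (s + 1) _ hu (by
    rw [map_sub]; rw [hxu] at h₂
    linear_combination (norm := module) h₂ - G.d12 s u)
  refine ⟨(u + v₂, x₀), ?_⟩
  rw [even_apply, map_add, map_add, G.Ψ2_kill _ v₂ hv₂, add_zero, ← hxu, add_assoc, ← hv,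
    add_sub_cancel]

theorem exists_first {y : P1} (h : G.d1 0 y = 0) : ∃ u, G.first u = y := by
  obtain ⟨u, hu⟩ := G.mod1 0 y (by rw [h]; exact zero_mem _)
  obtain ⟨x₀, v₂, -, hv⟩ := G.sub1 0 _ hu (by rw [map_sub, h, G.d12_zero, sub_zero])
  refine ⟨(u + v₂, x₀), ?_⟩
  rw [first_apply, map_add, add_assoc, ← hv, add_sub_cancel]

theorem Ψ2_d3 (s : ℕ) (x : P3) : G.Ψ2 (s + 1) (G.d3 (s + 1) x) = 0 := by
  refine G.sub3 s _ (G.Ψ2_range _ _) ?_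
  have h := G.dΨ2 s (G.d3 (s + 1) x)
  rwa [eq_neg_of_add_eq_zero_left (G.d23 (s + 1) x), map_neg,
    G.Ψ1_kill _ _ (G.Ψ0_range _ _), neg_zero, add_zero] at h

theorem d2_odd (s : ℕ) (u : P3 × P1) :
    G.d2 s (G.odd s u).1 + G.Ψ0 (s + 1) (G.odd s u).2 = 0 := by
  obtain ⟨a, b⟩ := u
  rw [odd_apply, map_add, map_add]
  linear_combination (norm := module) G.d23 s a + G.dΨ1 s b

theorem exact_first_odd : Function.Exact (G.odd 0) G.first := by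
  rintro ⟨x, y⟩
  refine ⟨fun h => G.exists_odd 0 h, ?_⟩
  rintro ⟨u, hu⟩
  have h := G.d2_odd 0 u
  rw [hu] at h
  exact h

theorem exact_even_odd (s : ℕ) : Function.Exact (G.odd (s + 1)) (G.even s) := by
  rintro ⟨x, y⟩
  refine ⟨fun h => G.exists_odd (s + 1) (Prod.ext_iff.1 h).2, ?_⟩
  rintro ⟨⟨a, b⟩, hu⟩
  have h := G.d2_odd (s + 1) (a, b)
  rw [hu] at h
  rw [odd_apply] at hu
  refine Prod.ext ?_ h
  have hu₁ : G.d3 (s + 1) a + G.Ψ1 (s + 1 + 1) b = x := congrArg Prod.fst hu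
  show G.Ψ2 (s + 1) x = 0
  rw [← hu₁, map_add, G.Ψ2_d3, G.Ψ2_kill _ _ (G.Ψ1_range _ _), add_zero]

theorem exact_odd_even (s : ℕ) : Function.Exact (G.even s) (G.odd s) := by
  rintro ⟨x, y⟩
  refine ⟨fun h => G.exists_even s (Prod.ext_iff.1 h).1 (Prod.ext_iff.1 h).2, ?_⟩
  rintro ⟨⟨a, b⟩, hu⟩
  rw [← hu, even_apply, odd_apply, map_add, map_add, G.Ψ1_kill _ _ (G.Ψ0_range _ _), G.dΨ0]
  refine Prod.ext ?_ ?_
  · simpa using G.dΨ2 s a
  · show _ = (0 : P0)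
    simpa [add_comm] using G.d12 s a

theorem exact_first : Function.Exact G.first (G.d1 0) := by
  intro y
  refine ⟨fun h => G.exists_first h, ?_⟩
  rintro ⟨⟨a, b⟩, rfl⟩
  rw [first_apply, map_add, G.d12_zero, G.dΨ0, add_zero]

theorem exact_ε : Function.Exact (G.d1 0) G.ε := by
  intro x
  refine ⟨fun h => ?_, ?_⟩
  · have hx : x ∈ LinearMap.ker G.ε := h
    rw [G.ker_ε 0, Submodule.mem_sup] at hx
    obtain ⟨_, ⟨u, rfl⟩, v₀, hv₀, rfl⟩ := hx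
    obtain ⟨v₁, -, rfl⟩ := G.sub0 0 v₀ hv₀
    exact ⟨u + v₁, map_add _ _ _⟩
  · rintro ⟨u, rfl⟩
    exact LinearMap.mem_ker.1 ((G.ker_ε 0).ge (Submodule.mem_sup_left ⟨u, rfl⟩))

/-- Degree `n+3` to degree `n+2`, counting copies from `s`. -/
def tail (s : ℕ) : ∀ n, GlueQ P0 P1 P2 P3 (n + 3) →ₗ[A] GlueQ P0 P1 P2 P3 (n + 2)
  | 0 => G.odd s
  | 1 => G.even s
  | n + 2 => tail (s + 1) n

/-- The differentials. -/
def D : ∀ n, GlueQ P0 P1 P2 P3 (n + 1) →ₗ[A] GlueQ P0 P1 P2 P3 n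
  | 0 => G.d1 0
  | 1 => G.first
  | n + 2 => G.tail 0 n

theorem exact_tail : ∀ n s, Function.Exact (G.tail s (n + 1)) (G.tail s n)
  | 0, s => G.exact_odd_even s
  | 1, s => G.exact_even_odd s
  | n + 2, s => exact_tail n (s + 1)

/-- The glued complex resolves `Y`. -/
theorem projSeq [Module.Projective A P0] [Module.Projective A P1] [Module.Projective A P2]
    [Module.Projective A P3] : ProjSeq (GlueQ P0 P1 P2 P3) G.D (G.ε : GlueQ P0 P1 P2 P3 0 →ₗ[A] Y)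
    where
  proj n := by
    induction n using Nat.strong_induction_on with
    | _ n ih =>
      match n with
      | 0 => exact inferInstanceAs (Module.Projective A P0)
      | 1 => exact inferInstanceAs (Module.Projective A P1)
      | 2 => exact inferInstanceAs (Module.Projective A (P2 × P0))
      | 3 => exact inferInstanceAs (Module.Projective A (P3 × P1))
      | m + 4 => exact ih (m + 2) (by omega)
  surj := G.ε_surj
  exact₀ := G.exact_ε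
  exact n :=
    match n with
    | 0 => G.exact_first
    | 1 => G.exact_first_odd
    | n + 2 => G.exact_tail n 0

variable {Y' : Type v} [AddCommGroup Y'] [Module A Y']

/-- What is needed of one copy for `Ext^{≥1}(Y,Y') = 0`: maps to `Y'` kill `S`; cocycles in degrees
one and two are coboundaries; `θ` pairs the degree zero cocycles with degree three modulo
coboundaries. -/
structure HomExact (G : GlueData A P0 P1 P2 P3 Y) (Y' : Type v) [AddCommGroup Y'] [Module A Y'] :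
    Prop where
  kill1 : ∀ (φ : P1 →ₗ[A] Y'), ∀ x ∈ G.S1, φ x = 0
  kill2 : ∀ (φ : P2 →ₗ[A] Y'), ∀ x ∈ G.S2, φ x = 0
  kill3 : ∀ (φ : P3 →ₗ[A] Y'), ∀ x ∈ G.S3, φ x = 0
  h0 : ∀ k, ∀ φ : P0 →ₗ[A] Y', φ.comp (G.d1 (k + 1)) = 0 →
    (∃ b : P2 →ₗ[A] Y', φ.comp (G.θ k) = b.comp (G.d3 k)) → φ = 0
  h1 : ∀ k, ∀ φ : P1 →ₗ[A] Y', φ.comp (G.d2 k) = 0 → ∃ ψ : P0 →ₗ[A] Y', ψ.comp (G.d1 k) = φ
  h2 : ∀ k, ∀ φ : P2 →ₗ[A] Y', φ.comp (G.d3 k) = 0 → ∃ ψ : P1 →ₗ[A] Y', ψ.comp (G.d2 k) = φ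
  h3 : ∀ k, ∀ φ : P3 →ₗ[A] Y', ∃ (b : P2 →ₗ[A] Y') (c : P0 →ₗ[A] Y'),
    c.comp (G.d1 (k + 1)) = 0 ∧ φ = b.comp (G.d3 k) + c.comp (G.θ k)

variable {G} (H : G.HomExact Y')
include H

theorem cocycle_two (s : ℕ) (φ : P2 × P0 →ₗ[A] Y') (h : φ.comp (G.odd s) = 0) :
    ∃ ψ : P1 →ₗ[A] Y', ∀ x y, φ (x, y) = ψ (G.d2 s x + G.Ψ0 (s + 1) y) := by
  set a := φ.comp (LinearMap.inl A P2 P0) with ha
  set c := φ.comp (LinearMap.inr A P2 P0) with hc'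
  have key : ∀ x y, φ (x, y) = a x + c y := fun x y => by
    simp [ha, hc', ← map_add]
  have hu : ∀ u₃ u₁, a (G.d3 s u₃) + c (G.θ s u₃) + c (G.d1 (s + 1) u₁) = 0 := fun u₃ u₁ => by
    have := LinearMap.congr_fun h (u₃, u₁)
    rw [LinearMap.comp_apply, odd_apply, key, map_add, map_add,
      H.kill2 a _ (G.Ψ1_range _ _), add_zero, LinearMap.zero_apply] at this
    rw [add_assoc]; exact this
  have hc0 : c = 0 := H.h0 s c (LinearMap.ext fun u₁ => by simpa using hu 0 u₁)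
    ⟨-a, LinearMap.ext fun u₃ => by
      simpa [add_eq_zero_iff_eq_neg'] using hu u₃ 0⟩
  obtain ⟨ψ, hψ⟩ := H.h2 s a (LinearMap.ext fun u₃ => by simpa [hc0] using hu u₃ 0)
  refine ⟨ψ, fun x y => ?_⟩
  rw [key, map_add, H.kill1 ψ _ (G.Ψ0_range _ _), hc0, ← hψ]
  rfl

theorem cocycle_three (s : ℕ) (φ : P3 × P1 →ₗ[A] Y') (h : φ.comp (G.even s) = 0) :
    ∃ ψ : P2 × P0 →ₗ[A] Y', ψ.comp (G.odd s) = φ := by
  set a := φ.comp (LinearMap.inl A P3 P1) with ha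
  set e := φ.comp (LinearMap.inr A P3 P1) with he
  have key : ∀ x y, φ (x, y) = a x + e y := fun x y => by simp [ha, he, ← map_add]
  have h1 : e.comp (G.d2 (s + 1)) = 0 := LinearMap.ext fun u => by
    have := LinearMap.congr_fun h (u, 0)
    rw [LinearMap.comp_apply, even_apply, key, H.kill3 a _ (G.Ψ2_range _ _)] at this
    simpa using this
  obtain ⟨b₀, hb₀⟩ := H.h1 (s + 1) e h1
  obtain ⟨b, c, hcd, hbc⟩ := H.h3 s (a - b₀.comp (G.θ s))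
  refine ⟨b.coprod (b₀ + c), LinearMap.ext fun ⟨x, y⟩ => ?_⟩
  rw [LinearMap.comp_apply, odd_apply, LinearMap.coprod_apply, key]
  dsimp only
  have e1 : a x - b₀ (G.θ s x) = b (G.d3 s x) + c (G.θ s x) := LinearMap.congr_fun hbc x
  have e2 : b₀ (G.d1 (s + 1) y) = e y := LinearMap.congr_fun hb₀ y
  have e3 : c (G.d1 (s + 1) y) = 0 := LinearMap.congr_fun hcd y
  rw [LinearMap.add_apply, map_add, map_add, map_add, H.kill2 b _ (G.Ψ1_range _ _)]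
  linear_combination (norm := module) -e1 + e2 + e3

theorem cocycle_tail : ∀ n s (φ : GlueQ P0 P1 P2 P3 (n + 3) →ₗ[A] Y'),
    φ.comp (G.tail s (n + 1)) = 0 → ∃ ψ : GlueQ P0 P1 P2 P3 (n + 2) →ₗ[A] Y', ψ.comp (G.tail s n) = φ
  | 0, s, φ, h => cocycle_three H s φ h
  | 1, s, φ, h => by
    obtain ⟨ψ, hψ⟩ := cocycle_two H (s + 1) φ h
    refine ⟨(ψ.comp (LinearMap.snd A P3 P1) : P3 × P1 →ₗ[A] Y'), LinearMap.ext fun ⟨x, y⟩ => ?_⟩
    exact (hψ x y).symm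
  | n + 2, s, φ, h => cocycle_tail n (s + 1) φ h

/-- All higher `Ext(Y, Y')` vanish. -/
theorem extVan [Module.Projective A P0] [Module.Projective A P1] [Module.Projective A P2]
    [Module.Projective A P3] (n : ℕ) : ExtVan A Y Y' (n + 1) := by
  refine extVan_of_resolution G.projSeq n fun φ h => ?_
  match n with
  | 0 =>
    exact H.h1 0 φ (LinearMap.ext fun x => by
      have : φ (G.first (x, 0)) = 0 := LinearMap.congr_fun h (x, (0 : P0))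
      rw [first_apply, map_zero, add_zero] at this
      exact this)
  | 1 =>
    obtain ⟨ψ, hψ⟩ := cocycle_two H 0 φ h
    exact ⟨ψ, LinearMap.ext fun ⟨x, y⟩ => (hψ x y).symm⟩
  | n + 2 => exact cocycle_tail H n 0 φ h

end GlueData

end Vale.Agent.P195
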