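import Mathlib

/-!
# P195: homological tools for modules over a ring

`ExtVan R X Y i` is `Ext^i(X,Y) = 0` in `ModuleCat R`. Vanishing is reduced to linear maps: cocycles
on a projective resolution (`extVan_of_resolution`), four-term sequences over a family
(`extVan_family`), projectives given by idempotent matrices (`IdemSeq`), duals of right modules.
-/

universe u v w

namespace Vale.Agent.P195

open CategoryTheory Abelian

variable {R : Type v} [Ring R]
variable {X Y Y' K P : Type v} [AddCommGroup X] [Module R X] [AddCommGroup Y] [Module R Y]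
  [AddCommGroup Y'] [Module R Y'] [AddCommGroup K] [Module R K] [AddCommGroup P] [Module R P]

variable (R X Y) in
/-- `Ext^i(X,Y) = 0`. -/
def ExtVan (i : ℕ) : Prop :=
  Subsingleton (Ext.{v} (ModuleCat.of R X) (ModuleCat.of R Y) i)

theorem ExtVan.of_projective [Module.Projective R P] (i : ℕ) : ExtVan R P Y (i + 1) := by
  have : CategoryTheory.Projective (ModuleCat.of R P) :=
    (IsProjective.iff_projective (ModuleCat.of R P)).1 inferInstance
  exact Ext.subsingleton_of_projective _ _ _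

theorem ExtVan.congr_right (e : Y ≃ₗ[R] Y') {i : ℕ} (h : ExtVan R X Y i) : ExtVan R X Y' i := by
  refine ⟨fun α β => ?_⟩
  have key : ∀ γ : Ext (ModuleCat.of R X) (ModuleCat.of R Y') i,
      (γ.comp (Ext.mk₀ e.toModuleIso.inv) (add_zero i)).comp (Ext.mk₀ e.toModuleIso.hom)
        (add_zero i) = γ := fun γ => by
    rw [Ext.comp_assoc_of_third_deg_zero, Ext.mk₀_comp_mk₀, Iso.inv_hom_id, Ext.comp_mk₀_id]
  rw [← key α, ← key β, h.elim (α.comp _ _) (β.comp _ _)]

theorem ExtVan.congr_left {X' : Type v} [AddCommGroup X'] [Module R X'] (e : X ≃ₗ[R] X') {i : ℕ}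
    (h : ExtVan R X Y i) : ExtVan R X' Y i := by
  refine ⟨fun α β => ?_⟩
  have key : ∀ γ : Ext (ModuleCat.of R X') (ModuleCat.of R Y) i,
      (Ext.mk₀ e.toModuleIso.inv).comp ((Ext.mk₀ e.toModuleIso.hom).comp γ (zero_add i))
        (zero_add i) = γ := fun γ => by
    rw [Ext.mk₀_comp_mk₀_assoc, Iso.inv_hom_id, Ext.mk₀_id_comp]
  rw [← key α, ← key β, h.elim ((Ext.mk₀ e.toModuleIso.hom).comp α _)
    ((Ext.mk₀ e.toModuleIso.hom).comp β _)]

/-- A short exact sequence `0 → K → P → X → 0`. -/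
structure Short (f : K →ₗ[R] P) (g : P →ₗ[R] X) : Prop where
  inj : Function.Injective f
  exact : Function.Exact f g
  surj : Function.Surjective g

/-- Its short complex. -/
abbrev shortC {f : K →ₗ[R] P} {g : P →ₗ[R] X} (h : Short f g) : ShortComplex (ModuleCat.{v} R) :=
  ShortComplex.mk (ModuleCat.ofHom f) (ModuleCat.ofHom g) <| by
    ext x
    exact h.exact.apply_apply_eq_zero x

theorem shortC_shortExact {f : K →ₗ[R] P} {g : P →ₗ[R] X} (h : Short f g) :
    (shortC h).ShortExact where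
  exact := (CategoryTheory.ShortComplex.moduleCat_exact_iff _).2 fun x hx => (h.exact x).1 hx
  mono_f := (ModuleCat.mono_iff_injective _).2 h.inj
  epi_g := (ModuleCat.epi_iff_surjective _).2 h.surj

/-- Maps from `K` extend to `P`, and `Ext¹(P,Y) = 0`. -/
theorem Short.extVan_one {f : K →ₗ[R] P} {g : P →ₗ[R] X} (h : Short f g) (hP : ExtVan R P Y 1)
    (hlift : ∀ φ : K →ₗ[R] Y, ∃ ψ : P →ₗ[R] Y, ψ.comp f = φ) : ExtVan R X Y 1 := by
  have hs := shortC_shortExact h
  refine subsingleton_of_forall_eq 0 fun x => ?_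
  obtain ⟨x₁, rfl⟩ := Ext.contravariant_sequence_exact₃ hs _ x (hP.elim _ _) (show 1 + 0 = 1 from rfl)
  obtain ⟨φ, rfl⟩ := Ext.mk₀_bijective _ _ |>.surjective x₁
  obtain ⟨ψ, hψ⟩ := hlift φ.hom
  have e : φ = (shortC h).f ≫ ModuleCat.ofHom ψ := by
    ext x
    exact (LinearMap.congr_fun hψ x).symm
  rw [e, ← Ext.mk₀_comp_mk₀, ← Ext.comp_assoc (a₁ := 1) (a₂ := 0) (a₃ := 0) (a₁₂ := 1) (a₂₃ := 0)
    (a := 1) _ _ _ rfl rfl rfl, hs.extClass_comp, Ext.zero_comp]

/-- Dimension shift. -/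
theorem Short.extVan_succ {f : K →ₗ[R] P} {g : P →ₗ[R] X} (h : Short f g) {i : ℕ}
    (hK : ExtVan R K Y i) (hP : ExtVan R P Y (i + 1)) : ExtVan R X Y (i + 1) := by
  refine subsingleton_of_forall_eq 0 fun x => ?_
  obtain ⟨x₁, rfl⟩ := Ext.contravariant_sequence_exact₃ (shortC_shortExact h) _ x (hP.elim _ _)
    (show 1 + i = i + 1 by omega)
  rw [hK.elim x₁ 0, Ext.comp_zero]

/-! ### Resolutions -/

/-- An exact sequence `⋯ → Q 1 → Q 0 → X → 0` with projective terms. -/
structure ProjSeq (Q : ℕ → Type v) [∀ i, AddCommGroup (Q i)] [∀ i, Module R (Q i)]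
    (d : ∀ i, Q (i + 1) →ₗ[R] Q i) (ε : Q 0 →ₗ[R] X) : Prop where
  proj : ∀ i, Module.Projective R (Q i)
  surj : Function.Surjective ε
  exact₀ : Function.Exact (d 0) ε
  exact : ∀ i, Function.Exact (d (i + 1)) (d i)

/-- The first syzygy. -/
theorem short_syzygy {Q₁ Q₀ : Type v} [AddCommGroup Q₁] [Module R Q₁] [AddCommGroup Q₀]
    [Module R Q₀] {d : Q₁ →ₗ[R] Q₀} {ε : Q₀ →ₗ[R] X} (h₀ : Function.Exact d ε)
    (hs : Function.Surjective ε) : Short (LinearMap.range d).subtype ε :=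
  ⟨Subtype.val_injective, fun x => (h₀ x).trans
    ⟨fun hx => ⟨⟨x, hx⟩, rfl⟩, by rintro ⟨y, rfl⟩; exact y.2⟩, hs⟩

/-- `Ext^i(X,Y) = 0` if every cocycle on a projective resolution is a coboundary. -/
theorem extVan_of_resolution {Q : ℕ → Type v} [∀ i, AddCommGroup (Q i)] [∀ i, Module R (Q i)]
    {d : ∀ i, Q (i + 1) →ₗ[R] Q i} {ε : Q 0 →ₗ[R] X} (h : ProjSeq Q d ε) (n : ℕ)
    (hc : ∀ φ : Q (n + 1) →ₗ[R] Y, φ.comp (d (n + 1)) = 0 → ∃ ψ : Q n →ₗ[R] Y, ψ.comp (d n) = φ) :
    ExtVan R X Y (n + 1) := by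
  induction n generalizing X Q with
  | zero =>
    have := h.proj 0
    refine (short_syzygy h.exact₀ h.surj).extVan_one (.of_projective 0) fun φ => ?_
    obtain ⟨ψ, hψ⟩ := hc (φ.comp (d 0).rangeRestrict) (by
      ext x
      have e : (d 0).rangeRestrict (d 1 x) = 0 := Subtype.ext ((h.exact 0).apply_apply_eq_zero x)
      simp only [LinearMap.comp_apply, e, map_zero, LinearMap.zero_apply])
    refine ⟨ψ, ?_⟩
    ext ⟨y, x, rfl⟩
    exact LinearMap.congr_fun hψ x
  | succ n ih =>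
    have := h.proj 0
    refine (short_syzygy h.exact₀ h.surj).extVan_succ ?_ (.of_projective _)
    refine ih (Q := fun i => Q (i + 1)) (d := fun i => d (i + 1)) (ε := (d 0).rangeRestrict)
      ⟨fun i => h.proj _, LinearMap.surjective_rangeRestrict _, fun x => ?_, fun i => h.exact _⟩ hc
    exact Subtype.ext_iff.trans (h.exact 0 x)

/-- Conversely, maps from `K` extend when `Ext¹(X,Y) = 0`. -/
theorem Short.exists_lift {f : K →ₗ[R] P} {g : P →ₗ[R] X} (h : Short f g) (hX : ExtVan R X Y 1)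
    (φ : K →ₗ[R] Y) : ∃ ψ : P →ₗ[R] Y, ψ.comp f = φ := by
  obtain ⟨x₂, hx₂⟩ := Ext.contravariant_sequence_exact₁ (shortC_shortExact h) _
    (Ext.mk₀ (ModuleCat.ofHom φ)) (show 1 + 0 = 1 from rfl) (hX.elim _ _)
  obtain ⟨ψ, rfl⟩ := Ext.mk₀_bijective _ _ |>.surjective x₂
  rw [Ext.mk₀_comp_mk₀] at hx₂
  have e := (Ext.mk₀_bijective _ _).injective hx₂
  exact ⟨ψ.hom, congrArg ModuleCat.Hom.hom e⟩

/-- Conversely, the dimension shift. -/
theorem Short.extVan_of_succ {f : K →ₗ[R] P} {g : P →ₗ[R] X} (h : Short f g) {i : ℕ}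
    (hX : ExtVan R X Y (i + 1)) (hP : ExtVan R P Y i) : ExtVan R K Y i := by
  refine subsingleton_of_forall_eq 0 fun x => ?_
  obtain ⟨x₂, rfl⟩ := Ext.contravariant_sequence_exact₁ (shortC_shortExact h) _ x
    (show 1 + i = i + 1 by omega) (hX.elim _ _)
  rw [hP.elim x₂ 0, Ext.comp_zero]

/-- If `Ext^{n+1}(X,Y) = 0`, cocycles are coboundaries on every projective resolution. -/
theorem exists_of_extVan {Q : ℕ → Type v} [∀ i, AddCommGroup (Q i)] [∀ i, Module R (Q i)]
    {d : ∀ i, Q (i + 1) →ₗ[R] Q i} {ε : Q 0 →ₗ[R] X} (h : ProjSeq Q d ε) (n : ℕ)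
    (hX : ExtVan R X Y (n + 1)) (φ : Q (n + 1) →ₗ[R] Y) (hφ : φ.comp (d (n + 1)) = 0) :
    ∃ ψ : Q n →ₗ[R] Y, ψ.comp (d n) = φ := by
  induction n generalizing X Q with
  | zero =>
    have hk : LinearMap.ker (d 0).rangeRestrict ≤ LinearMap.ker φ := by
      intro x hx
      rw [LinearMap.ker_rangeRestrict] at hx
      obtain ⟨y, rfl⟩ := (h.exact 0 x).1 hx
      exact LinearMap.congr_fun hφ y
    let e := (d 0).rangeRestrict.quotKerEquivOfSurjective (LinearMap.surjective_rangeRestrict _)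
    obtain ⟨ψ, hψ⟩ := (short_syzygy h.exact₀ h.surj).exists_lift hX
      (((LinearMap.ker (d 0).rangeRestrict).liftQ φ hk).comp e.symm.toLinearMap)
    refine ⟨ψ, ?_⟩
    ext x
    refine (LinearMap.congr_fun hψ ((d 0).rangeRestrict x)).trans ?_
    have he : e.symm ((d 0).rangeRestrict x) = Submodule.Quotient.mk x :=
      e.symm_apply_eq.2 (LinearMap.quotKerEquivOfSurjective_apply_mk _ _ x).symm
    simp only [LinearMap.comp_apply, LinearEquiv.coe_coe, he]
    exact Submodule.liftQ_apply _ _ _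
  | succ n ih =>
    have := h.proj 0
    exact ih (Q := fun i => Q (i + 1)) (d := fun i => d (i + 1)) (ε := (d 0).rangeRestrict)
      ⟨fun i => h.proj _, LinearMap.surjective_rangeRestrict _,
        fun x => Subtype.ext_iff.trans (h.exact 0 x), fun i => h.exact _⟩
      ((short_syzygy h.exact₀ h.surj).extVan_of_succ hX (.of_projective _)) φ hφ

/-! ### Four-term sequences over a family -/

/-- An exact sequence `0 → X' → Q₂ → Q₁ → Q₀ → X → 0`. -/
structure Four {X' Q₂ Q₁ Q₀ : Type v} [AddCommGroup X'] [Module R X'] [AddCommGroup Q₂]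
    [Module R Q₂] [AddCommGroup Q₁] [Module R Q₁] [AddCommGroup Q₀] [Module R Q₀]
    (ι : X' →ₗ[R] Q₂) (c : Q₂ →ₗ[R] Q₁) (b : Q₁ →ₗ[R] Q₀) (a : Q₀ →ₗ[R] X) : Prop where
  inj : Function.Injective ι
  exact₂ : Function.Exact ι c
  exact₁ : Function.Exact c b
  exact₀ : Function.Exact b a
  surj : Function.Surjective a

/-- Degree induction: `Q₀, Q₁` projective, `Q₂` with no higher `Ext` to `Y`, the two extension
properties and `Hom(X (d+1), Y) = 0` kill all higher `Ext(X d, Y)`. -/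
theorem extVan_family {Z Q₂ Q₁ Q₀ : ℕ → Type v} [∀ d, AddCommGroup (Z d)] [∀ d, Module R (Z d)]
    [∀ d, AddCommGroup (Q₂ d)] [∀ d, Module R (Q₂ d)] [∀ d, AddCommGroup (Q₁ d)]
    [∀ d, Module R (Q₁ d)] [∀ d, AddCommGroup (Q₀ d)] [∀ d, Module R (Q₀ d)]
    [∀ d, Module.Projective R (Q₁ d)] [∀ d, Module.Projective R (Q₀ d)]
    {ι : ∀ d, Z (d + 1) →ₗ[R] Q₂ d} {c : ∀ d, Q₂ d →ₗ[R] Q₁ d} {b : ∀ d, Q₁ d →ₗ[R] Q₀ d}
    {a : ∀ d, Q₀ d →ₗ[R] Z d} (h : ∀ d, Four (ι d) (c d) (b d) (a d))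
    (hQ : ∀ d i, ExtVan R (Q₂ d) Y (i + 1))
    (h1 : ∀ d, ∀ φ : Q₁ d →ₗ[R] Y, φ.comp (c d) = 0 → ∃ ψ : Q₀ d →ₗ[R] Y, ψ.comp (b d) = φ)
    (h2 : ∀ d, ∀ φ : Q₂ d →ₗ[R] Y, φ.comp (ι d) = 0 → ∃ ψ : Q₁ d →ₗ[R] Y, ψ.comp (c d) = φ)
    (h3 : ∀ d, ∀ φ : Z (d + 1) →ₗ[R] Y, φ = 0) :
    ∀ i d, ExtVan R (Z d) Y (i + 1) := by
  intro i
  induction i using Nat.strong_induction_on with
  | _ i ih =>
    intro d
    have S₀ := short_syzygy (h d).exact₀ (h d).surj
    have S₁ : Short (LinearMap.range (c d)).subtype (b d).rangeRestrict :=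
      short_syzygy (fun x => Subtype.ext_iff.trans ((h d).exact₁ x))
        (LinearMap.surjective_rangeRestrict _)
    have S₂ : Short (ι d) (c d).rangeRestrict :=
      ⟨(h d).inj, fun x => Subtype.ext_iff.trans ((h d).exact₂ x),
        LinearMap.surjective_rangeRestrict _⟩
    match i with
    | 0 =>
      refine S₀.extVan_one (.of_projective 0) fun φ => ?_
      obtain ⟨ψ, hψ⟩ := h1 d (φ.comp (b d).rangeRestrict) (by
        ext x
        have e : (b d).rangeRestrict (c d x) = 0 :=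
          Subtype.ext ((h d).exact₁.apply_apply_eq_zero x)
        simp only [LinearMap.comp_apply, e, map_zero, LinearMap.zero_apply])
      refine ⟨ψ, ?_⟩
      ext ⟨y, x, rfl⟩
      exact LinearMap.congr_fun hψ x
    | 1 =>
      refine S₀.extVan_succ ?_ (.of_projective _)
      refine S₁.extVan_one (.of_projective 0) fun φ => ?_
      obtain ⟨ψ, hψ⟩ := h2 d (φ.comp (c d).rangeRestrict) (by
        ext x
        have e : (c d).rangeRestrict (ι d x) = 0 :=
          Subtype.ext ((h d).exact₂.apply_apply_eq_zero x)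
        simp only [LinearMap.comp_apply, e, map_zero, LinearMap.zero_apply])
      refine ⟨ψ, ?_⟩
      ext ⟨y, x, rfl⟩
      exact LinearMap.congr_fun hψ x
    | 2 =>
      refine S₀.extVan_succ (S₁.extVan_succ ?_ (.of_projective _)) (.of_projective _)
      exact S₂.extVan_one (hQ d 0) fun φ => ⟨0, by rw [h3 d φ, LinearMap.zero_comp]⟩
    | j + 3 =>
      refine S₀.extVan_succ (S₁.extVan_succ ?_ (.of_projective _)) (.of_projective _)
      exact S₂.extVan_succ (ih j (by omega) (d + 1)) (hQ d _)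

/-! ### Injective coresolutions, products -/

theorem ExtVan.of_injective [Module.Injective R Y] (i : ℕ) : ExtVan R X Y (i + 1) := by
  have : CategoryTheory.Injective (ModuleCat.of R Y) :=
    (Module.injective_iff_injective_object R Y).1 inferInstance
  exact Ext.subsingleton_of_injective _ _ _

/-- For `0 → Y → I₁ → I₀ → 0` with injective terms: if every map `X → I₀` lifts to `I₁`, all
higher `Ext(X,Y)` vanish. -/
theorem Short.extVan_of_injective {I₁ I₀ : Type v} [AddCommGroup I₁] [Module R I₁]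
    [AddCommGroup I₀] [Module R I₀] [Module.Injective R I₁] [Module.Injective R I₀]
    {f : Y →ₗ[R] I₁} {g : I₁ →ₗ[R] I₀} (h : Short f g)
    (hlift : ∀ φ : X →ₗ[R] I₀, ∃ ψ : X →ₗ[R] I₁, g.comp ψ = φ) (i : ℕ) :
    ExtVan R X Y (i + 1) := by
  have hs := shortC_shortExact h
  refine subsingleton_of_forall_eq 0 fun x => ?_
  obtain ⟨x₃, rfl⟩ := Ext.covariant_sequence_exact₁ _ hs x
    ((ExtVan.of_injective (R := R) (X := X) (Y := I₁) i).elim _ _) (n₀ := i) rfl
  cases i with
  | zero =>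
    obtain ⟨φ, rfl⟩ := Ext.mk₀_bijective _ _ |>.surjective x₃
    obtain ⟨ψ, hψ⟩ := hlift φ.hom
    have e : φ = ModuleCat.ofHom ψ ≫ (shortC h).g := by
      ext x
      exact (LinearMap.congr_fun hψ x).symm
    rw [e, ← Ext.mk₀_comp_mk₀, Ext.comp_assoc_of_second_deg_zero, hs.comp_extClass, Ext.comp_zero]
  | succ n =>
    rw [(ExtVan.of_injective (R := R) (X := X) (Y := I₀) n).elim x₃ 0, Ext.zero_comp]

/-- Such a coresolution alone kills `Ext` in degrees at least two. -/
theorem Short.extVan_two_of_injective {I₁ I₀ : Type v} [AddCommGroup I₁] [Module R I₁]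
    [AddCommGroup I₀] [Module R I₀] [Module.Injective R I₁] [Module.Injective R I₀]
    {f : Y →ₗ[R] I₁} {g : I₁ →ₗ[R] I₀} (h : Short f g) (i : ℕ) : ExtVan R X Y (i + 2) := by
  refine subsingleton_of_forall_eq 0 fun x => ?_
  obtain ⟨x₃, rfl⟩ := Ext.covariant_sequence_exact₁ _ (shortC_shortExact h) x
    ((ExtVan.of_injective (R := R) (X := X) (Y := I₁) (i + 1)).elim _ _) (n₀ := i + 1) rfl
  rw [(ExtVan.of_injective (R := R) (X := X) (Y := I₀) i).elim x₃ 0, Ext.zero_comp]

/-- `Ext` into a finite product. -/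
theorem ExtVan.pi_right {ι : Type} [Fintype ι] {W : ι → Type v} [∀ j, AddCommGroup (W j)]
    [∀ j, Module R (W j)] {i : ℕ} (h : ∀ j, ExtVan R X (W j) i) : ExtVan R X (∀ j, W j) i := by
  classical
  refine subsingleton_of_forall_eq 0 fun x => ?_
  let F : (ModuleCat.of R (∀ j, W j) ⟶ ModuleCat.of R (∀ j, W j)) →+
      Ext (ModuleCat.of R X) (ModuleCat.of R (∀ j, W j)) i :=
    AddMonoidHom.mk' (fun f => x.comp (Ext.mk₀ f) (add_zero i)) fun f g => by
      simp [Ext.mk₀_add]
  let u : ι → (ModuleCat.of R (∀ j, W j) ⟶ ModuleCat.of R (∀ j, W j)) := fun j =>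
    ModuleCat.ofHom (LinearMap.proj j : (∀ j, W j) →ₗ[R] W j) ≫
      ModuleCat.ofHom (LinearMap.single R W j)
  have hid : (∑ j, u j) = 𝟙 _ := by
    apply ModuleCat.hom_ext
    rw [ModuleCat.hom_sum]
    exact LinearMap.ext fun y => by
      simpa [u] using Finset.univ_sum_single y
  calc x = F (𝟙 _) := (Ext.comp_mk₀_id x).symm
    _ = ∑ j, F (u j) := by rw [← hid, map_sum]
    _ = 0 := Finset.sum_eq_zero fun j _ => by
      show x.comp (Ext.mk₀ (_ ≫ _)) (add_zero i) = 0
      rw [← Ext.mk₀_comp_mk₀, ← Ext.comp_assoc_of_third_deg_zero,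
        (h j).elim (x.comp (Ext.mk₀ _) (add_zero i)) 0, Ext.zero_comp]

/-- `Ext` out of a finite product. -/
theorem ExtVan.pi_left {ι : Type} [Fintype ι] {W : ι → Type v} [∀ j, AddCommGroup (W j)]
    [∀ j, Module R (W j)] {i : ℕ} (h : ∀ j, ExtVan R (W j) Y i) : ExtVan R (∀ j, W j) Y i := by
  classical
  refine subsingleton_of_forall_eq 0 fun x => ?_
  let F : (ModuleCat.of R (∀ j, W j) ⟶ ModuleCat.of R (∀ j, W j)) →+
      Ext (ModuleCat.of R (∀ j, W j)) (ModuleCat.of R Y) i :=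
    AddMonoidHom.mk' (fun f => (Ext.mk₀ f).comp x (zero_add i)) fun f g => by
      simp [Ext.mk₀_add]
  let u : ι → (ModuleCat.of R (∀ j, W j) ⟶ ModuleCat.of R (∀ j, W j)) := fun j =>
    ModuleCat.ofHom (LinearMap.proj j : (∀ j, W j) →ₗ[R] W j) ≫
      ModuleCat.ofHom (LinearMap.single R W j)
  have hid : (∑ j, u j) = 𝟙 _ := by
    apply ModuleCat.hom_ext
    rw [ModuleCat.hom_sum]
    exact LinearMap.ext fun y => by
      simpa [u] using Finset.univ_sum_single y
  calc x = F (𝟙 _) := (Ext.mk₀_id_comp x).symm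
    _ = ∑ j, F (u j) := by rw [← hid, map_sum]
    _ = 0 := Finset.sum_eq_zero fun j _ => by
      show (Ext.mk₀ (_ ≫ _)).comp x (zero_add i) = 0
      rw [← Ext.mk₀_comp_mk₀_assoc, (h j).elim ((Ext.mk₀ _).comp x (zero_add i)) 0,
        Ext.comp_zero]

/-! ### The family lemma for complexes of projectives -/

/-- Degree induction on complexes: the complex `Q d` of projectives has homology `Z d` in degree
`0` (by `ε`), `Z (d+1)` in degree `2` (by `z`) and none elsewhere; if `Hom(Q d, Y)` is exact in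
positive degrees and `Hom(Z (d+1), Y) = 0`, then all higher `Ext(Z d, Y)` vanish. -/
theorem extVan_of_complexes {Z : ℕ → Type v} [∀ d, AddCommGroup (Z d)] [∀ d, Module R (Z d)]
    {Q : ℕ → ℕ → Type v} [∀ d i, AddCommGroup (Q d i)] [∀ d i, Module R (Q d i)]
    [∀ d i, Module.Projective R (Q d i)] {D : ∀ d i, Q d (i + 1) →ₗ[R] Q d i}
    {ε : ∀ d, Q d 0 →ₗ[R] Z d} {z : ∀ d, LinearMap.ker (D d 1) →ₗ[R] Z (d + 1)}
    (hε : ∀ d, Function.Surjective (ε d)) (h0 : ∀ d, Function.Exact (D d 0) (ε d))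
    (h1 : ∀ d, Function.Exact (D d 1) (D d 0)) (hD : ∀ d x, D d 1 (D d 2 x) = 0)
    (hz : ∀ d, Function.Surjective (z d))
    (hz' : ∀ d x, z d x = 0 ↔ (x : Q d 2) ∈ LinearMap.range (D d 2))
    (h3 : ∀ d i, Function.Exact (D d (i + 3)) (D d (i + 2)))
    (hc : ∀ d i, ∀ φ : Q d (i + 1) →ₗ[R] Y, φ.comp (D d (i + 1)) = 0 →
      ∃ ψ : Q d i →ₗ[R] Y, ψ.comp (D d i) = φ)
    (hH : ∀ d, ∀ φ : Z (d + 1) →ₗ[R] Y, φ = 0) :
    ∀ i d, ExtVan R (Z d) Y (i + 1) := by
  let c : ∀ d, (Q d 2 ⧸ LinearMap.range (D d 2)) →ₗ[R] Q d 1 := fun d =>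
    (LinearMap.range (D d 2)).liftQ (D d 1) (by rintro _ ⟨x, rfl⟩; exact hD d x)
  let ι : ∀ d, Z (d + 1) →ₗ[R] Q d 2 ⧸ LinearMap.range (D d 2) := fun d =>
    ((LinearMap.ker (z d)).liftQ
        ((LinearMap.range (D d 2)).mkQ.comp (LinearMap.ker (D d 1)).subtype)
        fun x hx => (Submodule.Quotient.mk_eq_zero _).2 ((hz' d x).1 hx)).comp
      ((z d).quotKerEquivOfSurjective (hz d)).symm.toLinearMap
  have hι : ∀ d x, ι d (z d x) = Submodule.Quotient.mk (x : Q d 2) := fun d x => by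
    have e : ((z d).quotKerEquivOfSurjective (hz d)).symm (z d x) = Submodule.Quotient.mk x :=
      LinearEquiv.symm_apply_eq _ |>.2
        (LinearMap.quotKerEquivOfSurjective_apply_mk _ (hz d) x).symm
    simp only [ι, LinearMap.comp_apply, LinearEquiv.coe_coe, e]
    rfl
  refine extVan_family (Q₂ := fun d => Q d 2 ⧸ LinearMap.range (D d 2)) (Q₁ := fun d => Q d 1)
    (Q₀ := fun d => Q d 0) (ι := ι) (c := c) (b := fun d => D d 0) (a := ε)
    (fun d => ⟨?_, ?_, ?_, h0 d, hε d⟩) (fun d n => ?_) (fun d φ hφ => hc d 0 φ ?_)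
    (fun d φ _ => ?_) hH
  · refine (injective_iff_map_eq_zero _).2 fun y hy => ?_
    obtain ⟨x, rfl⟩ := hz d y
    rw [hι] at hy
    exact (hz' d x).2 ((Submodule.Quotient.mk_eq_zero _).1 hy)
  · intro g
    obtain ⟨x, rfl⟩ := Submodule.Quotient.mk_surjective _ g
    constructor
    · intro hx
      exact ⟨z d ⟨x, hx⟩, hι d ⟨x, hx⟩⟩
    · rintro ⟨y, hy⟩
      obtain ⟨w, rfl⟩ := hz d y
      rw [hι] at hy
      rw [← hy]
      exact w.2
  · intro y
    refine (h1 d y).trans ⟨?_, ?_⟩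
    · rintro ⟨x, rfl⟩
      exact ⟨Submodule.Quotient.mk x, rfl⟩
    · rintro ⟨g, rfl⟩
      obtain ⟨x, rfl⟩ := Submodule.Quotient.mk_surjective _ g
      exact ⟨x, rfl⟩
  · exact extVan_of_resolution (Q := fun i => Q d (i + 2)) (d := fun i => D d (i + 2))
      (ε := (LinearMap.range (D d 2)).mkQ)
      ⟨fun i => inferInstance, Submodule.mkQ_surjective _,
        fun x => Submodule.Quotient.mk_eq_zero _, fun i => h3 d i⟩ n
      fun φ hφ => hc d (n + 2) φ hφ
  · ext x
    exact LinearMap.congr_fun hφ (Submodule.Quotient.mk x)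
  · obtain ⟨ψ, hψ⟩ := hc d 1 (φ.comp (LinearMap.range (D d 2)).mkQ) (by
      ext x
      have e : (LinearMap.range (D d 2)).mkQ (D d 2 x) = 0 :=
        (Submodule.Quotient.mk_eq_zero _).2 ⟨x, rfl⟩
      exact (congrArg φ e).trans (map_zero φ))
    refine ⟨ψ, Submodule.linearMap_qext _ ?_⟩
    ext x
    exact LinearMap.congr_fun hψ x

/-! ### Projectives from idempotents -/

section Idem

variable {A : Type v} [Ring A] {N : Type v} [AddCommGroup N] [Module A N]
variable {ι κ μ : Type} [Fintype ι] [Fintype κ] [Fintype μ]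

/-- The sum of the `A e i`. -/
def idemMod (e : ι → A) : Submodule A (ι → A) where
  carrier := {x | ∀ i, x i * e i = x i}
  add_mem' hx hy i := by simp [add_mul, hx i, hy i]
  zero_mem' i := zero_mul _
  smul_mem' a x hx i := by simp [mul_assoc, hx i]

theorem idemMod_projective {e : ι → A} (he : ∀ i, e i * e i = e i) :
    Module.Projective A (idemMod e) := by
  refine Module.Projective.of_split (idemMod e).subtype
    (LinearMap.codRestrict (idemMod e)
      { toFun := fun x i => x i * e i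
        map_add' := fun x y => funext fun i => add_mul _ _ _
        map_smul' := fun a x => funext fun i => mul_assoc _ _ _ }
      fun x i => by simp [mul_assoc, he i]) ?_
  ext x i
  exact x.2 i

/-- A matrix of elements of `e i A f k`. -/
def IsBlock (e : ι → A) (f : κ → A) (m : Matrix ι κ A) : Prop :=
  ∀ i k, e i * m i k = m i k ∧ m i k * f k = m i k

/-- Right multiplication by a matrix. -/
def idemMap {e : ι → A} {f : κ → A} (m : Matrix ι κ A) (hm : IsBlock e f m) :
    idemMod e →ₗ[A] idemMod f where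
  toFun x := ⟨fun k => ∑ i, x.1 i * m i k, fun k => by
    simp only [Finset.sum_mul, mul_assoc, (hm _ k).2]⟩
  map_add' x y := by ext k; simp [add_mul, Finset.sum_add_distrib]
  map_smul' a x := by ext k; simp [Finset.mul_sum, mul_assoc]

/-- The map with values `y i` on the generators. -/
def idemLift (e : ι → A) (y : ι → N) : idemMod e →ₗ[A] N where
  toFun x := ∑ i, x.1 i • y i
  map_add' x z := by simp [add_smul, Finset.sum_add_distrib]
  map_smul' a x := by simp [Finset.smul_sum, mul_smul]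

theorem idemLift_comp {e : ι → A} {f : κ → A} (m : Matrix ι κ A) (hm : IsBlock e f m) (y : κ → N) :
    (idemLift f y).comp (idemMap m hm) = idemLift e fun i => ∑ k, m i k • y k := by
  ext x
  simp only [idemLift, idemMap, LinearMap.comp_apply, LinearMap.coe_mk, AddHom.coe_mk,
    Finset.sum_smul, Finset.smul_sum, mul_smul]
  exact Finset.sum_comm

/-- The `i`-th generator. -/
def idemGen [DecidableEq ι] {e : ι → A} (he : ∀ i, e i * e i = e i) (i : ι) : idemMod e :=
  ⟨Pi.single i (e i), fun j => by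
    by_cases h : j = i
    · subst h; simp [he]
    · simp [h]⟩

theorem idemLift_gen [DecidableEq ι] {e : ι → A} (he : ∀ i, e i * e i = e i) (y : ι → N) (i : ι) :
    idemLift e y (idemGen he i) = e i • y i := by
  show ∑ j, (Pi.single i (e i) : ι → A) j • y j = _
  rw [Finset.sum_eq_single i] <;> simp +contextual

theorem eq_idemLift [DecidableEq ι] {e : ι → A} (he : ∀ i, e i * e i = e i)
    (φ : idemMod e →ₗ[A] N) : φ = idemLift e fun i => φ (idemGen he i) := by
  ext x
  have hx : x = ∑ i, x.1 i • idemGen he i := by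
    ext j
    simp [idemGen, Finset.sum_apply, Pi.single_apply, x.2 j]
  conv_lhs => rw [hx]
  simp [idemLift]

/-- A cocycle criterion in terms of elements: `y` with `y i = e i • y i` and `m y = 0` is `m' z`. -/
theorem exists_lift_idem {e : ι → A} {f : κ → A} {g : μ → A} (he : ∀ i, e i * e i = e i)
    (hf : ∀ i, f i * f i = f i) {m : Matrix ι κ A} (hm : IsBlock e f m) {m' : Matrix κ μ A}
    (hm' : IsBlock f g m')
    (h : ∀ y : κ → N, (∀ k, f k • y k = y k) → (∀ i, ∑ k, m i k • y k = 0) →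
      ∃ z : μ → N, ∀ k, ∑ l, m' k l • z l = y k)
    (φ : idemMod f →ₗ[A] N) (hφ : φ.comp (idemMap m hm) = 0) :
    ∃ ψ : idemMod g →ₗ[A] N, ψ.comp (idemMap m' hm') = φ := by
  classical
  set y := fun k => φ (idemGen hf k) with hy
  have hfy : ∀ k, f k • y k = y k := fun k => by
    rw [hy, ← map_smul]
    congr 1
    ext j
    by_cases h : j = k
    · subst h; simp [idemGen, hf]
    · simp [idemGen, h]
  have e1 : φ = idemLift f y := eq_idemLift hf φ
  rw [e1, idemLift_comp] at hφ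
  obtain ⟨z, hz⟩ := h y hfy fun i => by
    have h0 := LinearMap.congr_fun hφ (idemGen he i)
    rw [idemLift_gen, LinearMap.zero_apply, Finset.smul_sum] at h0
    simpa only [← mul_smul, (hm i _).1] using h0
  exact ⟨idemLift g z, by rw [idemLift_comp, e1]; congr 1; funext k; exact hz k⟩

/-- A projective resolution by idempotent blocks. -/
structure IdemSeq (I : ℕ → Type) [∀ n, Fintype (I n)] (e : ∀ n, I n → A)
    (m : ∀ n, Matrix (I (n + 1)) (I n) A) : Prop where
  idem : ∀ n i, e n i * e n i = e n i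
  block : ∀ n, IsBlock (e (n + 1)) (e n) (m n)

/-- `Ext^{n+1}(X,N) = 0` from a resolution by blocks and cocycles given by elements. -/
theorem IdemSeq.extVan {Z : Type v} [AddCommGroup Z] [Module A Z] {I : ℕ → Type}
    [∀ n, Fintype (I n)] {e : ∀ n, I n → A} {m : ∀ n, Matrix (I (n + 1)) (I n) A}
    (h : IdemSeq I e m) {ε : idemMod (e 0) →ₗ[A] Z}
    (hres : ProjSeq (fun n => idemMod (e n)) (fun n => idemMap (m n) (h.block n)) ε) (n : ℕ)
    (hc : ∀ y : I (n + 1) → N, (∀ k, e (n + 1) k • y k = y k) →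
      (∀ i, ∑ k, m (n + 1) i k • y k = 0) → ∃ z : I n → N, ∀ k, ∑ l, m n k l • z l = y k) :
    ExtVan A Z N (n + 1) :=
  extVan_of_resolution hres n fun φ hφ =>
    exists_lift_idem (h.idem _) (h.idem _) (h.block _) (h.block n) hc φ hφ

/-- Change of rings along `r : A₀ → A`: the image of a resolution over `A₀`, when exact, computes
`Ext` with the same cocycles. -/
theorem IdemSeq.extVan_map {A₀ : Type v} [Ring A₀] (r : A₀ →+* A) [Module A₀ N]
    (hr : ∀ (a : A₀) (x : N), r a • x = a • x) {Z₀ Z : Type v} [AddCommGroup Z₀] [Module A₀ Z₀]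
    [AddCommGroup Z] [Module A Z] {I : ℕ → Type} [∀ n, Fintype (I n)] {e₀ : ∀ n, I n → A₀}
    {m₀ : ∀ n, Matrix (I (n + 1)) (I n) A₀} (h₀ : IdemSeq I e₀ m₀)
    {ε₀ : idemMod (e₀ 0) →ₗ[A₀] Z₀}
    (hres₀ : ProjSeq (fun n => idemMod (e₀ n)) (fun n => idemMap (m₀ n) (h₀.block n)) ε₀)
    (h : IdemSeq I (fun n i => r (e₀ n i)) fun n => (m₀ n).map r)
    {ε : idemMod (fun i => r (e₀ 0 i)) →ₗ[A] Z}
    (hres : ProjSeq (fun n => idemMod fun i => r (e₀ n i))
      (fun n => idemMap ((m₀ n).map r) (h.block n)) ε)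
    (n : ℕ) (hv : ExtVan A₀ Z₀ N (n + 1)) : ExtVan A Z N (n + 1) := by
  classical
  refine h.extVan hres n fun y hy hy' => ?_
  simp only [hr, Matrix.map_apply] at hy hy' ⊢
  have hc : (idemLift (e₀ (n + 1)) y).comp (idemMap (m₀ (n + 1)) (h₀.block (n + 1))) = 0 := by
    rw [idemLift_comp]
    ext x
    simp [idemLift, hy']
  obtain ⟨ψ, hψ⟩ := exists_of_extVan hres₀ n hv _ hc
  refine ⟨fun l => ψ (idemGen (h₀.idem n) l), fun k => ?_⟩
  rw [eq_idemLift (h₀.idem n) ψ, idemLift_comp] at hψ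
  have hk := LinearMap.congr_fun hψ (idemGen (h₀.idem (n + 1)) k)
  rw [idemLift_gen, idemLift_gen, hy k, Finset.smul_sum] at hk
  simpa only [← mul_smul, (h₀.block n k _).1] using hk

end Idem

/-! ### Duals of right modules -/

section Dual

variable {k : Type v} [Field k] {E₂ E₁ E₀ : Type v} [AddCommGroup E₂] [Module k E₂]
  [AddCommGroup E₁] [Module k E₁] [AddCommGroup E₀] [Module k E₀]

/-- The transpose of an exact pair is exact. -/
theorem dual_exists_of_exact {s : E₂ →ₗ[k] E₁} {t : E₁ →ₗ[k] E₀} (h : Function.Exact s t)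
    (φ : Module.Dual k E₁) (hφ : φ.comp s = 0) : ∃ ψ : Module.Dual k E₀, ψ.comp t = φ := by
  have hker : φ ∈ (LinearMap.ker t).dualAnnihilator := by
    rw [Submodule.mem_dualAnnihilator]
    intro x hx
    obtain ⟨w, rfl⟩ := (h x).1 hx
    exact LinearMap.congr_fun hφ w
  rw [← LinearMap.range_dualMap_eq_dualAnnihilator_ker] at hker
  exact hker

end Dual

/-! ### Projectivity and the conjecture -/

/-- A surjection without a section. -/
theorem not_projective_of_not_split {g : P →ₗ[R] X} (hg : Function.Surjective g)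
    (h : ∀ s : X →ₗ[R] P, g.comp s ≠ LinearMap.id) : ¬Module.Projective R X := fun _ =>
  let ⟨s, hs⟩ := Module.projective_lifting_property g LinearMap.id hg
  h s hs

/-- `Ext` into a product. -/
theorem ExtVan.prod {i : ℕ} (h : ExtVan R X Y i) (h' : ExtVan R X Y' i) :
    ExtVan R X (Y × Y') i := by
  have hs : Short (LinearMap.inl R Y Y') (LinearMap.snd R Y Y') :=
    ⟨LinearMap.inl_injective, Function.Exact.inl_snd, LinearMap.snd_surjective⟩
  refine subsingleton_of_forall_eq 0 fun x => ?_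
  obtain ⟨y, rfl⟩ := Ext.covariant_sequence_exact₂ _ (shortC_shortExact hs) x (h'.elim _ _)
  rw [h.elim y 0, Ext.zero_comp]

variable (k : Type) [Field k] in
/-- A counterexample to the Auslander-Reiten conjecture over a finite-dimensional algebra. -/
def ARFails : Prop :=
  ∃ (A : Type) (_ : Ring A) (_ : Algebra k A) (M : Type) (_ : AddCommGroup M) (_ : Module A M),
    Module.Finite k A ∧ Module.Finite A M ∧ ¬Module.Projective A M ∧
      ∀ i, 1 ≤ i → ExtVan A M M i ∧ ExtVan A M A i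

end Vale.Agent.P195
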