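import Vale.Agent.P195.Path
import Vale.Agent.P195.Homological

/-!
# P195: complexes of sums of columns, vertex by vertex

`C.free g` is the sum of the columns at the `g i`; a map out of it is a family of elements
`y i ∈ M (g i)`, so a map between two of them is a matrix of arrows. `extVan_of_free_complexes`
is `extVan_of_complexes` with every hypothesis stated on vector spaces at one vertex.
-/

namespace Vale.Agent.P195

namespace LinCat

open Vale.Agent.P195.Rep

variable {V : Type} (C : LinCat V) {ι κ : Type}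

/-- The sum of the columns at the `g i`. -/
@[reducible] def free (g : ι → V) : Rep C where
  X u := ∀ i, C.H (g i) u
  act := LinearMap.mk₂ ℚ (fun f x i => C.comp f (x i))
    (fun f f' x => funext fun i => by simp) (fun c f x => funext fun i => by simp)
    (fun f x x' => funext fun i => by simp) (fun c f x => funext fun i => by simp)
  one_act x := funext fun i => C.one_comp _
  comp_act g f x := funext fun i => C.assoc g f _

variable {C}

lemma free_act_apply {g : ι → V} {u w : V} (f : C.H u w) (x : (C.free g).X u) (i : ι) :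
    (C.free g).act f x i = C.comp f (x i) := rfl

/-- The map with values `y i` at the generators. -/
def freeHom [Fintype ι] (g : ι → V) (M : Rep C) (y : ∀ i, M.X (g i)) :
    Rep.Hom (C.free g) M where
  app u := ∑ i, (M.act.flip (y i)).comp (LinearMap.proj i)
  nat f x := by simp [M.comp_act]

lemma freeHom_app [Fintype ι] {g : ι → V} (M : Rep C) (y : ∀ i, M.X (g i)) {u : V}
    (x : (C.free g).X u) : (freeHom g M y).app u x = ∑ i, M.act (x i) (y i) := by
  simp [freeHom]

/-- The generator at `i`. -/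
def freeGen [DecidableEq ι] (g : ι → V) (i : ι) : (C.free g).X (g i) :=
  Pi.single (M := fun j => C.H (g j) (g i)) i (C.one (g i))

lemma freeHom_gen [Fintype ι] [DecidableEq ι] {g : ι → V} (M : Rep C) (y : ∀ i, M.X (g i))
    (i : ι) : (freeHom g M y).app (g i) (freeGen g i) = y i := by
  rw [freeHom_app, Fintype.sum_eq_single i fun j hj => by simp [freeGen, hj]]
  simp [freeGen, M.one_act]

lemma sum_act_gen [Fintype ι] [DecidableEq ι] {g : ι → V} {u : V} (x : (C.free g).X u) :
    ∑ i, (C.free g).act (x i) (freeGen g i) = x := by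
  funext j
  rw [Finset.sum_apply, Fintype.sum_eq_single j fun i hi => by
    simp [freeGen, hi.symm]]
  simp [freeGen, C.comp_one]

lemma eq_freeHom [Fintype ι] [DecidableEq ι] {g : ι → V} {M : Rep C}
    (φ : Rep.Hom (C.free g) M) : φ = freeHom g M fun i => φ.app (g i) (freeGen g i) := by
  refine Rep.Hom.ext fun u x => ?_
  conv_lhs => rw [← sum_act_gen x]
  rw [map_sum, freeHom_app]
  exact Finset.sum_congr rfl fun i _ => φ.nat _ _

lemma app_freeHom [Fintype ι] {g : ι → V} {N M : Rep C} (y : ∀ i, N.X (g i))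
    (φ : Rep.Hom N M) {u : V} (x : (C.free g).X u) :
    φ.app u ((freeHom g N y).app u x) = (freeHom g M fun i => φ.app (g i) (y i)).app u x := by
  rw [freeHom_app, freeHom_app, map_sum]
  exact Finset.sum_congr rfl fun i _ => φ.nat _ _

section Tot

variable [Fintype V] [DecidableEq V]

/-- A sum of columns, as a product. -/
def freeEquiv (g : ι → V) : (C.free g).Tot ≃ₗ[C.Alg] (∀ i, (C.col (g i)).Tot) where
  toFun x i u := x u i
  map_add' _ _ := rfl
  map_smul' a x := funext fun i => Rep.Tot.ext (N := C.col (g i)) fun u => by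
    show (∑ v, (C.free g).act (a v u) (x v)) i = ∑ v, C.comp (a v u) (x v i)
    rw [Finset.sum_apply]
    rfl
  invFun x u i := x i u
  left_inv _ := rfl
  right_inv _ := rfl

instance free_projective [Fintype ι] (g : ι → V) : Module.Projective C.Alg (C.free g).Tot := by
  classical
  let s : (∀ i, (C.col (g i)).Tot) →ₗ[C.Alg] ι → C.Alg := LinearMap.pi fun i =>
    (algEquiv (C := C)).symm.toLinearMap.comp
      ((LinearMap.single C.Alg (fun v => (C.col v).Tot) (g i)).comp (LinearMap.proj i))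
  let r : (ι → C.Alg) →ₗ[C.Alg] ∀ i, (C.col (g i)).Tot := LinearMap.pi fun i =>
    (LinearMap.proj (g i)).comp ((algEquiv (C := C)).toLinearMap.comp (LinearMap.proj i))
  have : Module.Projective C.Alg (∀ i, (C.col (g i)).Tot) :=
    Module.Projective.of_split s r (LinearMap.ext fun x => funext fun i => by simp [s, r])
  exact Module.Projective.of_equiv (freeEquiv g).symm

end Tot

end LinCat

open LinCat

/-- The family lemma, vertex by vertex: the complex `d` has generators at `g d i`, differentials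
`m d i`, augmentation `e d`; its degree two homology at `u` is read off by `z d u`. -/
theorem extVan_of_free_complexes {V : Type} [Fintype V] [DecidableEq V] {C : LinCat V}
    {Z : ℕ → Rep C} {M : Rep C} {I : ℕ → ℕ → Type} [∀ d i, Fintype (I d i)]
    {g : ∀ d i, I d i → V} {m : ∀ d i, ∀ j : I d (i + 1), (C.free (g d i)).X (g d (i + 1) j)}
    {e : ∀ d, ∀ j : I d 0, (Z d).X (g d 0 j)}
    {z : ∀ d u, (C.free (g d 2)).X u →ₗ[ℚ] (Z (d + 1)).X u}
    (hε : ∀ d u, Function.Surjective ((freeHom (g d 0) (Z d) (e d)).app u))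
    (h0 : ∀ d u, Function.Exact ((freeHom (g d (0 + 1)) (C.free (g d 0)) (m d 0)).app u)
      ((freeHom (g d 0) (Z d) (e d)).app u))
    (h1 : ∀ d u, Function.Exact ((freeHom (g d (1 + 1)) (C.free (g d 1)) (m d 1)).app u)
      ((freeHom (g d (0 + 1)) (C.free (g d 0)) (m d 0)).app u))
    (hD : ∀ d u x, (freeHom (g d (1 + 1)) (C.free (g d 1)) (m d 1)).app u
      ((freeHom (g d (2 + 1)) (C.free (g d 2)) (m d 2)).app u x) = 0)
    (hzn : ∀ d u w (f : C.H u w) x, (freeHom (g d (1 + 1)) (C.free (g d 1)) (m d 1)).app u x = 0 →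
      z d w ((C.free (g d 2)).act f x) = (Z (d + 1)).act f (z d u x))
    (hzs : ∀ d u y, ∃ x, (freeHom (g d (1 + 1)) (C.free (g d 1)) (m d 1)).app u x = 0 ∧ z d u x = y)
    (hzk : ∀ d u x, (freeHom (g d (1 + 1)) (C.free (g d 1)) (m d 1)).app u x = 0 → (z d u x = 0 ↔
      x ∈ LinearMap.range ((freeHom (g d (2 + 1)) (C.free (g d 2)) (m d 2)).app u)))
    (h3 : ∀ d i u, Function.Exact
      ((freeHom (g d (i + 2 + 1 + 1)) (C.free (g d (i + 2 + 1))) (m d (i + 2 + 1))).app u)
      ((freeHom (g d (i + 2 + 1)) (C.free (g d (i + 2))) (m d (i + 2))).app u))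
    (hc : ∀ d i (y : ∀ j, M.X (g d (i + 1) j)),
      (∀ j, (freeHom (g d (i + 1)) M y).app _ (m d (i + 1) j) = 0) →
      ∃ x : ∀ j, M.X (g d i j), ∀ j, (freeHom (g d i) M x).app _ (m d i j) = y j)
    (hH : ∀ d (φ : Rep.Hom (Z (d + 1)) M) u x, φ.app u x = 0) :
    ∀ i d, ExtVan C.Alg (Z d).Tot M.Tot (i + 1) := by
  classical
  let D : ∀ d i, Rep.Hom (C.free (g d (i + 1))) (C.free (g d i)) := fun d i =>
    freeHom (g d (i + 1)) (C.free (g d i)) (m d i)
  let zt : ∀ d, LinearMap.ker (D d 1).toLin →ₗ[C.Alg] (Z (d + 1)).Tot := fun d =>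
    { toFun := fun x u => z d u (x.1 u)
      map_add' := fun x y => Rep.Tot.ext fun u => map_add _ _ _
      map_smul' := fun a x => Rep.Tot.ext fun w => by
        show z d w (∑ u, (C.free (g d 2)).act (a u w) (x.1 u)) =
          ∑ u, (Z (d + 1)).act (a u w) (z d u (x.1 u))
        rw [map_sum]
        exact Finset.sum_congr rfl fun u _ => hzn d u w _ _ (congrFun x.2 u) }
  refine extVan_of_complexes (Q := fun d i => (C.free (g d i)).Tot)
    (D := fun d i => (D d i).toLin) (ε := fun d => (freeHom (g d 0) (Z d) (e d)).toLin) (z := zt)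
    (fun d => (Rep.toLin_surjective_iff _).2 (hε d))
    (fun d => (Rep.toLin_exact_iff _ _).2 (h0 d)) (fun d => (Rep.toLin_exact_iff _ _).2 (h1 d))
    (fun d x => Rep.Tot.ext fun u => hD d u _) (fun d y => ?_) (fun d x => ?_)
    (fun d i => (Rep.toLin_exact_iff _ _).2 (h3 d i)) (fun d i φ hφ => ?_) fun d φ => ?_
  · choose x hx hzx using fun u => hzs d u (y u)
    exact ⟨⟨x, Rep.Tot.ext hx⟩, Rep.Tot.ext hzx⟩
  · constructor
    · intro h
      choose w hw using fun u => (hzk d u _ (congrFun x.2 u)).1 (congrFun h u)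
      exact ⟨w, Rep.Tot.ext hw⟩
    · rintro ⟨w, hw⟩
      exact Rep.Tot.ext fun u => (hzk d u _ (congrFun x.2 u)).2 ⟨w u, congrFun hw u⟩
  · set y := fun j => (Rep.comps φ).app (g d (i + 1) j) (freeGen (g d (i + 1)) j) with hy
    have hyφ : Rep.comps φ = freeHom (g d (i + 1)) M y := eq_freeHom _
    obtain ⟨x, hx⟩ := hc d i y fun j => by
      rw [← hyφ]
      show φ (Rep.at' _ (m d (i + 1) j)) _ = 0
      have e' : (D d (i + 1)).toLin (Rep.at' _ (freeGen (g d (i + 2)) j)) =
          Rep.at' (g d (i + 2) j) (m d (i + 1) j) := by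
        rw [Rep.Hom.toLin_at', freeHom_gen]
      rw [← e']
      exact congrFun (LinearMap.congr_fun hφ _) _
    refine ⟨(freeHom (g d i) M x).toLin, ?_⟩
    rw [← Rep.toLin_comps φ, hyφ]
    refine LinearMap.ext fun n => Rep.Tot.ext fun u => ?_
    show (freeHom (g d i) M x).app u ((D d i).app u (n u)) = _
    rw [app_freeHom, funext hx]
    rfl
  · rw [← Rep.toLin_comps φ]
    exact LinearMap.ext fun n => Rep.Tot.ext fun u => by
      show (Rep.comps φ).app u (n u) = 0
      exact hH d _ u _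

/-! ### Products and transposes of exact pairs -/

section Exact

variable {k : Type*} [Field k] {E₁ E₂ E₃ F : Type*} [AddCommGroup E₁] [Module k E₁]
  [AddCommGroup E₂] [Module k E₂] [AddCommGroup E₃] [Module k E₃] [AddCommGroup F] [Module k F]

/-- A product of exact pairs is exact. -/
theorem exact_prodMap {E₁' E₂' E₃' : Type*} [AddCommGroup E₁'] [Module k E₁'] [AddCommGroup E₂']
    [Module k E₂'] [AddCommGroup E₃'] [Module k E₃'] {s : E₁ →ₗ[k] E₂} {t : E₂ →ₗ[k] E₃}
    {s' : E₁' →ₗ[k] E₂'} {t' : E₂' →ₗ[k] E₃'} (h : Function.Exact s t)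
    (h' : Function.Exact s' t') : Function.Exact (s.prodMap s') (t.prodMap t') := by
  rintro ⟨x, x'⟩
  simp only [LinearMap.prodMap_apply, Prod.mk_eq_zero, Set.mem_range, Prod.exists, Prod.mk.injEq]
  rw [h x, h' x']
  constructor
  · rintro ⟨⟨a, ha⟩, b, hb⟩
    exact ⟨a, b, ha, hb⟩
  · rintro ⟨a, b, ha, hb⟩
    exact ⟨⟨a, ha⟩, b, hb⟩

/-- The transpose of an exact pair. -/
theorem exact_dualMap {s : E₁ →ₗ[k] E₂} {t : E₂ →ₗ[k] E₃} (h : Function.Exact s t) :
    Function.Exact t.dualMap s.dualMap := by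
  intro φ
  constructor
  · intro hφ
    have hker : φ ∈ (LinearMap.ker t).dualAnnihilator := by
      rw [Submodule.mem_dualAnnihilator]
      intro x hx
      obtain ⟨w, rfl⟩ := (h x).1 hx
      exact LinearMap.congr_fun hφ w
    rw [← LinearMap.range_dualMap_eq_dualAnnihilator_ker] at hker
    exact hker
  · rintro ⟨ψ, rfl⟩
    exact LinearMap.ext fun x =>
      (congrArg ψ (h.apply_apply_eq_zero x)).trans (map_zero ψ)

/-- If `κ` gives the cohomology of `E₁ → E₂ → E₃`, its transpose gives the homology of the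
transposed pair: onto on cycles, with the boundaries as kernel. -/
theorem dual_homology {s : E₁ →ₗ[k] E₂} {t : E₂ →ₗ[k] E₃} {κ : F →ₗ[k] E₂}
    (hκ : ∀ y, t (κ y) = 0)
    (hgen : ∀ x, t x = 0 → ∃ a y, x = s a + κ y) (hinj : ∀ a y, s a = κ y → y = 0) :
    (∀ ξ : Module.Dual k F, ∃ φ : Module.Dual k E₂, φ.comp s = 0 ∧ φ.comp κ = ξ) ∧
      ∀ φ : Module.Dual k E₂, φ.comp s = 0 →
        (φ.comp κ = 0 ↔ φ ∈ LinearMap.range t.dualMap) := by
  refine ⟨fun ξ => ?_, fun φ hφ => ⟨fun hκφ => ?_, ?_⟩⟩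
  · let κ' := (LinearMap.range s).mkQ.comp κ
    have hκ' : Function.Injective κ' := (injective_iff_map_eq_zero _).2 fun y hy => by
      obtain ⟨a, ha⟩ := (Submodule.Quotient.mk_eq_zero _).1 hy
      exact hinj a y ha
    obtain ⟨ψ, hψ⟩ := LinearMap.dualMap_surjective_of_injective hκ' ξ
    refine ⟨ψ.comp (LinearMap.range s).mkQ, ?_, hψ⟩
    ext a
    exact (congrArg ψ ((Submodule.Quotient.mk_eq_zero _).2 ⟨a, rfl⟩)).trans (map_zero ψ)
  · rw [LinearMap.range_dualMap_eq_dualAnnihilator_ker, Submodule.mem_dualAnnihilator]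
    intro x hx
    obtain ⟨a, y, rfl⟩ := hgen x hx
    have ha : φ (s a) = 0 := LinearMap.congr_fun hφ a
    have hy : φ (κ y) = 0 := LinearMap.congr_fun hκφ y
    rw [map_add, ha, hy, add_zero]
  · rintro ⟨ψ, rfl⟩
    exact LinearMap.ext fun y => (congrArg ψ (hκ y)).trans (map_zero ψ)

end Exact

end Vale.Agent.P195
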