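import Vale.Agent.P195.OpsFacts

/-!
# P195: the Koszul sequence of `x, y` on operators

In weights `w ≥ 1` both `0 → F (w-2) k → F (w-1) k² → F w k → 0`, by multiplication with `x, y`
on either side, are exact. The right version follows from the left one by induction on the order,
since commutators with `x, y` lower the order. `eul3_inj`: three factors `eul'` cannot bring an
operator down to order two.
-/

noncomputable section

namespace Vale.Agent.P195

open Polynomial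

variable {w k : ℤ} {f g₀ g₁ : Op}

theorem X₀_comm_X₁ : X₀ * X₁ = X₁ * X₀ :=
  Finsupp.lhom_ext fun e c => by simp only [Module.End.mul_apply, X₀_single, X₁_single]

theorem X₀_injective : Function.Injective X₀ :=
  Finsupp.mapDomain_injective fun a b h => by simpa [Prod.ext_iff] using h

theorem X₁_injective : Function.Injective X₁ :=
  Finsupp.mapDomain_injective fun a b h => by simpa [Prod.ext_iff] using h

theorem X₀_mul_cancel {f g : Op} (h : X₀ * f = X₀ * g) : f = g :=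
  LinearMap.ext fun t => X₀_injective (LinearMap.congr_fun h t)

theorem X₁_mul_cancel {f g : Op} (h : X₁ * f = X₁ * g) : f = g :=
  LinearMap.ext fun t => X₁_injective (LinearMap.congr_fun h t)

theorem sub_mul' (a b c : Op) : (a - b) * c = a * c - b * c := sub_mul a b c

theorem mul_sub' (a b c : Op) : a * (b - c) = a * b - a * c := mul_sub a b c

theorem mul_X₀_cancel {f g : Op} (h : f * X₀ = g * X₀) : f = g := by
  refine Finsupp.lhom_ext fun e c => ?_
  have := LinearMap.congr_fun h (Finsupp.single (e.1 - 1, e.2) c)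
  simpa [Module.End.mul_apply, X₀_single] using this

theorem mul_X₁_cancel {f g : Op} (h : f * X₁ = g * X₁) : f = g := by
  refine Finsupp.lhom_ext fun e c => ?_
  have := LinearMap.congr_fun h (Finsupp.single (e.1, e.2 - 1) c)
  simpa [Module.End.mul_apply, X₁_single] using this

theorem ff_add_one (n : ℤ) (r : ℕ) : ff (n + 1) (r + 1) = ff n (r + 1) + (r + 1) * ff n r := by
  induction r with
  | zero => simp [ff]
  | succ r ih =>
    rw [ff_succ (n + 1), ih, ff_succ n (r + 1), ff_succ n r]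
    push_cast
    ring

theorem mono_comm_X₀ (p q r s : ℕ) :
    mono (p, q, r, s) * X₀ - X₀ * mono (p, q, r, s) = (r : ℚ) • mono (p, q, r - 1, s) := by
  refine Finsupp.lhom_ext fun e c => ?_
  cases r with
  | zero =>
    simp only [LinearMap.sub_apply, Module.End.mul_apply, mono_single, X₀_single, Nat.cast_zero,
      zero_smul, LinearMap.zero_apply, ff_zero, sub_zero]
    rw [show e.1 + 1 + (p : ℤ) = e.1 + p + 1 by ring, sub_self]
  | succ r =>
    simp only [LinearMap.sub_apply, LinearMap.smul_apply, Module.End.mul_apply, mono_single,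
      X₀_single, Nat.add_sub_cancel, ff_add_one, Finsupp.smul_single, smul_eq_mul]
    rw [show e.1 + 1 - ((r + 1 : ℕ) : ℤ) + p = e.1 - r + p by push_cast; ring,
      show e.1 - ((r + 1 : ℕ) : ℤ) + p + 1 = e.1 - r + p by push_cast; ring, ← Finsupp.single_sub]
    congr 1
    push_cast
    ring

theorem mono_comm_X₁ (p q r s : ℕ) :
    mono (p, q, r, s) * X₁ - X₁ * mono (p, q, r, s) = (s : ℚ) • mono (p, q, r, s - 1) := by
  refine Finsupp.lhom_ext fun e c => ?_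
  cases s with
  | zero =>
    simp only [LinearMap.sub_apply, Module.End.mul_apply, mono_single, X₁_single, Nat.cast_zero,
      zero_smul, LinearMap.zero_apply, ff_zero, sub_zero]
    rw [show e.2 + 1 + (q : ℤ) = e.2 + q + 1 by ring, sub_self]
  | succ s =>
    simp only [LinearMap.sub_apply, LinearMap.smul_apply, Module.End.mul_apply, mono_single,
      X₁_single, Nat.add_sub_cancel, ff_add_one, Finsupp.smul_single, smul_eq_mul]
    rw [show e.2 + 1 - ((s + 1 : ℕ) : ℤ) + q = e.2 - s + q by push_cast; ring,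
      show e.2 - ((s + 1 : ℕ) : ℤ) + q + 1 = e.2 - s + q by push_cast; ring, ← Finsupp.single_sub]
    congr 1
    push_cast
    ring

theorem comm_X₀_mem (hf : f ∈ F w k) : f * X₀ - X₀ * f ∈ F (w + 1) (k - 1) :=
  F_le_of_mem hf ((F (w + 1) (k - 1)).comap (LinearMap.mulRight ℚ X₀ - LinearMap.mulLeft ℚ X₀))
    fun ⟨p, q, r, s⟩ hm => by
    simp only [Idx, Set.mem_ofPred_eq] at hm
    rw [Submodule.mem_comap, LinearMap.sub_apply, LinearMap.mulRight_apply,
      LinearMap.mulLeft_apply, mono_comm_X₀]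
    cases r with
    | zero => simp
    | succ r =>
      exact Submodule.smul_mem _ _
        (mono_mem ⟨by push_cast at hm ⊢; omega, by push_cast at hm ⊢; omega⟩)

theorem comm_X₁_mem (hf : f ∈ F w k) : f * X₁ - X₁ * f ∈ F (w + 1) (k - 1) :=
  F_le_of_mem hf ((F (w + 1) (k - 1)).comap (LinearMap.mulRight ℚ X₁ - LinearMap.mulLeft ℚ X₁))
    fun ⟨p, q, r, s⟩ hm => by
    simp only [Idx, Set.mem_ofPred_eq] at hm
    rw [Submodule.mem_comap, LinearMap.sub_apply, LinearMap.mulRight_apply,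
      LinearMap.mulLeft_apply, mono_comm_X₁]
    cases s with
    | zero => simp
    | succ s =>
      exact Submodule.smul_mem _ _
        (mono_mem ⟨by push_cast at hm ⊢; omega, by push_cast at hm ⊢; omega⟩)

theorem mul_X₀_mem (hf : f ∈ F w k) : f * X₀ ∈ F (w + 1) k := by
  simpa using add_mem (F_le (sub_le_self k zero_le_one) (comm_X₀_mem hf)) (X₀_mul_mem hf)

theorem mul_X₁_mem (hf : f ∈ F w k) : f * X₁ ∈ F (w + 1) k := by
  simpa using add_mem (F_le (sub_le_self k zero_le_one) (comm_X₁_mem hf)) (X₁_mul_mem hf)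

/-! ### Left multiplication -/

theorem leftK_surj (hw : 1 ≤ w) (hf : f ∈ F w k) :
    ∃ g₀ ∈ F (w - 1) k, ∃ g₁ ∈ F (w - 1) k, X₀ * g₀ + X₁ * g₁ = f := by
  have h : f ∈ (F (w - 1) k).map (LinearMap.mulLeft ℚ X₀) ⊔
      (F (w - 1) k).map (LinearMap.mulLeft ℚ X₁) := by
    refine F_le_of_mem hf _ fun ⟨p, q, r, s⟩ hm => ?_
    simp only [Idx, Set.mem_ofPred_eq] at hm
    cases p with
    | succ p =>
      exact Submodule.mem_sup_left ⟨mono (p, q, r, s),
        mono_mem ⟨by push_cast at hm ⊢; omega, by push_cast at hm ⊢; omega⟩, X₀_mul_mono p q r s⟩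
    | zero =>
      cases q with
      | zero => simp at hm; omega
      | succ q =>
        exact Submodule.mem_sup_right ⟨mono (0, q, r, s),
          mono_mem ⟨by push_cast at hm ⊢; omega, by push_cast at hm ⊢; omega⟩, X₁_mul_mono 0 q r s⟩
  obtain ⟨_, ⟨g₀, h₀, rfl⟩, _, ⟨g₁, h₁, rfl⟩, e⟩ := Submodule.mem_sup.1 h
  exact ⟨g₀, h₀, g₁, h₁, e⟩

theorem leftK_mid (h₀ : g₀ ∈ F (w - 1) k) (h₁ : g₁ ∈ F (w - 1) k) (h : X₀ * g₀ + X₁ * g₁ = 0) :
    ∃ u ∈ F (w - 2) k, X₁ * u = g₀ ∧ X₀ * u = -g₁ := by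
  obtain ⟨l₀, -, e₀⟩ := (Finsupp.mem_span_image_iff_linearCombination ℚ).1 h₀
  obtain ⟨l₁, hl₁, e₁⟩ := (Finsupp.mem_span_image_iff_linearCombination ℚ).1 h₁
  set s₀ : ℕ × ℕ × ℕ × ℕ → ℕ × ℕ × ℕ × ℕ := fun m => (m.1 + 1, m.2.1, m.2.2) with hs₀
  set s₁ : ℕ × ℕ × ℕ × ℕ → ℕ × ℕ × ℕ × ℕ := fun m => (m.1, m.2.1 + 1, m.2.2) with hs₁
  have hx : ∀ (X : Op) (σ : ℕ × ℕ × ℕ × ℕ → ℕ × ℕ × ℕ × ℕ), (∀ m, X * mono m = mono (σ m)) →
      ∀ l : (ℕ × ℕ × ℕ × ℕ) →₀ ℚ, X * Finsupp.linearCombination ℚ mono l =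
        Finsupp.linearCombination ℚ mono (l.mapDomain σ) := by
    intro X σ hσ l
    rw [Finsupp.linearCombination_mapDomain, Finsupp.linearCombination_apply,
      Finsupp.linearCombination_apply, Finsupp.sum, Finsupp.sum, Finset.mul_sum]
    simp [hσ]
  have key : l₀.mapDomain s₀ + l₁.mapDomain s₁ = 0 := by
    refine linearIndependent_iff.1 mono_linearIndependent _ ?_
    rw [map_add, ← hx X₀ s₀ (fun m => X₀_mul_mono _ _ _ _), ← hx X₁ s₁ (fun m => X₁_mul_mono _ _ _ _),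
      e₀, e₁, h]
  have hz : ∀ m : ℕ × ℕ × ℕ × ℕ, m.1 = 0 → l₁ m = 0 := fun m hm => by
    have e := DFunLike.congr_fun key (s₁ m)
    rw [Finsupp.add_apply, Finsupp.mapDomain_of_notMem_range _ _ (by
        rintro ⟨n, hn⟩
        have := congrArg Prod.fst hn
        simp [hs₀, hs₁, hm] at this),
      Finsupp.mapDomain_apply (fun a b hab => by
        simp only [hs₁, Prod.mk.injEq, Nat.add_right_cancel_iff] at hab
        ext <;> simp [hab]) , zero_add] at e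
    exact e
  have hg₁ : g₁ ∈ (F (w - 2) k).map (LinearMap.mulLeft ℚ X₀) := by
    rw [← e₁, Finsupp.linearCombination_apply]
    refine Submodule.sum_mem _ fun ⟨p, q, r, s⟩ hm => Submodule.smul_mem _ _ ?_
    have hi : (p, q, r, s) ∈ Idx (w - 1) k := hl₁ hm
    simp only [Idx, Set.mem_ofPred_eq] at hi
    cases p with
    | zero => exact absurd (hz _ rfl) (Finsupp.mem_support_iff.1 hm)
    | succ p =>
      exact ⟨mono (p, q, r, s),
        mono_mem ⟨by push_cast at hi ⊢; omega, by push_cast at hi ⊢; omega⟩, X₀_mul_mono p q r s⟩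
  obtain ⟨v, hv, e⟩ := hg₁
  rw [LinearMap.mulLeft_apply] at e
  refine ⟨-v, neg_mem hv, X₀_mul_cancel ?_, ?_⟩
  · calc X₀ * (X₁ * -v) = -((X₀ * X₁) * v) :=
          ((congrArg (X₀ * ·) (mul_neg X₁ v)).trans (mul_neg X₀ _)).trans
            (congrArg (- ·) (mul_assoc X₀ X₁ v).symm)
      _ = -(X₁ * (X₀ * v)) := by rw [X₀_comm_X₁, mul_assoc]
      _ = _ := by rw [e]; exact neg_eq_of_add_eq_zero_left h
  · calc X₀ * -v = -(X₀ * v) := mul_neg X₀ v
      _ = _ := by rw [e]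

/-! ### Right multiplication -/

theorem rightK_surj (hw : 1 ≤ w) (hf : f ∈ F w k) :
    ∃ g₀ ∈ F (w - 1) k, ∃ g₁ ∈ F (w - 1) k, g₀ * X₀ + g₁ * X₁ = f := by
  suffices key : ∀ (n : ℕ) (k : ℤ) (f : Op), k < n → f ∈ F w k →
      ∃ g₀ ∈ F (w - 1) k, ∃ g₁ ∈ F (w - 1) k, g₀ * X₀ + g₁ * X₁ = f from
    key (k.toNat + 1) k f (by push_cast; omega) hf
  intro n
  induction n with
  | zero =>
    intro k f hk hf
    rw [F_eq_bot (Or.inl (by simpa using hk)), Submodule.mem_bot] at hf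
    exact ⟨0, zero_mem _, 0, zero_mem _, by simp [hf]⟩
  | succ n ih =>
    intro k f hk hf
    obtain ⟨g₀, h₀, g₁, h₁, rfl⟩ := leftK_surj hw hf
    obtain ⟨e₀, he₀, e₁, he₁, e⟩ := ih (k - 1) ((g₀ * X₀ - X₀ * g₀) + (g₁ * X₁ - X₁ * g₁))
      (by push_cast at hk; omega)
      (by simpa using add_mem (comm_X₀_mem h₀) (comm_X₁_mem h₁))
    refine ⟨g₀ - e₀, sub_mem h₀ (F_le (by omega) he₀), g₁ - e₁,
      sub_mem h₁ (F_le (by omega) he₁), ?_⟩
    rw [sub_mul', sub_mul', ← add_sub_assoc, sub_add_eq_add_sub, sub_sub, e]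
    abel

theorem rightK_mid (hw : 1 ≤ w) (h₀ : g₀ ∈ F (w - 1) k) (h₁ : g₁ ∈ F (w - 1) k)
    (h : g₀ * X₀ + g₁ * X₁ = 0) : ∃ u ∈ F (w - 2) k, u * X₁ = g₀ ∧ u * X₀ = -g₁ := by
  suffices key : ∀ (n : ℕ) (k : ℤ) (g₀ g₁ : Op), k < n → g₀ ∈ F (w - 1) k → g₁ ∈ F (w - 1) k →
      g₀ * X₀ + g₁ * X₁ = 0 → ∃ u ∈ F (w - 2) k, u * X₁ = g₀ ∧ u * X₀ = -g₁ from
    key (k.toNat + 1) k g₀ g₁ (by push_cast; omega) h₀ h₁ h
  intro n
  induction n with
  | zero =>
    intro k g₀ g₁ hk h₀ h₁ _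
    rw [F_eq_bot (Or.inl (by simpa using hk)), Submodule.mem_bot] at h₀ h₁
    exact ⟨0, zero_mem _, by simp [h₀], by simp [h₁]⟩
  | succ n ih =>
    intro k g₀ g₁ hk h₀ h₁ h
    obtain ⟨e₀, he₀, e₁, he₁, e⟩ := leftK_surj hw
      (f := (g₀ * X₀ - X₀ * g₀) + (g₁ * X₁ - X₁ * g₁)) (k := k - 1)
      (by simpa using add_mem (comm_X₀_mem h₀) (comm_X₁_mem h₁))
    obtain ⟨u, hu, u₁, u₀⟩ := leftK_mid (add_mem h₀ (F_le (by omega) he₀))
      (add_mem h₁ (F_le (by omega) he₁)) (by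
        calc X₀ * (g₀ + e₀) + X₁ * (g₁ + e₁) = X₀ * g₀ + X₁ * g₁ + (X₀ * e₀ + X₁ * e₁) := by
              noncomm_ring
          _ = g₀ * X₀ + g₁ * X₁ := by rw [e]; abel
          _ = 0 := h)
    have c₀ := comm_X₀_mem hu
    have c₁ := comm_X₁_mem hu
    rw [show w - 2 + 1 = w - 1 by ring] at c₀ c₁
    have d₀ : g₀ - u * X₁ ∈ F (w - 1) (k - 1) := by
      rw [show g₀ - u * X₁ = -e₀ - (u * X₁ - X₁ * u) by rw [u₁]; abel]
      exact sub_mem (neg_mem he₀) c₁
    have d₁ : g₁ + u * X₀ ∈ F (w - 1) (k - 1) := by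
      rw [show g₁ + u * X₀ = -e₁ + (u * X₀ - X₀ * u) by rw [u₀]; abel]
      exact add_mem (neg_mem he₁) c₀
    obtain ⟨v, hv, v₁, v₀⟩ := ih (k - 1) _ _ (by push_cast at hk; omega) d₀ d₁ (by
      rw [sub_mul', add_mul, mul_assoc, mul_assoc, X₀_comm_X₁]
      calc g₀ * X₀ - u * (X₁ * X₀) + (g₁ * X₁ + u * (X₁ * X₀)) = g₀ * X₀ + g₁ * X₁ := by abel
        _ = 0 := h)
    refine ⟨u + v, add_mem hu (F_le (by omega) hv), ?_, ?_⟩
    · rw [add_mul, v₁]; abel
    · rw [add_mul, v₀]; abel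

/-! ### Three Euler factors -/

theorem ff_eq_eval (i₀ : ℤ) (r : ℕ) : ∃ P : ℚ[X], P.natDegree ≤ r ∧
    ∀ t : ℤ, P.eval (t : ℚ) = ff (i₀ + t) r := by
  induction r with
  | zero => exact ⟨1, by simp, fun t => by simp [ff_zero]⟩
  | succ r ih =>
    obtain ⟨P, hP, hv⟩ := ih
    refine ⟨P * (X + C ((i₀ : ℚ) - r)), ?_, fun t => ?_⟩
    · exact natDegree_mul_le.trans (Nat.add_le_add hP (natDegree_X_add_C _).le)
    · rw [eval_mul, hv, ff_succ, eval_add, eval_X, eval_C]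
      push_cast
      ring

/-- The operators whose matrix entry along a line is polynomial of degree at most `K`. -/
def linePoly (i₀ j₀ δ₀ δ₁ : ℤ) (K : ℕ) : Submodule ℚ Op where
  carrier := {f | ∃ P : ℚ[X], P.natDegree ≤ K ∧ ∀ t : ℤ,
    P.eval (t : ℚ) = f (Finsupp.single (i₀ + t, j₀) 1) (i₀ + t + δ₀, j₀ + δ₁)}
  add_mem' := fun ⟨P, hP, hP'⟩ ⟨Q, hQ, hQ'⟩ =>
    ⟨P + Q, (natDegree_add_le P Q).trans (max_le hP hQ), fun t => by simp [hP', hQ']⟩
  zero_mem' := ⟨0, by simp, fun t => by simp⟩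
  smul_mem' := fun c f ⟨P, hP, hP'⟩ =>
    ⟨c • P, (natDegree_smul_le c P).trans hP, fun t => by simp [hP']⟩

theorem mem_linePoly (hf : f ∈ F w k) (i₀ j₀ δ₀ δ₁ : ℤ) :
    f ∈ linePoly i₀ j₀ δ₀ δ₁ k.toNat := by
  refine F_le_of_mem hf _ fun ⟨p, q, r, s⟩ hm => ?_
  simp only [Idx, Set.mem_ofPred_eq] at hm
  obtain ⟨P, hP, hv⟩ := ff_eq_eval i₀ r
  by_cases hd : -(r : ℤ) + p = δ₀ ∧ -(s : ℤ) + q = δ₁
  · refine ⟨C (ff j₀ s) * P, (natDegree_C_mul_le _ _).trans (by omega), fun t => ?_⟩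
    rw [eval_mul, eval_C, hv, mono_single, Finsupp.single_apply,
      if_pos (Prod.ext (by simp only; omega) (by simp only; omega))]
    ring
  · refine ⟨0, by simp, fun t => ?_⟩
    rw [eval_zero, mono_single, Finsupp.single_apply, if_neg fun h => hd ?_]
    simp only [Prod.mk.injEq] at h
    omega

theorem eul3_inj (a : ℤ) (hf : f ∈ F w k) {K : ℤ} (hK : K ≤ 2)
    (h : f * eul' a * eul' a * eul' a ∈ F w K) : f = 0 := by
  refine Finsupp.lhom_ext fun e c => Finsupp.ext fun e' => ?_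
  obtain ⟨i₀, j₀⟩ := e
  obtain ⟨i₁, j₁⟩ := e'
  obtain ⟨Q, -, hQ⟩ := mem_linePoly hf i₀ j₀ (i₁ - i₀) (j₁ - j₀)
  obtain ⟨P, hP, hPv⟩ := mem_linePoly h i₀ j₀ (i₁ - i₀) (j₁ - j₀)
  have e : P = (X + C ((i₀ : ℚ) + j₀ - a)) ^ 3 * Q := by
    refine Polynomial.eq_of_infinite_eval_eq _ _ (Set.infinite_of_injective_forall_mem
      (f := fun n : ℕ => ((n : ℤ) : ℚ)) (fun m n h => by simpa using h) fun n => ?_)
    rw [Set.mem_ofPred_eq, hPv, eval_mul, hQ, eval_pow, eval_add, eval_X, eval_C]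
    simp only [Module.End.mul_apply, eul'_single]
    rw [show Finsupp.single (i₀ + (n : ℤ), j₀) ((((i₀ + (n : ℤ) : ℤ) : ℚ) + j₀ - a) *
      ((((i₀ + (n : ℤ) : ℤ) : ℚ) + j₀ - a) * ((((i₀ + (n : ℤ) : ℤ) : ℚ) + j₀ - a) * 1))) =
      (((i₀ + (n : ℤ) : ℤ) : ℚ) + j₀ - a) ^ 3 • Finsupp.single (i₀ + (n : ℤ), j₀) 1 by
        rw [Finsupp.smul_single, smul_eq_mul]; ring_nf, map_smul, Finsupp.smul_apply, smul_eq_mul]
    push_cast
    ring
  have hQ0 : Q = 0 := by
    by_contra hne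
    have hd : ((X + C ((i₀ : ℚ) + j₀ - a)) ^ 3 * Q).natDegree = 3 + Q.natDegree := by
      rw [natDegree_mul (pow_ne_zero _ (X_add_C_ne_zero _)) hne, natDegree_pow, natDegree_X_add_C]
    rw [e, hd] at hP
    omega
  have := hQ 0
  rw [hQ0, eval_zero] at this
  rw [show Finsupp.single (i₀, j₀) c = c • Finsupp.single (i₀, j₀) (1 : ℚ) by simp, map_smul]
  simp only [add_zero, add_sub_cancel] at this
  simp [← this]

end Vale.Agent.P195
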