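import Mathlib

/-!
# P195: `ℚ`-linear categories

`H u v` is the space of morphisms from `u` to `v`; `comp g f` is `g` after `f`.
-/

namespace Vale.Agent.P195

/-- A small `ℚ`-linear category. -/
structure LinCat (V : Type) where
  H : V → V → Type
  [grp : ∀ u v, AddCommGroup (H u v)]
  [vs : ∀ u v, Module ℚ (H u v)]
  one : ∀ u, H u u
  comp : ∀ {u v w}, H v w →ₗ[ℚ] H u v →ₗ[ℚ] H u w
  one_comp : ∀ {u v} (f : H u v), comp (one v) f = f
  comp_one : ∀ {u v} (f : H u v), comp f (one u) = f
  assoc : ∀ {u v w x} (h : H w x) (g : H v w) (f : H u v), comp (comp h g) f = comp h (comp g f)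

attribute [instance] LinCat.grp LinCat.vs

/-- A representation of a `ℚ`-linear category. -/
structure Rep {V : Type} (C : LinCat V) where
  X : V → Type
  [grp : ∀ u, AddCommGroup (X u)]
  [vs : ∀ u, Module ℚ (X u)]
  act : ∀ {u v}, C.H u v →ₗ[ℚ] X u →ₗ[ℚ] X v
  one_act : ∀ {u} (x : X u), act (C.one u) x = x
  comp_act : ∀ {u v w} (g : C.H v w) (f : C.H u v) (x : X u), act (C.comp g f) x = act g (act f x)

attribute [instance] Rep.grp Rep.vs

end Vale.Agent.P195
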