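import Vale.Agent.P195.Glue

/-!
# P195: the transposed gluing

The same shape as `GlueData`, transposed: modulo `S` a copy has homology `Y` in degree two, on `S`
in degree three, and `Ψ2` identifies the class of copy `k+1` with that of copy `k`. The total
complex then has homology `Y` in degree two, read off by `ε` on the first component, and is exact
elsewhere (surjective at the bottom).
-/

universe v

namespace Vale.Agent.P195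

variable (A : Type v) [Ring A] (P0 P1 P2 P3 Y : Type v) [AddCommGroup P0] [Module A P0]
  [AddCommGroup P1] [Module A P1] [AddCommGroup P2] [Module A P2] [AddCommGroup P3] [Module A P3]
  [AddCommGroup Y] [Module A Y]

/-- The maps of the transposed glued complex and what they satisfy. -/
structure CoGlueData where
  S0 : Submodule A P0
  S1 : Submodule A P1
  S2 : Submodule A P2
  S3 : Submodule A P3
  ε : P2 →ₗ[A] Y
  d1 : ℕ → P1 →ₗ[A] P0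
  d2 : ℕ → P2 →ₗ[A] P1
  d3 : ℕ → P3 →ₗ[A] P2
  Ψ0 : ℕ → P0 →ₗ[A] P1
  Ψ1 : ℕ → P1 →ₗ[A] P2
  Ψ2 : ℕ → P2 →ₗ[A] P3
  θ : ℕ → P3 →ₗ[A] P0
  Ψ0_range : ∀ k x, Ψ0 k x ∈ S1
  Ψ1_range : ∀ k x, Ψ1 k x ∈ S2
  Ψ2_range : ∀ k x, Ψ2 k x ∈ S3
  Ψ1_kill : ∀ k, ∀ x ∈ S1, Ψ1 k x = 0
  Ψ2_kill : ∀ k, ∀ x ∈ S2, Ψ2 k x = 0
  θ_S : ∀ k, ∀ x ∈ S3, θ k x ∈ S0
  d12_zero : ∀ x, d1 0 (d2 0 x) = 0
  d12 : ∀ k x, d1 (k + 1) (d2 (k + 1) x) + θ k (Ψ2 (k + 1) x) = 0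
  d23 : ∀ k x, d2 k (d3 k x) + Ψ0 (k + 1) (θ k x) = 0
  dΨ0 : ∀ k x, d1 k (Ψ0 (k + 1) x) = 0
  dΨ1 : ∀ k x, d2 k (Ψ1 (k + 1) x) + Ψ0 (k + 1) (d1 (k + 1) x) = 0
  dΨ2 : ∀ k x, d3 k (Ψ2 (k + 1) x) + Ψ1 (k + 1) (d2 (k + 1) x) = 0
  Ψ2_d3 : ∀ k x, Ψ2 (k + 1) (d3 (k + 1) x) = 0
  /-- homology modulo `S` -/
  mod0 : ∀ k x, ∃ u, x - d1 k u ∈ S0
  mod1 : ∀ k x, d1 k x ∈ S0 → ∃ u, x - d2 k u ∈ S1
  mod2 : ∀ k x, d2 k x ∈ S1 → ε x = 0 → ∃ u, x - d3 k u ∈ S2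
  mod3 : ∀ k x, d3 k x ∈ S2 → x ∈ S3
  ε_S : ∀ x ∈ S2, ε x = 0
  ε_d3 : ∀ k x, ε (d3 k x) = 0
  ε_surj : ∀ y, ∃ x, d2 0 x ∈ S1 ∧ ε x = y
  /-- homology on `S` -/
  sub0 : ∀ k, ∀ x ∈ S0, ∃ u ∈ S1, d1 k u = x
  sub1 : ∀ k, ∀ x ∈ S1, d1 k x = 0 → ∃ u ∈ S2, d2 k u = x
  sub2 : ∀ k, ∀ x ∈ S2, d2 k x = 0 → ∃ u ∈ S3, d3 k u = x
  sub3 : ∀ k, ∀ x ∈ S3, d3 k x = 0 → ∃ v, d2 (k + 1) v ∈ S1 ∧ x = Ψ2 (k + 1) v
  sub3_inj : ∀ k v, d2 (k + 1) v ∈ S1 → Ψ2 (k + 1) v = 0 → ε v = 0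

variable {A P0 P1 P2 P3 Y}

namespace CoGlueData

variable (G : CoGlueData A P0 P1 P2 P3 Y)

/-- Degree `2` to degree `1`. -/
def first : P2 × P0 →ₗ[A] P1 := (G.d2 0).coprod (G.Ψ0 1)

/-- Degree `2s+4` to degree `2s+3`. -/
def even (s : ℕ) : P2 × P0 →ₗ[A] P3 × P1 :=
  LinearMap.prod ((G.Ψ2 (s + 1)).comp (LinearMap.fst A P2 P0))
    ((G.d2 (s + 1)).coprod (G.Ψ0 (s + 2)))

/-- Degree `2s+3` to degree `2s+2`. -/
def odd (s : ℕ) : P3 × P1 →ₗ[A] P2 × P0 :=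
  LinearMap.prod ((G.d3 s).coprod (G.Ψ1 (s + 1))) ((G.θ s).coprod (G.d1 (s + 1)))

theorem first_apply (x : P2) (y : P0) : G.first (x, y) = G.d2 0 x + G.Ψ0 1 y := rfl

theorem even_apply (s : ℕ) (x : P2) (y : P0) :
    G.even s (x, y) = (G.Ψ2 (s + 1) x, G.d2 (s + 1) x + G.Ψ0 (s + 2) y) := rfl

theorem odd_apply (s : ℕ) (x : P3) (y : P1) :
    G.odd s (x, y) = (G.d3 s x + G.Ψ1 (s + 1) y, G.θ s x + G.d1 (s + 1) y) := rfl

theorem surj (k : ℕ) : Function.Surjective (G.d1 k) := fun x => by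
  obtain ⟨u, hu⟩ := G.mod0 k x
  obtain ⟨w, -, hw⟩ := G.sub0 k _ hu
  exact ⟨u + w, by rw [map_add, hw, add_sub_cancel]⟩

theorem exact_first : Function.Exact G.first (G.d1 0) := by
  intro y
  refine ⟨fun h => ?_, ?_⟩
  · obtain ⟨u, hu⟩ := G.mod1 0 y (by rw [h]; exact zero_mem _)
    obtain ⟨w, -, hw⟩ := G.sub1 0 _ hu (by rw [map_sub, h, G.d12_zero, sub_zero])
    exact ⟨(u + w, 0), by rw [first_apply, map_add, hw, map_zero, add_zero, add_sub_cancel]⟩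
  · rintro ⟨⟨a, b⟩, rfl⟩
    rw [first_apply, map_add, G.d12_zero, G.dΨ0, add_zero]

theorem d2_odd (s : ℕ) (u : P3 × P1) :
    G.d2 s (G.odd s u).1 + G.Ψ0 (s + 1) (G.odd s u).2 = 0 := by
  obtain ⟨a, b⟩ := u
  rw [odd_apply, map_add, map_add]
  linear_combination (norm := module) G.d23 s a + G.dΨ1 s b

theorem ε_odd (s : ℕ) (u : P3 × P1) : G.ε (G.odd s u).1 = 0 := by
  obtain ⟨a, b⟩ := u
  rw [odd_apply, map_add, G.ε_d3, G.ε_S _ (G.Ψ1_range _ _), add_zero]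

theorem exists_odd (s : ℕ) {x : P2} {y : P0} (h : G.d2 s x + G.Ψ0 (s + 1) y = 0)
    (hx : G.ε x = 0) : ∃ u, G.odd s u = (x, y) := by
  obtain ⟨a, ha⟩ := G.mod2 s x
    (by rw [eq_neg_of_add_eq_zero_left h]; exact neg_mem (G.Ψ0_range _ _)) hx
  obtain ⟨v, hv⟩ := G.mod0 (s + 1) (y - G.θ s a)
  obtain ⟨v', -, hv'⟩ := G.sub0 (s + 1) _ hv
  set b := v + v' with hb
  have hb1 : G.d1 (s + 1) b = y - G.θ s a := by rw [hb, map_add, hv', add_sub_cancel]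
  obtain ⟨w, hw, hw'⟩ := G.sub2 s (x - G.d3 s a - G.Ψ1 (s + 1) b)
    (sub_mem ha (G.Ψ1_range _ _)) (by
      have e1 := G.d23 s a
      have e2 := G.dΨ1 s b
      rw [hb1, map_sub] at e2
      rw [map_sub, map_sub]
      linear_combination (norm := module) h - e1 - e2)
  -- `θ w ∈ S0` is corrected on `S1`
  obtain ⟨b', hb', hb''⟩ := G.sub0 (s + 1) _ (G.θ_S s w hw)
  refine ⟨(a + w, b - b'), ?_⟩
  rw [odd_apply, map_add, map_add, map_sub, map_sub, G.Ψ1_kill _ b' hb', hb'', hb1, hw']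
  refine Prod.ext ?_ ?_ <;> simp only <;> abel

theorem exists_even (s : ℕ) {x : P3} {y : P1} (h₁ : G.d3 s x + G.Ψ1 (s + 1) y = 0)
    (h₂ : G.θ s x + G.d1 (s + 1) y = 0) : ∃ u, G.even s u = (x, y) := by
  have hx : x ∈ G.S3 := G.mod3 s x
    (by rw [eq_neg_of_add_eq_zero_left h₁]; exact neg_mem (G.Ψ1_range _ _))
  obtain ⟨u, hu⟩ := G.mod1 (s + 1) y
    (by rw [eq_neg_of_add_eq_zero_right h₂]; exact neg_mem (G.θ_S s x hx))
  set x' := x - G.Ψ2 (s + 1) u with hx'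
  set y' := y - G.d2 (s + 1) u with hy'
  obtain ⟨v, hv, hv'⟩ := G.sub3 s x' (sub_mem hx (G.Ψ2_range _ _)) (by
    have e := G.dΨ2 s u
    have h3 := G.Ψ1_kill (s + 1) _ hu
    rw [hy', map_sub] at h3
    rw [hx', map_sub]
    linear_combination (norm := module) h₁ - h3 - e)
  have hθ : G.θ s x' + G.d1 (s + 1) y' = 0 := by
    rw [hx', hy', map_sub, map_sub]
    linear_combination (norm := module) h₂ - G.d12 s u
  obtain ⟨w, hw, hw'⟩ := G.sub1 (s + 1) (y' - G.d2 (s + 1) v) (sub_mem hu hv) (by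
    have e := G.d12 s v
    rw [← hv'] at e
    rw [map_sub]
    linear_combination (norm := module) hθ - e)
  refine ⟨(u + v + w, 0), ?_⟩
  rw [even_apply, map_add, map_add, map_add, map_add, G.Ψ2_kill _ w hw, ← hv', hw', map_zero]
  refine Prod.ext ?_ ?_ <;> simp only [hx', hy'] <;> abel

theorem exact_even_odd (s : ℕ) : Function.Exact (G.odd (s + 1)) (G.even s) := by
  rintro ⟨x, y⟩
  refine ⟨fun h => ?_, ?_⟩
  · have h1 : G.Ψ2 (s + 1) x = 0 := (Prod.ext_iff.1 h).1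
    have h2 : G.d2 (s + 1) x + G.Ψ0 (s + 2) y = 0 := (Prod.ext_iff.1 h).2
    exact G.exists_odd (s + 1) h2 (G.sub3_inj s x
      (by rw [eq_neg_of_add_eq_zero_left h2]; exact neg_mem (G.Ψ0_range _ _)) h1)
  rintro ⟨⟨a, b⟩, hu⟩
  have h := G.d2_odd (s + 1) (a, b)
  rw [hu] at h
  rw [odd_apply] at hu
  refine Prod.ext ?_ h
  have hu₁ : G.d3 (s + 1) a + G.Ψ1 (s + 1 + 1) b = x := congrArg Prod.fst hu
  show G.Ψ2 (s + 1) x = 0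
  rw [← hu₁, map_add, G.Ψ2_kill _ _ (G.Ψ1_range _ _), G.Ψ2_d3, add_zero]

theorem exact_odd_even (s : ℕ) : Function.Exact (G.even s) (G.odd s) := by
  rintro ⟨x, y⟩
  refine ⟨fun h => G.exists_even s (Prod.ext_iff.1 h).1 (Prod.ext_iff.1 h).2, ?_⟩
  rintro ⟨⟨a, b⟩, hu⟩
  rw [← hu, even_apply, odd_apply, map_add, map_add, G.Ψ1_kill _ _ (G.Ψ0_range _ _), G.dΨ0]
  refine Prod.ext ?_ ?_
  · simpa using G.dΨ2 s a
  · show _ = (0 : P0)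
    simpa [add_comm] using G.d12 s a

/-- Degree `n+3` to degree `n+2`, counting copies from `s`. -/
def tail (s : ℕ) : ∀ n, GlueQ P0 P1 P2 P3 (n + 3) →ₗ[A] GlueQ P0 P1 P2 P3 (n + 2)
  | 0 => G.odd s
  | 1 => G.even s
  | n + 2 => tail (s + 1) n

/-- The differentials. -/
def D : ∀ n, GlueQ P0 P1 P2 P3 (n + 1) →ₗ[A] GlueQ P0 P1 P2 P3 n
  | 0 => G.d1 0
  | 1 => G.first
  | n + 2 => G.tail 0 n

theorem exact_tail : ∀ n s, Function.Exact (G.tail s (n + 1)) (G.tail s n)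
  | 0, s => G.exact_odd_even s
  | 1, s => G.exact_even_odd s
  | n + 2, s => exact_tail n (s + 1)

theorem cycle_surj (y : Y) : ∃ x, G.first x = 0 ∧ G.ε x.1 = y := by
  obtain ⟨x, hx, rfl⟩ := G.ε_surj y
  obtain ⟨w, hw, hw'⟩ := G.sub1 0 _ hx (G.d12_zero x)
  exact ⟨(x - w, 0), by rw [first_apply, map_sub, hw', sub_self, map_zero, add_zero],
    by rw [map_sub, G.ε_S w hw, sub_zero]⟩

theorem cycle_iff (x : P2 × P0) (h : G.first x = 0) :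
    G.ε x.1 = 0 ↔ x ∈ LinearMap.range (G.odd 0) := by
  refine ⟨fun he => ?_, ?_⟩
  · obtain ⟨u, hu⟩ := G.exists_odd 0 (x := x.1) (y := x.2) h he
    exact ⟨u, hu⟩
  · rintro ⟨u, rfl⟩
    exact G.ε_odd 0 u

theorem first_odd (u : P3 × P1) : G.first (G.odd 0 u) = 0 := G.d2_odd 0 u

end CoGlueData

end Vale.Agent.P195
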