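import Vale.Agent.P195.CoGlue
import Vale.Agent.P195.Free

/-!
# P195: transposing a glued cochain complex

`Kj` is an extension of `Bj` by `Wj`; `δ` are the one-copy differentials, `σ` the maps to the next
copy through `W`, `θ` the map back. If `W` has cohomology `E` in degree two (representatives
`kap`), `B` in degree three (class `L`) and `σ2` matches them, the transpose is a `CoGlueData`.
-/

noncomputable section

universe v

namespace Vale.Agent.P195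

variable (k : Type v) [Field k]
  (K0 K1 K2 K3 B0 B1 B2 B3 W0 W1 W2 W3 E : Type v)
  [AddCommGroup K0] [Module k K0] [AddCommGroup K1] [Module k K1]
  [AddCommGroup K2] [Module k K2] [AddCommGroup K3] [Module k K3]
  [AddCommGroup B0] [Module k B0] [AddCommGroup B1] [Module k B1]
  [AddCommGroup B2] [Module k B2] [AddCommGroup B3] [Module k B3]
  [AddCommGroup W0] [Module k W0] [AddCommGroup W1] [Module k W1]
  [AddCommGroup W2] [Module k W2] [AddCommGroup W3] [Module k W3]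
  [AddCommGroup E] [Module k E]

/-- The maps. The index is the copy. -/
structure CoDat where
  i0 : W0 →ₗ[k] K0
  i1 : W1 →ₗ[k] K1
  i2 : W2 →ₗ[k] K2
  i3 : W3 →ₗ[k] K3
  p0 : K0 →ₗ[k] B0
  p1 : K1 →ₗ[k] B1
  p2 : K2 →ₗ[k] B2
  p3 : K3 →ₗ[k] B3
  δ0 : ℕ → K0 →ₗ[k] K1
  δ1 : ℕ → K1 →ₗ[k] K2
  δ2 : ℕ → K2 →ₗ[k] K3
  b0 : B0 →ₗ[k] B1
  b1 : B1 →ₗ[k] B2
  b2 : B2 →ₗ[k] B3
  w0 : W0 →ₗ[k] W1
  w1 : W1 →ₗ[k] W2
  w2 : W2 →ₗ[k] W3
  σ0 : ℕ → B1 →ₗ[k] W0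
  σ1 : ℕ → B2 →ₗ[k] W1
  σ2 : ℕ → B3 →ₗ[k] W2
  θ : ℕ → K0 →ₗ[k] K3
  kap : E →ₗ[k] W2
  L : B3 →ₗ[k] E

variable {k K0 K1 K2 K3 B0 B1 B2 B3 W0 W1 W2 W3 E}

namespace CoDat

variable (D : CoDat k K0 K1 K2 K3 B0 B1 B2 B3 W0 W1 W2 W3 E)

/-- `K1 → K0` of the previous copy. -/
def s0 (j : ℕ) : K1 →ₗ[k] K0 := D.i0 ∘ₗ D.σ0 j ∘ₗ D.p1

/-- `K2 → K1` of the previous copy. -/
def s1 (j : ℕ) : K2 →ₗ[k] K1 := D.i1 ∘ₗ D.σ1 j ∘ₗ D.p2

/-- `K3 → K2` of the previous copy. -/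
def s2 (j : ℕ) : K3 →ₗ[k] K2 := D.i2 ∘ₗ D.σ2 j ∘ₗ D.p3

/-- What the maps satisfy. -/
structure Good : Prop where
  inj0 : Function.Injective D.i0
  inj1 : Function.Injective D.i1
  inj2 : Function.Injective D.i2
  inj3 : Function.Injective D.i3
  ex0 : Function.Exact D.i0 D.p0
  ex1 : Function.Exact D.i1 D.p1
  ex2 : Function.Exact D.i2 D.p2
  ex3 : Function.Exact D.i3 D.p3
  sur0 : Function.Surjective D.p0
  sur1 : Function.Surjective D.p1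
  sur2 : Function.Surjective D.p2
  sur3 : Function.Surjective D.p3
  pδ0 : ∀ j x, D.p1 (D.δ0 j x) = D.b0 (D.p0 x)
  pδ1 : ∀ j x, D.p2 (D.δ1 j x) = D.b1 (D.p1 x)
  pδ2 : ∀ j x, D.p3 (D.δ2 j x) = D.b2 (D.p2 x)
  δi0 : ∀ j x, D.δ0 j (D.i0 x) = D.i1 (D.w0 x)
  δi1 : ∀ j x, D.δ1 j (D.i1 x) = D.i2 (D.w1 x)
  δi2 : ∀ j x, D.δ2 j (D.i2 x) = D.i3 (D.w2 x)
  θW : ∀ j x, D.p3 (D.θ j (D.i0 x)) = 0
  sq_zero : ∀ x, D.δ1 0 (D.δ0 0 x) = 0
  sq : ∀ j x, D.δ1 (j + 1) (D.δ0 (j + 1) x) + D.s2 (j + 1) (D.θ j x) = 0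
  sq' : ∀ j x, D.δ2 j (D.δ1 j x) + D.θ j (D.s0 (j + 1) x) = 0
  sδ0 : ∀ j x, D.s0 (j + 1) (D.δ0 j x) = 0
  sδ1 : ∀ j x, D.s1 (j + 1) (D.δ1 j x) + D.δ0 (j + 1) (D.s0 (j + 1) x) = 0
  sδ2 : ∀ j x, D.s2 (j + 1) (D.δ2 j x) + D.δ1 (j + 1) (D.s1 (j + 1) x) = 0
  δs2 : ∀ j x, D.δ2 (j + 1) (D.s2 (j + 1) x) = 0
  W_inj : Function.Injective D.w0
  W_one : Function.Exact D.w0 D.w1
  W_surj : Function.Surjective D.w2
  W_kap : ∀ ξ, D.w2 (D.kap ξ) = 0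
  W_gen : ∀ x, D.w2 x = 0 → ∃ a ξ, x = D.w1 a + D.kap ξ
  W_kap_inj : ∀ a ξ, D.w1 a = D.kap ξ → ξ = 0
  B_inj : Function.Injective D.b0
  B_one : Function.Exact D.b0 D.b1
  B_two : Function.Exact D.b1 D.b2
  B_three : Function.Exact D.b2 D.L
  B_surj : Function.Surjective D.L
  link : ∀ j f, ∃ a, D.σ2 (j + 1) f = D.w1 a + D.kap (D.L f)

variable {D}

/-- A functional killing `i` factors through `p`, and conversely. -/
theorem factor {K B W : Type v} [AddCommGroup K] [Module k K] [AddCommGroup B] [Module k B]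
    [AddCommGroup W] [Module k W] {i : W →ₗ[k] K} {p : K →ₗ[k] B} (h : Function.Exact i p)
    {φ : Module.Dual k K} (hφ : φ.comp i = 0) : ∃ χ : Module.Dual k B, χ.comp p = φ :=
  dual_exists_of_exact h φ hφ

theorem ext_of_inj {K W : Type v} [AddCommGroup K] [Module k K] [AddCommGroup W] [Module k W]
    {i : W →ₗ[k] K} (h : Function.Injective i) (ψ : Module.Dual k W) :
    ∃ φ : Module.Dual k K, φ.comp i = ψ :=
  LinearMap.dualMap_surjective_of_injective h ψ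

/-- The transpose. -/
def Good.coGlue (h : D.Good) :
    CoGlueData k (Module.Dual k K0) (Module.Dual k K1) (Module.Dual k K2) (Module.Dual k K3)
      (Module.Dual k E) where
  S0 := LinearMap.ker D.i0.dualMap
  S1 := LinearMap.ker D.i1.dualMap
  S2 := LinearMap.ker D.i2.dualMap
  S3 := LinearMap.ker D.i3.dualMap
  ε := (D.i2 ∘ₗ D.kap).dualMap
  d1 j := (D.δ0 j).dualMap
  d2 j := (D.δ1 j).dualMap
  d3 j := (D.δ2 j).dualMap
  Ψ0 j := (D.s0 j).dualMap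
  Ψ1 j := (D.s1 j).dualMap
  Ψ2 j := (D.s2 j).dualMap
  θ j := (D.θ j).dualMap
  Ψ0_range j φ := LinearMap.ext fun x => by
    show φ (D.i0 (D.σ0 j (D.p1 (D.i1 x)))) = 0
    simp [h.ex1.apply_apply_eq_zero]
  Ψ1_range j φ := LinearMap.ext fun x => by
    show φ (D.i1 (D.σ1 j (D.p2 (D.i2 x)))) = 0
    simp [h.ex2.apply_apply_eq_zero]
  Ψ2_range j φ := LinearMap.ext fun x => by
    show φ (D.i2 (D.σ2 j (D.p3 (D.i3 x)))) = 0
    simp [h.ex3.apply_apply_eq_zero]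
  Ψ1_kill j φ hφ := LinearMap.ext fun x => LinearMap.congr_fun hφ (D.σ1 j (D.p2 x))
  Ψ2_kill j φ hφ := LinearMap.ext fun x => LinearMap.congr_fun hφ (D.σ2 j (D.p3 x))
  θ_S j φ hφ := LinearMap.ext fun x => by
    show φ (D.θ j (D.i0 x)) = 0
    obtain ⟨y, hy⟩ := (h.ex3 _).1 (h.θW j x)
    rw [← hy]
    exact LinearMap.congr_fun hφ y
  d12_zero φ := LinearMap.ext fun x => by
    show φ (D.δ1 0 (D.δ0 0 x)) = 0
    rw [h.sq_zero, map_zero]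
  d12 j φ := LinearMap.ext fun x => by
    show φ _ + φ _ = 0
    rw [← map_add, h.sq, map_zero]
  d23 j φ := LinearMap.ext fun x => by
    show φ _ + φ _ = 0
    rw [← map_add, h.sq', map_zero]
  dΨ0 j φ := LinearMap.ext fun x => by
    show φ (D.s0 (j + 1) (D.δ0 j x)) = 0
    rw [h.sδ0, map_zero]
  dΨ1 j φ := LinearMap.ext fun x => by
    show φ _ + φ _ = 0
    rw [← map_add, h.sδ1, map_zero]
  dΨ2 j φ := LinearMap.ext fun x => by
    show φ _ + φ _ = 0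
    rw [← map_add, h.sδ2, map_zero]
  Ψ2_d3 j φ := LinearMap.ext fun x => by
    show φ (D.δ2 (j + 1) (D.s2 (j + 1) x)) = 0
    rw [h.δs2, map_zero]
  mod0 j φ := by
    obtain ⟨ψ, hψ⟩ := ext_of_inj h.W_inj (φ.comp D.i0)
    obtain ⟨χ, hχ⟩ := ext_of_inj h.inj1 ψ
    refine ⟨χ, LinearMap.ext fun x => ?_⟩
    show φ (D.i0 x) - χ (D.δ0 j (D.i0 x)) = 0
    have e1 : ψ (D.w0 x) = φ (D.i0 x) := LinearMap.congr_fun hψ x
    have e2 : χ (D.i1 (D.w0 x)) = ψ (D.w0 x) := LinearMap.congr_fun hχ _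
    rw [h.δi0, e2, e1, sub_self]
  mod1 j φ hφ := by
    obtain ⟨ψ, hψ⟩ := dual_exists_of_exact h.W_one (φ.comp D.i1) (LinearMap.ext fun x => by
      have e : φ (D.δ0 j (D.i0 x)) = 0 := LinearMap.congr_fun hφ x
      rwa [h.δi0] at e)
    obtain ⟨χ, hχ⟩ := ext_of_inj h.inj2 ψ
    refine ⟨χ, LinearMap.ext fun x => ?_⟩
    show φ (D.i1 x) - χ (D.δ1 j (D.i1 x)) = 0
    have e1 : ψ (D.w1 x) = φ (D.i1 x) := LinearMap.congr_fun hψ x
    have e2 : χ (D.i2 (D.w1 x)) = ψ (D.w1 x) := LinearMap.congr_fun hχ _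
    rw [h.δi1, e2, e1, sub_self]
  mod2 j φ hφ hε := by
    have hw : Function.Exact (LinearMap.coprod D.w1 D.kap) D.w2 := fun x => by
      refine ⟨fun hx => ?_, ?_⟩
      · obtain ⟨a, ξ, e⟩ := h.W_gen x hx
        exact ⟨(a, ξ), e.symm⟩
      · rintro ⟨⟨a, ξ⟩, rfl⟩
        obtain ⟨z, hz⟩ := h.sur1 0
        rw [LinearMap.coprod_apply, map_add, h.W_kap, add_zero]
        apply h.inj3
        rw [map_zero, ← h.δi2 0, ← h.δi1 0]
        have e := h.sq' 0 (D.i1 a)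
        have e0 : D.s0 1 (D.i1 a) = 0 := by
          show D.i0 (D.σ0 1 (D.p1 (D.i1 a))) = 0
          simp [h.ex1.apply_apply_eq_zero]
        rwa [e0, map_zero, add_zero] at e
    obtain ⟨ψ, hψ⟩ := dual_exists_of_exact hw (φ.comp D.i2) (LinearMap.ext fun x => by
      obtain ⟨a, ξ⟩ := x
      have e1 : φ (D.δ1 j (D.i1 a)) = 0 := LinearMap.congr_fun hφ a
      have e2 : φ (D.i2 (D.kap ξ)) = 0 := LinearMap.congr_fun hε ξ
      show φ (D.i2 (D.w1 a + D.kap ξ)) = 0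
      rw [map_add, map_add, ← h.δi1 j, e1, e2, add_zero])
    obtain ⟨χ, hχ⟩ := ext_of_inj h.inj3 ψ
    refine ⟨χ, LinearMap.ext fun x => ?_⟩
    show φ (D.i2 x) - χ (D.δ2 j (D.i2 x)) = 0
    have e1 : ψ (D.w2 x) = φ (D.i2 x) := LinearMap.congr_fun hψ x
    have e2 : χ (D.i3 (D.w2 x)) = ψ (D.w2 x) := LinearMap.congr_fun hχ _
    rw [h.δi2, e2, e1, sub_self]
  mod3 j φ hφ := LinearMap.ext fun x => by
    obtain ⟨y, rfl⟩ := h.W_surj x
    have e : φ (D.δ2 j (D.i2 y)) = 0 := LinearMap.congr_fun hφ y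
    rwa [h.δi2] at e
  ε_S φ hφ := LinearMap.ext fun ξ => LinearMap.congr_fun hφ (D.kap ξ)
  ε_d3 j φ := LinearMap.ext fun ξ => by
    show φ (D.δ2 j (D.i2 (D.kap ξ))) = 0
    rw [h.δi2, h.W_kap, map_zero, map_zero]
  ε_surj ξ := by
    obtain ⟨ψ, hψ, hψ'⟩ := (dual_homology h.W_kap h.W_gen h.W_kap_inj).1 ξ
    obtain ⟨φ, hφ⟩ := ext_of_inj h.inj2 ψ
    refine ⟨φ, LinearMap.ext fun x => ?_, LinearMap.ext fun x => ?_⟩
    · show φ (D.δ1 0 (D.i1 x)) = 0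
      rw [h.δi1]
      exact (LinearMap.congr_fun hφ _).trans (LinearMap.congr_fun hψ x)
    · exact (LinearMap.congr_fun hφ _).trans (LinearMap.congr_fun hψ' x)
  sub0 j φ hφ := by
    obtain ⟨χ, rfl⟩ := factor h.ex0 hφ
    obtain ⟨ψ, hψ⟩ := ext_of_inj h.B_inj χ
    refine ⟨ψ.comp D.p1, LinearMap.ext fun x => ?_, LinearMap.ext fun x => ?_⟩
    · show ψ (D.p1 (D.i1 x)) = 0
      rw [h.ex1.apply_apply_eq_zero, map_zero]
    · show ψ (D.p1 (D.δ0 j x)) = χ (D.p0 x)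
      rw [h.pδ0]
      exact LinearMap.congr_fun hψ _
  sub1 j φ hφ hd := by
    obtain ⟨χ, rfl⟩ := factor h.ex1 hφ
    obtain ⟨ψ, hψ⟩ := dual_exists_of_exact h.B_one χ (LinearMap.ext fun b => by
      obtain ⟨x, rfl⟩ := h.sur0 b
      have e : χ (D.p1 (D.δ0 j x)) = 0 := LinearMap.congr_fun hd x
      rwa [h.pδ0] at e)
    refine ⟨ψ.comp D.p2, LinearMap.ext fun x => ?_, LinearMap.ext fun x => ?_⟩
    · show ψ (D.p2 (D.i2 x)) = 0
      rw [h.ex2.apply_apply_eq_zero, map_zero]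
    · show ψ (D.p2 (D.δ1 j x)) = χ (D.p1 x)
      rw [h.pδ1]
      exact LinearMap.congr_fun hψ _
  sub2 j φ hφ hd := by
    obtain ⟨χ, rfl⟩ := factor h.ex2 hφ
    obtain ⟨ψ, hψ⟩ := dual_exists_of_exact h.B_two χ (LinearMap.ext fun b => by
      obtain ⟨x, rfl⟩ := h.sur1 b
      have e : χ (D.p2 (D.δ1 j x)) = 0 := LinearMap.congr_fun hd x
      rwa [h.pδ1] at e)
    refine ⟨ψ.comp D.p3, LinearMap.ext fun x => ?_, LinearMap.ext fun x => ?_⟩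
    · show ψ (D.p3 (D.i3 x)) = 0
      rw [h.ex3.apply_apply_eq_zero, map_zero]
    · show ψ (D.p3 (D.δ2 j x)) = χ (D.p2 x)
      rw [h.pδ2]
      exact LinearMap.congr_fun hψ _
  sub3 j φ hφ hd := by
    obtain ⟨χ, rfl⟩ := factor h.ex3 hφ
    obtain ⟨ξ, hξ⟩ := dual_exists_of_exact h.B_three χ (LinearMap.ext fun b => by
      obtain ⟨x, rfl⟩ := h.sur2 b
      have e : χ (D.p3 (D.δ2 j x)) = 0 := LinearMap.congr_fun hd x
      rwa [h.pδ2] at e)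
    obtain ⟨ψ, hψ, hψ'⟩ := (dual_homology h.W_kap h.W_gen h.W_kap_inj).1 ξ
    obtain ⟨v, hv⟩ := ext_of_inj h.inj2 ψ
    refine ⟨v, LinearMap.ext fun x => ?_, LinearMap.ext fun x => ?_⟩
    · show v (D.δ1 (j + 1) (D.i1 x)) = 0
      rw [h.δi1]
      exact (LinearMap.congr_fun hv _).trans (LinearMap.congr_fun hψ x)
    · show χ (D.p3 x) = v (D.i2 (D.σ2 (j + 1) (D.p3 x)))
      obtain ⟨a, ha⟩ := h.link j (D.p3 x)
      have e1 : ψ (D.w1 a) = 0 := LinearMap.congr_fun hψ a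
      have e2 : ψ (D.kap (D.L (D.p3 x))) = ξ (D.L (D.p3 x)) := LinearMap.congr_fun hψ' _
      rw [show v (D.i2 (D.σ2 (j + 1) (D.p3 x))) = ψ (D.σ2 (j + 1) (D.p3 x)) from
        LinearMap.congr_fun hv _, ha, map_add, e1, zero_add, e2]
      exact (LinearMap.congr_fun hξ _).symm
  sub3_inj j v hv hs := LinearMap.ext fun ξ => by
    obtain ⟨f, rfl⟩ := h.B_surj ξ
    obtain ⟨x, rfl⟩ := h.sur3 f
    obtain ⟨a, ha⟩ := h.link j (D.p3 x)
    have e1 : v (D.i2 (D.σ2 (j + 1) (D.p3 x))) = 0 := LinearMap.congr_fun hs x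
    have e2 : v (D.δ1 (j + 1) (D.i1 a)) = 0 := LinearMap.congr_fun hv a
    rw [h.δi1] at e2
    rw [ha, map_add, map_add, e2, zero_add] at e1
    exact e1

end CoDat

end Vale.Agent.P195
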