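import Mathlib

/-!
# P195: homology of a cokernel complex

`C → C' → S → 0` with `ρ j : C j → C' j` injective, both `C` and `C'` resolving their degree zero
homology `Y`, `Y'`. Then `S` has homology `coker ρY` in degree zero, `ker ρY` in degree one and
nothing above: `CokerData.surj₀`, `surj₁`, `class₁`, `exact₂`, `inj₃`.
-/

namespace Vale.Agent.P195

variable (R : Type*) [Ring R] (C0 C1 C2 C3 Y C0' C1' C2' C3' Y' S0 S1 S2 S3 : Type*)
  [AddCommGroup C0] [Module R C0] [AddCommGroup C1] [Module R C1] [AddCommGroup C2] [Module R C2]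
  [AddCommGroup C3] [Module R C3] [AddCommGroup Y] [Module R Y]
  [AddCommGroup C0'] [Module R C0'] [AddCommGroup C1'] [Module R C1'] [AddCommGroup C2']
  [Module R C2'] [AddCommGroup C3'] [Module R C3'] [AddCommGroup Y'] [Module R Y']
  [AddCommGroup S0] [Module R S0] [AddCommGroup S1] [Module R S1] [AddCommGroup S2] [Module R S2]
  [AddCommGroup S3] [Module R S3]

/-- The maps and what they satisfy. -/
structure CokerData where
  d1 : C1 →ₗ[R] C0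
  d2 : C2 →ₗ[R] C1
  d3 : C3 →ₗ[R] C2
  ε : C0 →ₗ[R] Y
  d1' : C1' →ₗ[R] C0'
  d2' : C2' →ₗ[R] C1'
  d3' : C3' →ₗ[R] C2'
  ε' : C0' →ₗ[R] Y'
  e1 : S1 →ₗ[R] S0
  e2 : S2 →ₗ[R] S1
  e3 : S3 →ₗ[R] S2
  ρ0 : C0 →ₗ[R] C0'
  ρ1 : C1 →ₗ[R] C1'
  ρ2 : C2 →ₗ[R] C2'
  ρ3 : C3 →ₗ[R] C3'
  ρY : Y →ₗ[R] Y'
  π0 : C0' →ₗ[R] S0
  π1 : C1' →ₗ[R] S1
  π2 : C2' →ₗ[R] S2
  π3 : C3' →ₗ[R] S3
  exact_ε : Function.Exact d1 ε
  exact1 : Function.Exact d2 d1
  exact2 : Function.Exact d3 d2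
  surj_ε : Function.Surjective ε
  exact_ε' : Function.Exact d1' ε'
  exact1' : Function.Exact d2' d1'
  exact2' : Function.Exact d3' d2'
  inj3' : Function.Injective d3'
  surj_ε' : Function.Surjective ε'
  sq0 : ∀ x, ε' (ρ0 x) = ρY (ε x)
  sq1 : ∀ x, d1' (ρ1 x) = ρ0 (d1 x)
  sq2 : ∀ x, d2' (ρ2 x) = ρ1 (d2 x)
  sq3 : ∀ x, d3' (ρ3 x) = ρ2 (d3 x)
  inj0 : Function.Injective ρ0
  inj1 : Function.Injective ρ1
  sq1' : ∀ x, e1 (π1 x) = π0 (d1' x)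
  sq2' : ∀ x, e2 (π2 x) = π1 (d2' x)
  sq3' : ∀ x, e3 (π3 x) = π2 (d3' x)
  coker0 : Function.Exact ρ0 π0
  coker1 : Function.Exact ρ1 π1
  coker2 : Function.Exact ρ2 π2
  coker3 : Function.Exact ρ3 π3
  onto0 : Function.Surjective π0
  onto1 : Function.Surjective π1
  onto2 : Function.Surjective π2
  onto3 : Function.Surjective π3

variable {R C0 C1 C2 C3 Y C0' C1' C2' C3' Y' S0 S1 S2 S3}

namespace CokerData

variable (K : CokerData R C0 C1 C2 C3 Y C0' C1' C2' C3' Y' S0 S1 S2 S3)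

/-- If `ρY` is onto, nothing is left in degree zero. -/
theorem surj₀ (h : Function.Surjective K.ρY) : Function.Surjective K.e1 := by
  intro s
  obtain ⟨x, rfl⟩ := K.onto0 s
  obtain ⟨y, hy⟩ := h (K.ε' x)
  obtain ⟨c, rfl⟩ := K.surj_ε y
  obtain ⟨u, hu⟩ := (K.exact_ε' (x - K.ρ0 c)).1 (by rw [map_sub, K.sq0, hy, sub_self])
  exact ⟨K.π1 u, by rw [K.sq1', hu, map_sub, K.coker0.apply_apply_eq_zero, sub_zero]⟩

/-- Every class of `ker ρY` is the class of a cycle in degree one. -/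
theorem surj₁ {y : Y} (hy : K.ρY y = 0) :
    ∃ x c, K.ε c = y ∧ K.d1' x = K.ρ0 c ∧ K.e1 (K.π1 x) = 0 := by
  obtain ⟨c, rfl⟩ := K.surj_ε y
  obtain ⟨x, hx⟩ := (K.exact_ε' (K.ρ0 c)).1 (by rw [K.sq0, hy])
  exact ⟨x, c, rfl, hx, by rw [K.sq1', hx, K.coker0.apply_apply_eq_zero]⟩

/-- A cycle in degree one is given by some `x`, `c`, and its class `ε c` lies in `ker ρY`. -/
theorem exists_class {s : S1} (hs : K.e1 s = 0) :
    ∃ x c, K.π1 x = s ∧ K.d1' x = K.ρ0 c ∧ K.ρY (K.ε c) = 0 := by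
  obtain ⟨x, rfl⟩ := K.onto1 s
  rw [K.sq1'] at hs
  obtain ⟨c, hc⟩ := (K.coker0 _).1 hs
  exact ⟨x, c, rfl, hc.symm, by rw [← K.sq0, hc, K.exact_ε'.apply_apply_eq_zero]⟩

/-- The class vanishes exactly on boundaries. -/
theorem class₁ {x : C1'} {c : C0} (h : K.d1' x = K.ρ0 c) :
    (∃ u, K.e2 u = K.π1 x) ↔ K.ε c = 0 := by
  constructor
  · rintro ⟨u, hu⟩
    obtain ⟨v, rfl⟩ := K.onto2 u
    rw [K.sq2'] at hu
    obtain ⟨w, hw⟩ := (K.coker1 (x - K.d2' v)).1 (by rw [map_sub, hu, sub_self])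
    have : K.d1 w = c := K.inj0 (by rw [← K.sq1, hw, map_sub, K.exact1'.apply_apply_eq_zero,
      sub_zero, h])
    rw [← this, K.exact_ε.apply_apply_eq_zero]
  · intro hc
    obtain ⟨w, rfl⟩ := (K.exact_ε c).1 hc
    obtain ⟨v, hv⟩ := (K.exact1' (x - K.ρ1 w)).1 (by rw [map_sub, h, K.sq1, sub_self])
    exact ⟨K.π2 v, by rw [K.sq2', hv, map_sub, K.coker1.apply_apply_eq_zero, sub_zero]⟩

/-- No homology in degree two. -/
theorem exact₂ : Function.Exact K.e3 K.e2 := by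
  intro s
  constructor
  · intro hs
    obtain ⟨x, rfl⟩ := K.onto2 s
    rw [K.sq2'] at hs
    obtain ⟨c, hc⟩ := (K.coker1 _).1 hs
    have hc0 : K.d1 c = 0 := K.inj0 (by
      rw [← K.sq1, hc, K.exact1'.apply_apply_eq_zero, map_zero])
    obtain ⟨w, rfl⟩ := (K.exact1 c).1 hc0
    obtain ⟨v, hv⟩ := (K.exact2' (x - K.ρ2 w)).1 (by rw [map_sub, K.sq2, hc, sub_self])
    exact ⟨K.π3 v, by rw [K.sq3', hv, map_sub, K.coker2.apply_apply_eq_zero, sub_zero]⟩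
  · rintro ⟨u, rfl⟩
    obtain ⟨v, rfl⟩ := K.onto3 u
    rw [K.sq3', K.sq2', K.exact2'.apply_apply_eq_zero, map_zero]

/-- No homology in degree three. -/
theorem inj₃ : Function.Injective K.e3 := by
  refine (injective_iff_map_eq_zero _).2 fun s hs => ?_
  obtain ⟨x, rfl⟩ := K.onto3 s
  rw [K.sq3'] at hs
  obtain ⟨c, hc⟩ := (K.coker2 _).1 hs
  have hc0 : K.d2 c = 0 := K.inj1 (by
    rw [← K.sq2, hc, K.exact2'.apply_apply_eq_zero, map_zero])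
  obtain ⟨w, rfl⟩ := (K.exact2 c).1 hc0
  rw [← K.inj3' (show K.d3' (K.ρ3 w) = K.d3' x by rw [K.sq3, hc])]
  exact K.coker3.apply_apply_eq_zero w

end CokerData

end Vale.Agent.P195
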