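import Vale.Agent.P195.Omega
import Vale.Agent.P195.Cat

/-!
# P195: the algebra as a linear category, and the modules `Y n`

`H u v = B u v × W u v` is the square-zero extension along the cocycle. `ph (a,b) = (a+1,b)` acts on
it by the shift `E' ↦ E' - 1`. `catA0` is `H` on the six vertices `emb i`, and
`catA i j = H i j × Dual (H j (ph i))`, with duals multiplying to zero.
`Y n (a,b)` has the inverse monomials `x^i y^j`, `i, j < 0`, `i + j = n + a`.
-/

noncomputable section

namespace Vale.Agent.P195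

open Polynomial

/-- Morphisms. -/
abbrev H (u v : Vtx) : Type := B u v × W u v

variable {u v x y : Vtx}

theorem mulB_add_left (g g' : B v x) (f : B u v) : mulB (g + g') f = mulB g f + mulB g' f :=
  Subtype.ext (add_mul _ _ _)

theorem mulB_add_right (g : B v x) (f f' : B u v) : mulB g (f + f') = mulB g f + mulB g f' :=
  Subtype.ext (mul_add _ _ _)

theorem mulB_smul_left (r : ℚ) (g : B v x) (f : B u v) : mulB (r • g) f = r • mulB g f :=
  Subtype.ext (smul_mul_assoc _ _ _)

theorem mulB_smul_right (r : ℚ) (g : B v x) (f : B u v) : mulB g (r • f) = r • mulB g f :=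
  Subtype.ext (mul_smul_comm _ _ _)

/-- Multiplication of operators, bilinearly. -/
def mulBL : B v x →ₗ[ℚ] B u v →ₗ[ℚ] B u x :=
  LinearMap.mk₂ ℚ mulB mulB_add_left mulB_smul_left mulB_add_right mulB_smul_right

/-- Composition. -/
def hcomp : H v x →ₗ[ℚ] H u v →ₗ[ℚ] H u x :=
  (mulBL.compl₁₂ (LinearMap.fst ℚ _ _) (LinearMap.fst ℚ _ _)).compr₂ (LinearMap.inl ℚ _ _) +
    (lmul.compl₁₂ (LinearMap.fst ℚ _ _) (LinearMap.snd ℚ _ _)).compr₂ (LinearMap.inr ℚ _ _) +
    ((rmul.flip).compl₁₂ (LinearMap.snd ℚ _ _) (LinearMap.fst ℚ _ _)).compr₂ (LinearMap.inr ℚ _ _) +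
    (cocy.compl₁₂ (LinearMap.fst ℚ _ _) (LinearMap.fst ℚ _ _)).compr₂ (LinearMap.inr ℚ _ _)

theorem hcomp_apply (g : H v x) (f : H u v) :
    hcomp g f = (mulB g.1 f.1, lmul g.1 f.2 + rmul f.1 g.2 + cocy g.1 f.1) := by
  refine Prod.ext ?_ ?_ <;> simp [hcomp, mulBL]

/-- The identity. -/
def hone (v : Vtx) : H v v := (oneB v, 0)

theorem sg_oneB (v : Vtx) : sg (oneB v) = 1 := by
  simp [sg, oneB, od, sym_one]

theorem hone_comp (f : H u v) : hcomp (hone v) f = f := by
  have e : omegaPoly (oneB v) f.1 = if v.2 = 0 then (sg f.1).divX else 0 := by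
    simp [omegaPoly, sg_oneB, divX_one]
  simp only [hcomp_apply, cocy_apply, hone, e]
  refine Prod.ext (Subtype.ext (one_mul _)) ?_
  simp only [lmul_one, map_zero, add_zero]
  by_cases h : u.2 = 0 ∧ 0 < v.2
  · simp [if_neg (show ¬v.2 = 0 by omega)]
  · simp [if_neg h]

theorem comp_hone (f : H u v) : hcomp f (hone u) = f := by
  rw [hcomp_apply, cocy_apply]
  refine Prod.ext (Subtype.ext (mul_one _)) ?_
  simp only [hone, rmul_one, map_zero, zero_add]
  by_cases h : u.2 = 0 ∧ 0 < v.2
  · simp [omegaPoly, sg_oneB, if_pos h.1, divX_one]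
  · simp [if_neg h]

theorem hcomp_assoc (h : H x y) (g : H v x) (f : H u v) (hu0 : 0 ≤ u.2) (hux : -1 ≤ wt u x)
    (hvy : -1 ≤ wt v y) : hcomp (hcomp h g) f = hcomp h (hcomp g f) := by
  simp only [hcomp_apply]
  refine Prod.ext (Subtype.ext (mul_assoc _ _ _)) ?_
  have e := cocy_cocycle h.1 g.1 f.1 hu0 hux hvy
  simp only [map_add, lmul_rmul]
  rw [show lmul (mulB h.1 g.1) f.2 = lmul h.1 (lmul g.1 f.2) from lmul_lmul _ _ _,
    show rmul (mulB g.1 f.1) h.2 = rmul f.1 (rmul g.1 h.2) from rmul_rmul _ _ _]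
  linear_combination (norm := abel) e

/-! ### The shift -/

/-- The shift of vertices. -/
abbrev ph (u : Vtx) : Vtx := (u.1 + 1, u.2)

theorem wt_ph (u v : Vtx) : wt (ph u) (ph v) = wt u v := by simp only [wt, ph]; ring

theorem F_ph (k : ℤ) : F (wt (ph u) (ph v)) k = F (wt u v) k := by rw [wt_ph]

/-- The shift on operators. -/
def phB : B u v →ₗ[ℚ] B (ph u) (ph v) where
  toFun f := ⟨f.1, (F_ph _).ge f.2⟩
  map_add' _ _ := rfl
  map_smul' _ _ := rfl

/-- The shift on triples. -/
def phTri : Tri u v →ₗ[ℚ] Tri (ph u) (ph v) where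
  toFun c i := ⟨![(c 0).1, (c 1).1 - (c 0).1, (c 2).1 - (2 : ℚ) • (c 1).1 + (c 0).1] i, by
    fin_cases i
    · exact (F_ph _).ge (c 0).2
    · exact (F_ph _).ge (sub_mem (c 1).2 (c 0).2)
    · exact (F_ph _).ge (add_mem (sub_mem (c 2).2 (Submodule.smul_mem _ _ (c 1).2)) (c 0).2)⟩
  map_add' c c' := by
    ext i : 2
    fin_cases i <;> simp <;> abel
  map_smul' r c := by
    ext i : 2
    fin_cases i <;> simp [smul_sub, smul_add, smul_comm r (2 : ℚ)]

theorem phTri_rel : LinearMap.range (rel u v) ≤ (LinearMap.range (rel (ph u) (ph v))).comap phTri := by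
  rintro _ ⟨q, rfl⟩
  have he : eul' (ph u).1 = eul' u.1 - 1 := by
    simp [eul', ph, add_smul, sub_sub]
  refine ⟨fun j => ⟨![(q 0).1, (q 1).1 - (q 0).1, (q 2).1 - (2 : ℚ) • (q 1).1 + (q 0).1,
    (q 3).1 - (3 : ℚ) • (q 2).1 + (3 : ℚ) • (q 1).1 - (q 0).1] j, ?_⟩,
    funext fun i => Subtype.ext ?_⟩
  · have h := fun l => (F_ph (u := u) (v := v) (od u v)).ge (q l).2
    fin_cases j
    · exact h 0
    · exact sub_mem (h 1) (h 0)
    · exact add_mem (sub_mem (h 2) (Submodule.smul_mem _ _ (h 1))) (h 0)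
    · exact sub_mem (add_mem (sub_mem (h 3) (Submodule.smul_mem _ _ (h 2)))
        (Submodule.smul_mem _ _ (h 1))) (h 0)
  · fin_cases i <;>
      simp [rel, phTri, he, mul_sub, sub_mul, add_mul, smul_sub, smul_mul_assoc,
        show (3 : ℚ) = 2 + 1 by norm_num, add_smul, two_smul] <;> abel

/-- The shift on the bimodule. -/
def phW : W u v →ₗ[ℚ] W (ph u) (ph v) := Submodule.mapQ _ _ phTri phTri_rel

/-- The shift. -/
def phH : H u v →ₗ[ℚ] H (ph u) (ph v) := (phB (u := u) (v := v)).prodMap phW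

theorem phW_cls (c : Tri u v) : phW (cls u v c) = cls (ph u) (ph v) (phTri c) := rfl

theorem phW_lmul (g : B v x) (z : W u v) : phW (lmul g z) = lmul (phB g) (phW z) := by
  induction z using W_induction with
  | h c =>
    simp only [lmul_cls, phW_cls]
    congr 1
    ext i : 2
    fin_cases i <;> simp [lmulTri, phTri, phB, mul_sub, mul_add]

theorem phW_rmul (f : B u v) (z : W v x) : phW (rmul f z) = rmul (phB f) (phW z) := by
  induction z using W_induction with
  | h c =>
    simp only [rmul_cls, phW_cls]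
    congr 1
    ext i : 2
    fin_cases i <;> simp [rmulTri, phTri, phB, sub_mul, add_mul]

theorem phW_first {P : Op} (h : P ∈ F (wt u v) (od u v - 1)) :
    phW (first ⟨P, F_le (by omega) h⟩) =
      first (⟨P, F_le (by simp only [od]; omega) ((F_ph (u := u) (v := v) _).ge h)⟩ :
        F (wt (ph u) (ph v)) (od (ph u) (ph v) + 1)) := by
  rw [first, first, LinearMap.comp_apply, LinearMap.comp_apply, phW_cls, ← sub_eq_zero, ← map_sub]
  have h0 : P ∈ F (wt (ph u) (ph v)) (od u v - 1) := (F_ph _).ge h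
  have h1 := mul_mem_F h0 (eul'_mem (ph u).1)
  simp only [zero_add] at h1
  refine cls_eq_zero (q := ![0, 0, ⟨P, F_le (by simp only [od]; omega) h0⟩,
    ⟨P * eul' (ph u).1 - P, sub_mem (F_le (by simp only [od]; omega) h1)
      (F_le (by simp only [od]; omega) h0)⟩]) fun i => ?_
  fin_cases i <;> simp [phTri]

theorem phW_iota (p : ℚ[X]) : phW (iota u v p) = iota (ph u) (ph v) p := by
  rw [iota_eq, iota_eq, phW_first (lift_mem _ _ p)]
  congr 1
  exact Subtype.ext (congrArg (fun w => lift w (od u v - 1) p) (wt_ph u v)).symm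

theorem phH_comp (g : H v x) (f : H u v) : phH (hcomp g f) = hcomp (phH g) (phH f) := by
  simp only [hcomp_apply, phH, LinearMap.prodMap_apply, map_add, phW_lmul, phW_rmul]
  refine Prod.ext rfl ?_
  congr 1
  rw [cocy_apply, cocy_apply]
  split
  · rw [map_neg, phW_iota]
    rfl
  · simp
    rfl

theorem phH_hone (u : Vtx) : phH (hone u) = hone (ph u) := by
  simp [phH, hone, phB, oneB]

/-! ### The two categories -/

/-- The six vertices. -/
abbrev V : Type := Fin 2 × Fin 3

/-- Their coordinates. -/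
abbrev emb (i : V) : Vtx := ((i.1.val : ℤ), (i.2.val : ℤ))

/-- The square-zero extension on the six vertices. -/
def catA0 : LinCat V where
  H i j := H (emb i) (emb j)
  one i := hone (emb i)
  comp := hcomp
  one_comp f := hone_comp f
  comp_one f := comp_hone f
  assoc {i j k l} h g f := hcomp_assoc h g f (by simp)
    (by have := i.1.isLt; have := k.1.isLt; simp only [wt, emb]; omega)
    (by have := j.1.isLt; have := l.1.isLt; simp only [wt, emb]; omega)

/-- The dual part. -/
abbrev HD (i j : V) : Type := Module.Dual ℚ (H (emb j) (ph (emb i)))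

/-- Morphisms of the algebra. -/
abbrev HA (i j : V) : Type := H (emb i) (emb j) × HD i j

variable {i j k l : V}

/-- `g φ`. -/
def dualL : H (emb j) (emb k) →ₗ[ℚ] HD i j →ₗ[ℚ] HD i k :=
  LinearMap.mk₂ ℚ (fun g φ => φ.comp ((hcomp (u := emb j) (x := ph (emb i))).flip g))
    (fun g g' φ => by ext u <;> simp) (fun r g φ => by ext u <;> simp)
    (fun g φ φ' => by ext u <;> simp) (fun r g φ => by ext u <;> simp)

/-- `φ f`. -/
def dualR : HD j k →ₗ[ℚ] H (emb i) (emb j) →ₗ[ℚ] HD i k :=
  LinearMap.mk₂ ℚ (fun φ f => φ.comp (hcomp (phH f)))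
    (fun φ φ' f => by ext u <;> simp) (fun r φ f => by ext u <;> simp)
    (fun φ f f' => by ext u <;> simp) (fun r φ f => by ext u <;> simp)

theorem dualL_apply (g : H (emb j) (emb k)) (φ : HD i j) (u : H (emb k) (ph (emb i))) :
    dualL g φ u = φ (hcomp u g) := rfl

theorem dualR_apply (φ : HD j k) (f : H (emb i) (emb j)) (u : H (emb k) (ph (emb i))) :
    dualR φ f u = φ (hcomp (phH f) u) := rfl

/-- Composition in the algebra. -/
def acomp : HA j k →ₗ[ℚ] HA i j →ₗ[ℚ] HA i k :=
  ((hcomp (u := emb i) (v := emb j) (x := emb k)).compl₁₂ (LinearMap.fst ℚ _ _)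
      (LinearMap.fst ℚ _ _)).compr₂ (LinearMap.inl ℚ _ _) +
    (dualL.compl₁₂ (LinearMap.fst ℚ _ _) (LinearMap.snd ℚ _ _)).compr₂ (LinearMap.inr ℚ _ _) +
    (dualR.compl₁₂ (LinearMap.snd ℚ _ _) (LinearMap.fst ℚ _ _)).compr₂ (LinearMap.inr ℚ _ _)

theorem acomp_apply (g : HA j k) (f : HA i j) :
    acomp g f = (hcomp g.1 f.1, dualL g.1 f.2 + dualR g.2 f.1) := by
  refine Prod.ext ?_ ?_ <;> simp [acomp]

/-- The algebra. -/
def catA : LinCat V where
  H := HA
  one i := (hone (emb i), 0)
  comp := acomp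
  one_comp {i j} f := by
    rw [acomp_apply, hone_comp]
    refine Prod.ext rfl (LinearMap.ext fun u => ?_)
    simp [dualL_apply, comp_hone]
  comp_one {i j} f := by
    rw [acomp_apply, comp_hone]
    refine Prod.ext rfl (LinearMap.ext fun u => ?_)
    simp [dualR_apply, phH_hone, hone_comp]
  assoc {i j k l} h g f := by
    have := i.1.isLt; have := j.1.isLt; have := k.1.isLt; have := l.1.isLt
    simp only [acomp_apply]
    refine Prod.ext (hcomp_assoc _ _ _ (by simp) (by simp only [wt, emb]; omega)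
      (by simp only [wt, emb]; omega)) (LinearMap.ext fun u => ?_)
    simp only [map_add, LinearMap.add_apply, dualL_apply, dualR_apply, phH_comp]
    rw [hcomp_assoc u h.1 g.1 (by simp) (by simp only [wt, emb]; omega)
        (by simp only [wt, emb, ph]; omega),
      hcomp_assoc (phH f.1) u h.1 (by simp) (by simp only [wt, emb, ph]; omega)
        (by simp only [wt, emb, ph]; omega),
      hcomp_assoc (phH g.1) (phH f.1) u (by simp) (by simp only [wt, emb, ph]; omega)
        (by simp only [wt, emb, ph]; omega)]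
    abel

/-! ### Inverse monomials -/

/-- The exponents of degree `d`. -/
def negSet (d : ℤ) : Set (ℤ × ℤ) := {e | e.1 < 0 ∧ e.2 < 0 ∧ e.1 + e.2 = d}

/-- The space of inverse monomials at a vertex. -/
abbrev Y (n : ℤ) (v : Vtx) : Submodule ℚ T := Finsupp.supported ℚ ℚ (negSet (n + v.1))

open Classical in
/-- Truncation to the inverse monomials at `v`. -/
def trunc (n : ℤ) (v : Vtx) : T →ₗ[ℚ] Y n v :=
  (Finsupp.restrictDom ℚ ℚ (negSet (n + v.1)))

/-- Operators act by truncation. -/
def yact (n : ℤ) : B u v →ₗ[ℚ] Y n u →ₗ[ℚ] Y n v :=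
  LinearMap.mk₂ ℚ (fun f z => trunc n v (f.1 z.1))
    (fun f f' z => by simp) (fun r f z => by simp)
    (fun f z z' => by simp) (fun r f z => by simp)

theorem yact_apply (n : ℤ) (f : B u v) (z : Y n u) : yact n f z = trunc n v (f.1 z.1) := rfl

open Classical in
theorem trunc_coe (n : ℤ) (v : Vtx) (t : T) :
    (trunc n v t : T) = Finsupp.filter (fun e => e ∈ negSet (n + v.1)) t := by
  simp [trunc]

open Classical in
theorem yact_one (n : ℤ) (z : Y n v) : yact n (oneB v) z = z := by
  apply Subtype.ext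
  rw [yact_apply, trunc_coe]
  exact (Finsupp.filter_eq_self_iff _ _).2 fun e he => z.2 (Finsupp.mem_support_iff.2 he)

open Classical in
theorem yact_mul (n : ℤ) (g : B v x) (f : B u v) (z : Y n u) :
    yact n (mulB g f) z = yact n g (yact n f z) := by
  simp only [yact_apply]
  rw [← sub_eq_zero, ← map_sub]
  apply Subtype.ext
  rw [trunc_coe, Submodule.coe_zero]
  show Finsupp.filter _ (g.1 (f.1 z.1) - g.1 (trunc n v (f.1 z.1)).1) = 0
  rw [← map_sub, trunc_coe]
  set t := f.1 z.1 with ht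
  have hd : t ∈ Finsupp.supported ℚ ℚ {e : ℤ × ℤ | e.1 + e.2 = n + v.1} := by
    have := apply_supported f.2 (Finsupp.supported_mono (fun e he => he.2.2) z.2)
    rwa [show n + u.1 + wt u v = n + v.1 by simp only [wt]; ring] at this
  have hs : t - Finsupp.filter (fun e => e ∈ negSet (n + v.1)) t ∈
      Finsupp.supported ℚ ℚ {e : ℤ × ℤ | 0 ≤ e.1 ∨ 0 ≤ e.2} := by
    intro e he
    have he' := Finsupp.mem_support_iff.1 he
    by_contra hc
    simp only [Set.mem_setOf_eq, not_or, not_le] at hc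
    apply he'
    rw [Finsupp.sub_apply]
    by_cases h : e.1 + e.2 = n + v.1
    · rw [Finsupp.filter_apply_pos _ _ (show e ∈ negSet _ from ⟨hc.1, hc.2, h⟩), sub_self]
    · rw [Finsupp.filter_apply_neg _ _ (fun q : e ∈ negSet _ => h q.2.2),
        Finsupp.notMem_support_iff.1 fun q => h (hd q), sub_zero]
  exact (Finsupp.filter_eq_zero_iff _ _).2 fun e he => by
    by_contra hne
    rcases apply_nonneg g.2 hs (Finsupp.mem_support_iff.2 hne) with h | h
    · exact absurd he.1 (not_lt.2 h)
    · exact absurd he.2.1 (not_lt.2 h)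

theorem yact_hcomp (n : ℤ) (g : H v x) (f : H u v) (z : Y n u) :
    yact n (hcomp g f).1 z = yact n g.1 (yact n f.1 z) := by
  rw [hcomp_apply]
  exact yact_mul n g.1 f.1 z

theorem yact_acomp (n : ℤ) (g : HA j k) (f : HA i j) (z : Y n (emb i)) :
    yact n (acomp g f).1.1 z = yact n g.1.1 (yact n f.1.1 z) := by
  rw [acomp_apply]
  exact yact_hcomp n g.1 f.1 z

/-- `Y n` over the extension. -/
def repY0 (n : ℤ) : Rep catA0 where
  X i := Y n (emb i)
  act {i j} := (yact n).comp (LinearMap.fst ℚ (B (emb i) (emb j)) (W (emb i) (emb j)))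
  one_act {i} z := yact_one n z
  comp_act {i j k} g f z := yact_hcomp n g f z

/-- `Y n` over the algebra: duals act by zero. -/
def repY (n : ℤ) : Rep catA where
  X i := Y n (emb i)
  act {i j} := (yact n).comp ((LinearMap.fst ℚ (B (emb i) (emb j)) (W (emb i) (emb j))).comp
    (LinearMap.fst ℚ (H (emb i) (emb j)) (HD i j)))
  one_act {i} z := yact_one n z
  comp_act {i j k} g f z := yact_acomp n g f z

/-- The module. -/
abbrev repM : Rep catA := repY (-5)

instance H_finite (u v : Vtx) : Module.Finite ℚ (H u v) := inferInstance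

instance catA0_finite (i j : V) : Module.Finite ℚ (catA0.H i j) :=
  inferInstanceAs (Module.Finite ℚ (H (emb i) (emb j)))

instance catA_finite (i j : V) : Module.Finite ℚ (catA.H i j) :=
  inferInstanceAs (Module.Finite ℚ (HA i j))

theorem negSet_finite (d : ℤ) : (negSet d).Finite :=
  ((Set.finite_Icc d 0).prod (Set.finite_Icc d 0)).subset fun e he => by
    simp only [negSet, Set.mem_setOf_eq] at he
    simp only [Set.mem_prod, Set.mem_Icc]
    omega

instance Y_finite (n : ℤ) (v : Vtx) : Module.Finite ℚ (Y n v) := by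
  have := (negSet_finite (n + v.1)).to_subtype
  exact Module.Finite.equiv (Finsupp.supportedEquivFinsupp (negSet (n + v.1))).symm

instance repY_finite (n : ℤ) (i : V) : Module.Finite ℚ ((repY n).X i) :=
  Y_finite n (emb i)

end Vale.Agent.P195
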