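import Vale.Agent.P195.Path
import Vale.Agent.P195.Homological

/-!
# P195: `Ext(-, A)` from injective coresolutions of the columns

If every column of a finite linear category is either a dual row, or the kernel of
`cod p₁ × cod p₁ → cod p₀` given by two arrows `x₀, x₁ : p₀ → p₁` acting jointly injectively on
`N`, then all higher `Ext(N, A)` vanish.
-/

namespace Vale.Agent.P195

open LinCat Vale.Agent.P195.Rep

variable {V : Type} [Fintype V] [DecidableEq V] {C : LinCat V}

theorem injective_prod {R : Type} [Ring R] {M M' : Type} [AddCommGroup M] [Module R M]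
    [AddCommGroup M'] [Module R M'] [Module.Injective R M] [Module.Injective R M'] :
    Module.Injective R (M × M') := by
  refine ⟨fun X Y _ _ _ _ g hg f => ?_⟩
  obtain ⟨h₀, e₀⟩ := Module.Injective.out g hg ((LinearMap.fst R M M').comp f)
  obtain ⟨h₁, e₁⟩ := Module.Injective.out g hg ((LinearMap.snd R M M').comp f)
  exact ⟨h₀.prod h₁, fun x => Prod.ext (e₀ x) (e₁ x)⟩

namespace LinCat

/-- The map of dual rows given by an arrow. -/
def codMap {p q : V} (x : C.H q p) : Rep.Hom (C.cod p) (C.cod q) where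
  app u := (C.comp (u := u) x).dualMap
  nat h φ := LinearMap.ext fun g => congrArg φ (C.assoc x g h)

omit [Fintype V] [DecidableEq V] in
lemma codMap_app {p q u : V} (x : C.H q p) (φ : Module.Dual ℚ (C.H u p)) (g : C.H u q) :
    (codMap x).app u φ g = φ (C.comp x g) := rfl

/-- Column `v` is the dual row at `p`, by the functional `c`. -/
structure InjCol (v p : V) (c : Module.Dual ℚ (C.H v p)) : Prop where
  inj : ∀ u (h : C.H v u), (∀ g, c (C.comp g h) = 0) → h = 0
  surj : ∀ u (φ : Module.Dual ℚ (C.H u p)), ∃ h, ∀ g, c (C.comp g h) = φ g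

/-- Column `v` has the coresolution by `cod p₁ × cod p₁ → cod p₀`. -/
structure KoszulCol (v p₁ p₀ : V) (x₀ x₁ : C.H p₀ p₁) (c₀ c₁ : Module.Dual ℚ (C.H v p₁)) :
    Prop where
  inj : ∀ u (h : C.H v u), (∀ g, c₀ (C.comp g h) = 0) → (∀ g, c₁ (C.comp g h) = 0) → h = 0
  zero : ∀ g, c₀ (C.comp x₀ g) + c₁ (C.comp x₁ g) = 0
  mid : ∀ u (φ₀ φ₁ : Module.Dual ℚ (C.H u p₁)),
    (∀ g, φ₀ (C.comp x₀ g) + φ₁ (C.comp x₁ g) = 0) →
      ∃ h, ∀ g, c₀ (C.comp g h) = φ₀ g ∧ c₁ (C.comp g h) = φ₁ g
  surj : ∀ u (g : C.H u p₀), C.comp x₀ g = 0 → C.comp x₁ g = 0 → g = 0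

omit [Fintype V] [DecidableEq V] in
lemma colHom_cod_app {v p u : V} (c : Module.Dual ℚ (C.H v p)) (h : C.H v u) (g : C.H u p) :
    (colHom v (C.cod p) c).app u h g = c (C.comp g h) := rfl

lemma InjCol.extVan {v p : V} {c : Module.Dual ℚ (C.H v p)} (h : InjCol v p c) (N : Rep C)
    (i : ℕ) : ExtVan C.Alg N.Tot (C.col v).Tot (i + 1) := by
  have hb : Function.Bijective (colHom v (C.cod p) c).toLin := by
    refine ⟨(toLin_injective_iff _).2 fun u => ?_, (toLin_surjective_iff _).2 fun u φ => ?_⟩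
    · exact (injective_iff_map_eq_zero _).2 fun x hx => h.inj u x fun g => LinearMap.congr_fun hx g
    · obtain ⟨x, hx⟩ := h.surj u φ
      exact ⟨x, LinearMap.ext hx⟩
  exact (ExtVan.of_injective (Y := (C.cod p).Tot) i).congr_right (LinearEquiv.ofBijective _ hb).symm

lemma KoszulCol.extVan {v p₁ p₀ : V} {x₀ x₁ : C.H p₀ p₁} {c₀ c₁ : Module.Dual ℚ (C.H v p₁)}
    (h : KoszulCol v p₁ p₀ x₀ x₁ c₀ c₁) (N : Rep C)
    (hN : ∀ m : N.X p₀, N.act x₀ m = 0 → N.act x₁ m = 0 → m = 0) (i : ℕ) :
    ExtVan C.Alg N.Tot (C.col v).Tot (i + 1) := by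
  set f := (colHom v (C.cod p₁) c₀).toLin.prod (colHom v (C.cod p₁) c₁).toLin with hf
  set g := (codMap x₀).toLin.coprod (codMap x₁).toLin with hg
  have hS : Short f g := by
    refine ⟨fun a b e => ?_, fun y => ⟨fun hy => ?_, ?_⟩, fun φ => ?_⟩
    · refine Tot.ext fun u => sub_eq_zero.1 (h.inj u _ (fun k => ?_) (fun k => ?_))
      · have := LinearMap.congr_fun (congrFun (congrArg Prod.fst e) u) k
        simp only [map_sub]
        exact sub_eq_zero.2 this
      · have := LinearMap.congr_fun (congrFun (congrArg Prod.snd e) u) k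
        simp only [map_sub]
        exact sub_eq_zero.2 this
    · choose x hx using fun u => h.mid u (y.1 u) (y.2 u) fun k => LinearMap.congr_fun (congrFun hy u) k
      exact ⟨x, Prod.ext (Tot.ext fun u => LinearMap.ext fun k => (hx u k).1)
        (Tot.ext fun u => LinearMap.ext fun k => (hx u k).2)⟩
    · rintro ⟨x, rfl⟩
      refine Tot.ext fun u => LinearMap.ext fun k => ?_
      show c₀ (C.comp (C.comp x₀ k) (x u)) + c₁ (C.comp (C.comp x₁ k) (x u)) = 0
      rw [C.assoc, C.assoc, h.zero]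
    · have key : ∀ u, ∃ y : Module.Dual ℚ (C.H u p₁) × Module.Dual ℚ (C.H u p₁),
          ∀ k, y.1 (C.comp x₀ k) + y.2 (C.comp x₁ k) = (φ u : Module.Dual ℚ (C.H u p₀)) k := by
        intro u
        obtain ⟨r, hr⟩ := ((C.comp (u := u) x₀).prod (C.comp (u := u) x₁)).exists_leftInverse_of_injective
          (LinearMap.ker_eq_bot'.2 fun k hk => h.surj u k (congrArg Prod.fst hk) (congrArg Prod.snd hk))
        refine ⟨((φ u : Module.Dual ℚ (C.H u p₀)).comp (r.comp (LinearMap.inl ℚ _ _)),
          (φ u : Module.Dual ℚ (C.H u p₀)).comp (r.comp (LinearMap.inr ℚ _ _))), fun k => ?_⟩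
        have e : r (C.comp x₀ k, C.comp x₁ k) = k := LinearMap.congr_fun hr k
        conv_rhs => rw [← e]
        simp [← map_add]
      choose y hy using key
      exact ⟨(fun u => (y u).1, fun u => (y u).2), Tot.ext fun u => LinearMap.ext (hy u)⟩
  have : Module.Injective C.Alg ((C.cod p₁).Tot × (C.cod p₁).Tot) := injective_prod
  refine hS.extVan_of_injective (fun φ => ?_) i
  obtain ⟨r, hr⟩ := ((N.act x₀).prod (N.act x₁)).exists_leftInverse_of_injective
    (LinearMap.ker_eq_bot'.2 fun m hm => hN m (congrArg Prod.fst hm) (congrArg Prod.snd hm))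
  set ξ := codEquiv p₀ N φ with hξ
  refine ⟨((codEquiv p₁ N).symm (ξ.comp (r.comp (LinearMap.inl ℚ _ _)))).prod
    ((codEquiv p₁ N).symm (ξ.comp (r.comp (LinearMap.inr ℚ _ _)))), ?_⟩
  refine (codEquiv p₀ N).injective (LinearMap.ext fun m => ?_)
  show ξ (r (N.act (C.comp x₀ (C.one p₀)) (at' p₀ m p₀), 0)) +
      ξ (r (0, N.act (C.comp x₁ (C.one p₀)) (at' p₀ m p₀))) = ξ m
  rw [C.comp_one, C.comp_one, at'_same, ← map_add, ← map_add, Prod.mk_add_mk, add_zero, zero_add]
  exact congrArg ξ (LinearMap.congr_fun hr m)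

/-- All columns resolved: `Ext^{≥1}(N, A) = 0`. -/
theorem extVan_alg (N : Rep C) (h : ∀ v, ∀ i, ExtVan C.Alg N.Tot (C.col v).Tot (i + 1)) (i : ℕ) :
    ExtVan C.Alg N.Tot C.Alg (i + 1) :=
  (ExtVan.pi_right fun v => h v i).congr_right algEquiv.symm

end LinCat

/-- If whatever a map `M → A` hits acts by zero on `M ≠ 0`, then `M` is not projective. -/
theorem not_projective_of_act {R M : Type} [Ring R] [AddCommGroup M] [Module R M] [Nontrivial M]
    (h : ∀ φ : M →ₗ[R] R, ∀ m n : M, φ m • n = 0) : ¬Module.Projective R M := by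
  rintro ⟨s, hs⟩
  obtain ⟨m, hm⟩ := exists_ne (0 : M)
  refine hm ?_
  rw [← hs m, Finsupp.linearCombination_apply]
  exact Finset.sum_eq_zero fun j _ => h ((Finsupp.lapply j).comp s) m j

/-- An arrow annihilated by whatever annihilates `N` acts by zero: then `N` is not projective. -/
theorem not_projective_of_ann (N : Rep C) (v₀ : V) [Nontrivial (N.X v₀)]
    (h : ∀ v u (a : C.H v u),
      (∀ x (e : C.H u x), (∀ m, N.act e m = 0) → C.comp e a = 0) → ∀ m, N.act a m = 0) :
    ¬Module.Projective C.Alg N.Tot := by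
  have : Nontrivial N.Tot := by
    obtain ⟨m, hm⟩ := exists_ne (0 : N.X v₀)
    refine nontrivial_of_ne (at' v₀ m) 0 fun e => hm ?_
    simpa [at'_same] using congrFun e v₀
  refine not_projective_of_act fun φ m n => Tot.ext fun u => ?_
  rw [Rep.smul_apply, Tot.zero_apply]
  refine Finset.sum_eq_zero fun v _ => h v u _ (fun x e he => ?_) _
  have e0 : elem e • m = (0 : N.Tot) := by rw [elem_smul_eq, he, map_zero]
  have := congrFun (congrFun (φ.map_smul (elem e) m) v) x
  rw [e0, map_zero] at this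
  have key : (elem e * φ m) v x = C.comp e (φ m v u) := by
    rw [LinCat.mul_apply, Fintype.sum_eq_single u fun y hy => by simp [elem_of_ne_left e hy],
      elem_apply_same]
  exact key.symm.trans this.symm

end Vale.Agent.P195
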