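import Vale.Agent.P195.KosW
import Vale.Agent.P195.ExtCol

/-!
# P195: `Ext^{≥1}(M, A) = 0`, and `M` is not projective

The column at `(0,b)` of `catA` is the dual row at `(1,b)`, hence injective; the column at `(1,b)`
is the kernel of the surjection `cod (1,b)² → cod (0,b)` given by `x, y`. As `x, y` act jointly
injectively on `Y n` at `(0,b)` for `n ≤ -3`, all higher `Ext(Y n, A)` vanish. Maps `Y n → A` land
in arrows with directed part zero, which kill `Y n`.
-/

noncomputable section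

namespace Vale.Agent.P195

open LinCat

variable {u v : Vtx}

/-- The inverse shift on triples. -/
def psTri : Tri (ph u) (ph v) →ₗ[ℚ] Tri u v where
  toFun c i := ⟨![(c 0).1, (c 1).1 + (c 0).1, (c 2).1 + (2 : ℚ) • (c 1).1 + (c 0).1] i, by
    fin_cases i
    · exact (F_ph _).le (c 0).2
    · exact (F_ph _).le (add_mem (c 1).2 (c 0).2)
    · exact (F_ph _).le (add_mem (add_mem (c 2).2 (Submodule.smul_mem _ _ (c 1).2)) (c 0).2)⟩
  map_add' c c' := by
    ext i : 2
    fin_cases i <;> simp <;> abel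
  map_smul' r c := by
    ext i : 2
    fin_cases i <;> simp [smul_add, smul_comm r (2 : ℚ)]

theorem phTri_psTri (c : Tri (ph u) (ph v)) : phTri (psTri c) = c := by
  ext i : 2
  fin_cases i <;> simp [phTri, psTri] <;> module

theorem psTri_phTri (c : Tri u v) : psTri (phTri c) = c := by
  ext i : 2
  fin_cases i <;> simp [phTri, psTri]
  module

theorem psTri_rel : LinearMap.range (rel (ph u) (ph v)) ≤ (LinearMap.range (rel u v)).comap psTri := by
  rintro _ ⟨q, rfl⟩
  have he : eul' (ph u).1 = eul' u.1 - 1 := by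
    simp [eul', add_smul, sub_sub]
  refine ⟨fun j => ⟨![(q 0).1, (q 1).1 + (q 0).1, (q 2).1 + (2 : ℚ) • (q 1).1 + (q 0).1,
    (q 3).1 + (3 : ℚ) • (q 2).1 + (3 : ℚ) • (q 1).1 + (q 0).1] j, ?_⟩,
    funext fun i => Subtype.ext ?_⟩
  · have h := fun l => (F_ph (u := u) (v := v) (od u v)).le (q l).2
    fin_cases j
    · exact h 0
    · exact add_mem (h 1) (h 0)
    · exact add_mem (add_mem (h 2) (Submodule.smul_mem _ _ (h 1))) (h 0)
    · exact add_mem (add_mem (add_mem (h 3) (Submodule.smul_mem _ _ (h 2)))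
        (Submodule.smul_mem _ _ (h 1))) (h 0)
  · fin_cases i <;>
      simp [rel, psTri, he, mul_sub, add_mul,
        show (3 : ℚ) = 2 + 1 by norm_num, add_smul, two_smul] <;> abel

/-- The shift is bijective on morphisms. -/
theorem phH_bijective : Function.Bijective (phH : H u v → H (ph u) (ph v)) := by
  have hB : Function.Bijective (phB : B u v → B (ph u) (ph v)) :=
    ⟨fun f g h => Subtype.ext (congrArg Subtype.val h :),
      fun f => ⟨⟨f.1, (F_ph _).le f.2⟩, rfl⟩⟩
  have hW : Function.Bijective (phW : W u v → W (ph u) (ph v)) :=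
    Function.bijective_iff_has_inverse.2 ⟨Submodule.mapQ _ _ psTri psTri_rel,
      fun z => by
        induction z using W_induction with
        | h c => exact congrArg (cls u v) (psTri_phTri c),
      fun z => by
        induction z using W_induction with
        | h c => exact congrArg (cls (ph u) (ph v)) (phTri_psTri c)⟩
  exact hB.prodMap hW

/-! ### The pairings, at arbitrary vertices -/

/-- Arrows of the algebra between two vertices. -/
abbrev HV (p q : Vtx) : Type := H p q × Module.Dual ℚ (H q (ph p))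

variable {p q r z : Vtx}

/-- The dual part of a composite, at an arrow. -/
abbrev pairV (t : H r (ph p)) (g : HV q r) (h : HV p q) : ℚ :=
  h.2 (hcomp t g.1) + g.2 (hcomp (phH h.1) t)

/-- A functional on a product, by halves. -/
theorem dual_split {A B : Type} [AddCommGroup A] [Module ℚ A] [AddCommGroup B] [Module ℚ B]
    (φ : Module.Dual ℚ (A × B)) (g : A × B) : φ (g.1, 0) + φ (0, g.2) = φ g := by
  rw [← map_add, Prod.mk_add_mk, add_zero, zero_add]

theorem pairV_one_inj (h : HV p q) (hh : ∀ g : HV q (ph p), pairV (hone (ph p)) g h = 0) :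
    h = 0 := by
  refine Prod.ext (phH_bijective.1 ?_) (LinearMap.ext fun y => ?_)
  · refine ((Module.forall_dual_apply_eq_zero_iff ℚ _).1 fun ψ => ?_).trans (map_zero phH).symm
    simpa [pairV, comp_hone] using hh (0, ψ)
  · simpa [pairV, hone_comp] using hh (y, 0)

theorem pairV_one_surj (φ : Module.Dual ℚ (HV q (ph p))) :
    ∃ h : HV p q, ∀ g, pairV (hone (ph p)) g h = φ g := by
  obtain ⟨h₁, e₁⟩ := phH_bijective.2 ((Module.evalEquiv ℚ (H (ph p) (ph q))).symm
    (φ.comp (LinearMap.inr ℚ (H q (ph p)) (Module.Dual ℚ (H (ph p) (ph q))))))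
  refine ⟨(h₁, φ.comp (LinearMap.inl ℚ _ _)), fun g => ?_⟩
  rw [pairV, hone_comp, comp_hone]
  simp only [e₁, Module.apply_evalEquiv_symm_apply, LinearMap.comp_apply, LinearMap.inl_apply,
    LinearMap.inr_apply]
  exact dual_split φ g

/-- The hypotheses on the two Koszul squares at `z`, seen from `q`. -/
structure KosAt (z q : Vtx) : Prop where
  left : Kos (hcomp (u := q) (xH₀ z)) (hcomp (u := q) (xH₁ z))
    (hcomp (u := q) (xH₀ (ph z))) (hcomp (u := q) (xH₁ (ph z)))
  right : Kos ((hcomp (x := ph q)).flip (xH₀ (ph z))) ((hcomp (x := ph q)).flip (xH₁ (ph z)))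
    ((hcomp (x := ph q)).flip (xH₀ z)) ((hcomp (x := ph q)).flip (xH₁ z))

theorem pairV_kos_inj (K : KosAt z q) (h : HV (ph z) q)
    (h0 : ∀ g : HV q (ph z), pairV (xH₁ (ph z)) g h = 0)
    (h1 : ∀ g : HV q (ph z), pairV (xH₀ (ph z)) g h = 0) : h = 0 := by
  refine Prod.ext (phH_bijective.1 ?_) (LinearMap.ext fun r => ?_)
  · refine (K.right.inj _ ?_ ?_).trans (map_zero phH).symm <;>
      refine (Module.forall_dual_apply_eq_zero_iff ℚ _).1 fun ψ => ?_
    · simpa [pairV] using h1 (0, ψ)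
    · simpa [pairV] using h0 (0, ψ)
  · obtain ⟨a₀, a₁, rfl⟩ := K.left.surj r
    have e1 : h.2 (hcomp (xH₀ (ph z)) a₀) = 0 := by simpa [pairV] using h1 (a₀, 0)
    have e0 : h.2 (hcomp (xH₁ (ph z)) a₁) = 0 := by simpa [pairV] using h0 (a₁, 0)
    show h.2 (_ + _) = (0 : ℚ)
    rw [map_add, e1, e0, add_zero]

theorem pairV_kos_mid (K : KosAt z q) (φ₀ φ₁ : Module.Dual ℚ (HV q (ph z)))
    (hφ : ∀ g : HV q z, φ₀ (hcomp (xH₀ z) g.1, g.2.comp ((hcomp (x := ph q)).flip (xH₀ z))) +
      φ₁ (hcomp (xH₁ z) g.1, g.2.comp ((hcomp (x := ph q)).flip (xH₁ z))) = 0) :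
    ∃ h : HV (ph z) q, ∀ g, pairV (xH₁ (ph z)) g h = φ₀ g ∧ -pairV (xH₀ (ph z)) g h = φ₁ g := by
  set J := LinearMap.inr ℚ (H q (ph z)) (Module.Dual ℚ (H (ph z) (ph q))) with hJ
  set I := LinearMap.inl ℚ (H q (ph z)) (Module.Dual ℚ (H (ph z) (ph q))) with hI
  set E := Module.evalEquiv ℚ (H (ph z) (ph q)) with hE
  obtain ⟨x, hx₁, hx₀⟩ := K.right.mid (E.symm (φ₀.comp J)) (E.symm (φ₁.comp J))
    ((Module.forall_dual_apply_eq_zero_iff ℚ _).1 fun ψ => by
      have e := hφ (0, ψ)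
      rw [map_zero, map_zero] at e
      rw [map_add]
      exact (congrArg₂ (· + ·)
        (Module.apply_evalEquiv_symm_apply ℚ (H (ph z) (ph q)) (ψ.comp ((hcomp (x := ph q)).flip (xH₀ z))) (φ₀.comp J))
        (Module.apply_evalEquiv_symm_apply ℚ (H (ph z) (ph q)) (ψ.comp ((hcomp (x := ph q)).flip (xH₁ z)))
          (φ₁.comp J))).trans e)
  obtain ⟨h₁, rfl⟩ := phH_bijective.2 x
  obtain ⟨h₂, hh₁, hh₀⟩ := K.left.dual.mid (φ₀.comp I) (φ₁.comp I) (LinearMap.ext fun g => by
    have e := hφ (g, 0)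
    rw [LinearMap.zero_comp, LinearMap.zero_comp] at e
    exact e)
  have a₁ : ∀ g, h₂ (hcomp (xH₁ (ph z)) g) = φ₀ (g, 0) := fun g => LinearMap.congr_fun hh₁ g
  have a₀ : ∀ g, h₂ (hcomp (xH₀ (ph z)) g) = -φ₁ (g, 0) := fun g => LinearMap.congr_fun hh₀ g
  refine ⟨(h₁, h₂), fun g => ⟨?_, ?_⟩⟩
  · rw [pairV, a₁, show hcomp (phH h₁) (xH₁ (ph z)) = E.symm (φ₀.comp J) from hx₁,
      Module.apply_evalEquiv_symm_apply]
    exact dual_split φ₀ g
  · rw [pairV, a₀, show hcomp (phH h₁) (xH₀ (ph z)) = -E.symm (φ₁.comp J) from hx₀, map_neg,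
      Module.apply_evalEquiv_symm_apply]
    refine Eq.trans ?_ (dual_split φ₁ g)
    show -(-φ₁ (g.1, 0) + -φ₁ (0, g.2)) = _
    ring

theorem kos_arrow_inj (K : KosAt z q) (g : HV q z) (a0 : hcomp (xH₀ z) g.1 = 0)
    (a1 : hcomp (xH₁ z) g.1 = 0) (b0 : g.2.comp ((hcomp (x := ph q)).flip (xH₀ z)) = 0)
    (b1 : g.2.comp ((hcomp (x := ph q)).flip (xH₁ z)) = 0) : g = 0 := by
  refine Prod.ext (K.left.inj g.1 a0 a1) (LinearMap.ext fun r => ?_)
  obtain ⟨c₀, c₁, rfl⟩ := K.right.surj r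
  show g.2 (_ + _) = (0 : ℚ)
  rw [map_add]
  exact (congrArg₂ (· + ·) (LinearMap.congr_fun b0 c₀) (LinearMap.congr_fun b1 c₁)).trans
    (add_zero 0)

theorem kos_zero (g : HV (ph z) z) :
    g.2 (hcomp (xH₁ (ph z)) (xH₀ z)) + -g.2 (hcomp (xH₀ (ph z)) (xH₁ z)) = 0 := by
  rw [xH_comm, add_neg_cancel]

theorem killed_zero (f : H p q) (h : hcomp (phH f) (hone (ph p)) = 0) : f.1 = 0 :=
  congrArg Prod.fst (phH_bijective.1 (((comp_hone (phH f)).symm.trans h).trans (map_zero phH).symm))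

theorem killed_one (f : H (ph z) q) (h : hcomp (phH f) (xH₀ (ph z)) = 0) : f.1 = 0 := by
  have e := congrArg (fun p => (Prod.fst p).1) h
  simp only [hcomp_apply] at e
  exact Subtype.ext (mul_X₀_cancel (e.trans (zero_mul X₀).symm))

/-! ### The columns of `catA` -/

/-- The vertex `(0,b)`. -/
abbrev vz (b : Fin 3) : V := ((0 : Fin 2), b)

/-- The vertex `(1,b)`. -/
abbrev vo (b : Fin 3) : V := ((1 : Fin 2), b)

theorem acomp_snd {i j k : V} (g : HA j k) (h : HA i j) (t : H (emb k) (ph (emb i))) :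
    (acomp g h).2 t = pairV t g h := by
  rw [acomp_apply]; rfl

theorem acomp_arrow {i j k : V} (x : H (emb j) (emb k)) (g : HA i j) :
    acomp ((x, 0) : HA j k) g = (hcomp x g.1, g.2.comp ((hcomp (x := ph (emb i))).flip x)) := by
  rw [acomp_apply]
  refine Prod.ext rfl (LinearMap.ext fun t => ?_)
  simp [dualL_apply]

/-- Evaluation of the dual part at an arrow. -/
def evalD {i k : V} (t : H (emb k) (ph (emb i))) : Module.Dual ℚ (catA.H i k) :=
  (LinearMap.applyₗ t).comp (LinearMap.snd ℚ (H (emb i) (emb k)) (HD i k))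

theorem injCol_zero (b : Fin 3) :
    InjCol (C := catA) (vz b) (vo b)
      (evalD (i := vz b) (k := vo b) (hone (ph (emb (vz b))))) where
  inj u h hh := pairV_one_inj (p := emb (vz b)) (q := emb u) h fun g =>
    (acomp_snd (i := vz b) (j := u) (k := vo b) g h (hone (ph (emb (vz b))))).symm.trans (hh g)
  surj u φ := by
    obtain ⟨h, hh⟩ := pairV_one_surj (p := emb (vz b)) (q := emb u) φ
    exact ⟨h, fun g =>
      (acomp_snd (i := vz b) (j := u) (k := vo b) g h (hone (ph (emb (vz b))))).trans (hh g)⟩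

theorem kosAt (b : Fin 3) (u : V) : KosAt (emb (vz b)) (emb u) where
  left := kosH_left _ _ (by have := u.1.isLt; simp only [wt]; omega)
    (by have := u.2.isLt; have := b.isLt; simp only [od]; omega) (by simp)
  right := kosH_right _ _ (by simp [wt])
    (by have := u.2.isLt; have := b.isLt; simp only [od]; omega) (by simp)

/-- `x` in the algebra. -/
def xA₀ (b : Fin 3) : catA.H (vz b) (vo b) := ((xH₀ (emb (vz b)), 0) : HA (vz b) (vo b))

/-- `y` in the algebra. -/
def xA₁ (b : Fin 3) : catA.H (vz b) (vo b) := ((xH₁ (emb (vz b)), 0) : HA (vz b) (vo b))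

theorem koszul_mid (b : Fin 3) (u : V) (φ₀ φ₁ : Module.Dual ℚ (HA u (vo b)))
    (hφ : ∀ g : HA u (vz b), φ₀ (acomp ((xH₀ (emb (vz b)), 0) : HA (vz b) (vo b)) g) +
      φ₁ (acomp ((xH₁ (emb (vz b)), 0) : HA (vz b) (vo b)) g) = 0) :
    ∃ h : HA (vo b) u, ∀ g : HA u (vo b), (acomp g h).2 (xH₁ (ph (emb (vz b)))) = φ₀ g ∧
      -(acomp g h).2 (xH₀ (ph (emb (vz b)))) = φ₁ g := by
  obtain ⟨h, hh⟩ := pairV_kos_mid (z := emb (vz b)) (q := emb u) (kosAt b u) φ₀ φ₁ fun g =>
    (congrArg₂ (· + ·) (congrArg φ₀ (acomp_arrow (i := u) (k := vo b) (xH₀ (emb (vz b))) g))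
      (congrArg φ₁ (acomp_arrow (i := u) (k := vo b) (xH₁ (emb (vz b))) g))).symm.trans (hφ g)
  exact ⟨h, fun g => ⟨
    (acomp_snd (i := vo b) (j := u) (k := vo b) g h (xH₁ (ph (emb (vz b))))).trans (hh g).1,
    (congrArg (- ·) (acomp_snd (i := vo b) (j := u) (k := vo b) g h
      (xH₀ (ph (emb (vz b)))))).trans (hh g).2⟩⟩

theorem koszulCol_one (b : Fin 3) :
    KoszulCol (C := catA) (vo b) (vo b) (vz b) (xA₀ b) (xA₁ b)
      (evalD (i := vo b) (k := vo b) (xH₁ (ph (emb (vz b)))))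
      (-evalD (i := vo b) (k := vo b) (xH₀ (ph (emb (vz b))))) where
  inj u h h0 h1 := pairV_kos_inj (kosAt b u) h
    (fun g =>
      (acomp_snd (i := vo b) (j := u) (k := vo b) g h (xH₁ (ph (emb (vz b))))).symm.trans (h0 g))
    (fun g =>
      (acomp_snd (i := vo b) (j := u) (k := vo b) g h (xH₀ (ph (emb (vz b))))).symm.trans
        (neg_eq_zero.1 (h1 g)))
  zero g := by
    have e0 := LinearMap.congr_fun (congrArg Prod.snd
      (acomp_arrow (i := vo b) (j := vz b) (k := vo b) (xH₀ (emb (vz b))) g))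
      (xH₁ (ph (emb (vz b))))
    have e1 := LinearMap.congr_fun (congrArg Prod.snd
      (acomp_arrow (i := vo b) (j := vz b) (k := vo b) (xH₁ (emb (vz b))) g))
      (xH₀ (ph (emb (vz b))))
    exact (congrArg₂ (· + ·) e0 (congrArg (- ·) e1)).trans (kos_zero (z := emb (vz b)) g)
  mid u φ₀ φ₁ hφ := koszul_mid b u φ₀ φ₁ hφ
  surj u g g0 g1 :=
    have e0 := (acomp_arrow (i := u) (k := vo b) (xH₀ (emb (vz b))) g).symm.trans g0
    have e1 := (acomp_arrow (i := u) (k := vo b) (xH₁ (emb (vz b))) g).symm.trans g1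
    kos_arrow_inj (kosAt b u) g (congrArg Prod.fst e0) (congrArg Prod.fst e1)
      (congrArg Prod.snd e0) (congrArg Prod.snd e1)

theorem repY_act {n : ℤ} {i j : V} (a : catA.H i j) (m : (repY n).X i) :
    (repY n).act a m = yact n a.1.1 m := rfl

theorem repY_act_apply {n : ℤ} {i j : V} (a : catA.H i j) (m : (repY n).X i) {p : ℤ × ℤ}
    (hp : p ∈ negSet (n + (emb j).1)) :
    ((repY n).act a m).1 p = a.1.1.1 m.1 p := by
  classical
  show (trunc n (emb j) (a.1.1.1 m.1) : T) p = _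
  rw [trunc_coe, Finsupp.filter_apply_pos _ _ hp]

theorem jointly_injective {n : ℤ} (hn : n ≤ -3) (b : Fin 3) (m : (repY n).X (vz b))
    (h₀ : (repY n).act (xA₀ b) m = 0) (h₁ : (repY n).act (xA₁ b) m = 0) : m = 0 := by
  refine Subtype.ext (Finsupp.ext fun e => ?_)
  by_contra hne
  have he : e ∈ negSet (n + (emb (vz b)).1) := m.2 (Finsupp.mem_support_iff.2 hne)
  obtain ⟨a, a', hd⟩ := he
  have hd' : e.1 + e.2 = n := by simpa using hd
  by_cases hx : e.1 + 1 < 0
  · have := (repY_act_apply (xA₀ b) m (p := (e.1 + 1, e.2)) ⟨hx, a', by simp; omega⟩).symm.trans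
      (DFunLike.congr_fun (congrArg Subtype.val h₀) (e.1 + 1, e.2))
    exact hne ((Finsupp.mapDomain_apply (f := fun e : ℤ × ℤ => (e.1 + 1, e.2))
      (fun p q h => by simpa [Prod.ext_iff] using h) m.1 e).symm.trans this)
  · have := (repY_act_apply (xA₁ b) m (p := (e.1, e.2 + 1))
        ⟨a, by simp only; omega, by simp; omega⟩).symm.trans
      (DFunLike.congr_fun (congrArg Subtype.val h₁) (e.1, e.2 + 1))
    exact hne ((Finsupp.mapDomain_apply (f := fun e : ℤ × ℤ => (e.1, e.2 + 1))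
      (fun p q h => by simpa [Prod.ext_iff] using h) m.1 e).symm.trans this)

/-- `Ext^{≥1}(Y n, A) = 0`. -/
theorem extVan_repY_alg {n : ℤ} (hn : n ≤ -3) (i : ℕ) :
    ExtVan catA.Alg (repY n).Tot catA.Alg (i + 1) := by
  refine extVan_alg (repY n) (fun v i => ?_) i
  obtain ⟨a, b⟩ := v
  fin_cases a
  · exact (injCol_zero b).extVan _ i
  · exact (koszulCol_one b).extVan _ (jointly_injective hn b) i

/-- `Ext^{≥1}(M, A) = 0`. -/
theorem extVan_M_alg (i : ℕ) : ExtVan catA.Alg repM.Tot catA.Alg (i + 1) :=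
  extVan_repY_alg (by norm_num) i

/-- `Y n` is not projective. -/
theorem not_projective_repY {n : ℤ} (hn : n ≤ -2) :
    ¬Module.Projective catA.Alg (repY n).Tot := by
  have hne : Nontrivial ((repY n).X (vz 0)) := by
    refine nontrivial_of_ne ⟨Finsupp.single ((-1 : ℤ), n + 1) 1,
      Finsupp.single_mem_supported ℚ _ ⟨by norm_num, by omega, by simp⟩⟩ 0 fun h => ?_
    exact one_ne_zero (Finsupp.single_eq_zero.1 (congrArg Subtype.val h))
  refine @not_projective_of_ann V _ _ catA (repY n) (vz 0) hne fun v u a ha m => ?_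
  suffices h0 : a.1.1 = 0 by
    exact (congrArg (fun f => yact n f m) h0).trans (by rw [map_zero]; rfl)
  have key : ∀ t : H (emb (vo v.2)) (ph (emb v)), hcomp (phH a.1) t = 0 := fun t => by
    refine (Module.forall_dual_apply_eq_zero_iff ℚ _).1 fun φ => ?_
    have h0 := ha (vo v.2) ((0, φ) : HA u (vo v.2)) fun m => by
      show yact n (0 : B (emb u) (emb (vo v.2))) m = 0
      rw [map_zero]; rfl
    have e := (acomp_snd ((0, φ) : HA u (vo v.2)) a t).symm.trans
      (LinearMap.congr_fun (congrArg Prod.snd h0) t)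
    refine Eq.trans ?_ (e.trans rfl)
    simp [pairV]
  obtain ⟨α, b⟩ := v
  fin_cases α
  · exact killed_zero (p := emb (vz b)) (q := emb u) a.1 (key (hone (ph (emb (vz b)))))
  · exact killed_one (z := emb (vz b)) (q := emb u) a.1 (key (xH₀ (ph (emb (vz b)))))

/-- `M` is not projective. -/
theorem not_projective_M : ¬Module.Projective catA.Alg repM.Tot :=
  not_projective_repY (by norm_num)

end Vale.Agent.P195
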