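import Vale.Agent.P195.Homological

/-!
# P195: the shape of the final statement

The refutation of the Auslander-Reiten conjecture, spelled in Mathlib terms only, deduced from
`ARFails` over the rationals.
-/

namespace Vale.Agent.P195

open CategoryTheory

/-- `ARFails ℚ` gives a finite-dimensional `ℚ`-algebra, which is an Artinian ring, with a finitely
generated non-projective left module `M` such that `Ext^i(M,M) = 0` and `Ext^i(M,A) = 0` for every
`i ≥ 1`. -/
theorem finalShape (h : ARFails ℚ) :
    ∃ (A : Type) (_ : Ring A) (_ : Algebra ℚ A) (M : ModuleCat.{0} A),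
      Module.Finite ℚ A ∧ IsArtinianRing A ∧ Module.Finite A M ∧ ¬Module.Projective A M ∧
        ∀ i : ℕ, 1 ≤ i → Subsingleton (Abelian.Ext.{0} M M i) ∧
          Subsingleton (Abelian.Ext.{0} M (ModuleCat.of A A) i) := by
  obtain ⟨A, iA, iQ, M, iM, iAM, hA, hM, hnp, hE⟩ := h
  exact ⟨A, iA, iQ, ModuleCat.of A M, hA, IsArtinianRing.of_finite ℚ A, hM, hnp, hE⟩

end Vale.Agent.P195
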