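import Vale.Agent.P195.OpsFacts

/-!
# P195: morphisms of the square-zero extension

A vertex is a pair `(a,b)`. `B u v = F (wt u v) (od u v)`; `W u v` is the cokernel of
`q ↦ (q_i E' - q_{i+1})_i` from four copies of `F w k` to three of `F w (k+1)`, where `E' = E - a`
at the source; `iota u v p` is the class of a triple `(P,0,0)`, `P` of symbol `p`.
-/

noncomputable section

namespace Vale.Agent.P195

open Polynomial

/-- A vertex. -/
abbrev Vtx : Type := ℤ × ℤ

/-- The weight of a morphism. -/
abbrev wt (u v : Vtx) : ℤ := v.1 - u.1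

/-- The order of a morphism. -/
abbrev od (u v : Vtx) : ℤ := v.2 - u.2

/-- The directed part. -/
abbrev B (u v : Vtx) : Submodule ℚ Op := F (wt u v) (od u v)

theorem mul_mem_B {u v x : Vtx} {g f : Op} (hg : g ∈ B v x) (hf : f ∈ B u v) :
    g * f ∈ B u x := by
  have h := mul_mem_F hg hf
  rwa [show wt u v + wt v x = wt u x by ring, show od u v + od v x = od u x by ring] at h

theorem mul_mem_B_succ_left {u v x : Vtx} {g f : Op} (hg : g ∈ B v x)
    (hf : f ∈ F (wt u v) (od u v + 1)) : g * f ∈ F (wt u x) (od u x + 1) := by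
  have h := mul_mem_F hg hf
  rwa [show wt u v + wt v x = wt u x by ring, show od u v + 1 + od v x = od u x + 1 by ring] at h

theorem mul_mem_B_succ_right {u v x : Vtx} {g f : Op} (hg : g ∈ F (wt v x) (od v x + 1))
    (hf : f ∈ B u v) : g * f ∈ F (wt u x) (od u x + 1) := by
  have h := mul_mem_F hg hf
  rwa [show wt u v + wt v x = wt u x by ring,
    show od u v + (od v x + 1) = od u x + 1 by ring] at h

theorem mul_eul'_mem {u v : Vtx} {q : Op} (a : ℤ) (hq : q ∈ B u v) :
    q * eul' a ∈ F (wt u v) (od u v + 1) := by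
  have h := mul_mem_F hq (eul'_mem a)
  rwa [zero_add, add_comm (1 : ℤ)] at h

theorem B_le_succ (u v : Vtx) : B u v ≤ F (wt u v) (od u v + 1) := F_le (by omega)

/-- Triples of order one higher. -/
abbrev Tri (u v : Vtx) : Type := Fin 3 → F (wt u v) (od u v + 1)

/-- The relations. -/
def rel (u v : Vtx) : (Fin 4 → B u v) →ₗ[ℚ] Tri u v where
  toFun q i := ⟨(q i.castSucc).1 * eul' u.1 - (q i.succ).1,
    sub_mem (mul_eul'_mem _ (q i.castSucc).2) (B_le_succ u v (q i.succ).2)⟩
  map_add' q q' := by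
    ext i : 2
    simp [add_mul]
    abel
  map_smul' c q := by
    ext i : 2
    simp [smul_sub]

/-- The bimodule. -/
abbrev W (u v : Vtx) : Type := Tri u v ⧸ LinearMap.range (rel u v)

/-- The class of a triple. -/
abbrev cls (u v : Vtx) : Tri u v →ₗ[ℚ] W u v := (LinearMap.range (rel u v)).mkQ

variable {u v x y : Vtx}

theorem cls_eq_zero {c : Tri u v} {q : Fin 4 → B u v}
    (h : ∀ i, (c i).1 = (q i.castSucc).1 * eul' u.1 - (q i.succ).1) : cls u v c = 0 :=
  (Submodule.Quotient.mk_eq_zero _).2 ⟨q, funext fun i => Subtype.ext (h i).symm⟩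

/-- Left multiplication on triples. -/
def lmulTri (g : B v x) : Tri u v →ₗ[ℚ] Tri u x where
  toFun c i := ⟨g.1 * (c i).1, mul_mem_B_succ_left g.2 (c i).2⟩
  map_add' c c' := by ext i : 2; simp [mul_add]
  map_smul' r c := by ext i : 2; simp

/-- Right multiplication on triples. -/
def rmulTri (f : B u v) : Tri v x →ₗ[ℚ] Tri u x where
  toFun c i := ⟨(c i).1 * f.1, mul_mem_B_succ_right (c i).2 f.2⟩
  map_add' c c' := by ext i : 2; simp [add_mul]
  map_smul' r c := by ext i : 2; simp

theorem lmulTri_rel (g : B v x) :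
    LinearMap.range (rel u v) ≤ (LinearMap.range (rel u x)).comap (lmulTri g) := by
  rintro _ ⟨q, rfl⟩
  refine ⟨fun j => ⟨g.1 * (q j).1, mul_mem_B g.2 (q j).2⟩, funext fun i => Subtype.ext ?_⟩
  simp [rel, lmulTri, mul_sub, mul_assoc]

theorem eul'_mul (f : B u v) : eul' v.1 * f.1 = f.1 * eul' u.1 := by
  have h := eul'_comm u.1 f.2
  rwa [show u.1 + wt u v = v.1 by ring] at h

theorem rmulTri_rel (f : B u v) :
    LinearMap.range (rel v x) ≤ (LinearMap.range (rel u x)).comap (rmulTri f) := by
  rintro _ ⟨q, rfl⟩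
  refine ⟨fun j => ⟨(q j).1 * f.1, mul_mem_B (q j).2 f.2⟩, funext fun i => Subtype.ext ?_⟩
  simp [rel, rmulTri, sub_mul, mul_assoc, eul'_mul f]

/-- Left multiplication. -/
def lmul : B v x →ₗ[ℚ] W u v →ₗ[ℚ] W u x where
  toFun g := Submodule.mapQ _ _ (lmulTri g) (lmulTri_rel g)
  map_add' g g' := by
    refine Submodule.linearMap_qext _ (LinearMap.ext fun c => ?_)
    show cls u x _ = cls u x _ + cls u x _
    rw [← map_add]
    congr 1
  map_smul' r g := by
    refine Submodule.linearMap_qext _ (LinearMap.ext fun c => ?_)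
    show cls u x _ = r • cls u x _
    rw [← map_smul]
    congr 1

/-- Right multiplication. -/
def rmul : B u v →ₗ[ℚ] W v x →ₗ[ℚ] W u x where
  toFun f := Submodule.mapQ _ _ (rmulTri f) (rmulTri_rel f)
  map_add' g g' := by
    refine Submodule.linearMap_qext _ (LinearMap.ext fun c => ?_)
    show cls u x _ = cls u x _ + cls u x _
    rw [← map_add]
    congr 1
    ext i : 2
    simp [rmulTri, mul_add]
  map_smul' r g := by
    refine Submodule.linearMap_qext _ (LinearMap.ext fun c => ?_)
    show cls u x _ = r • cls u x _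
    rw [← map_smul]
    congr 1
    ext i : 2
    simp [rmulTri]

theorem lmul_cls (g : B v x) (c : Tri u v) : lmul g (cls u v c) = cls u x (lmulTri g c) := rfl

theorem rmul_cls (f : B u v) (c : Tri v x) : rmul f (cls v x c) = cls u x (rmulTri f c) := rfl

theorem W_induction {motive : W u v → Prop} (h : ∀ c, motive (cls u v c)) (z : W u v) : motive z :=
  Submodule.Quotient.induction_on _ z h

theorem lmul_lmul (h : B x y) (g : B v x) (z : W u v) :
    lmul (⟨h.1 * g.1, mul_mem_B h.2 g.2⟩ : B v y) z = lmul h (lmul g z) := by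
  induction z using W_induction with
  | h c =>
    simp only [lmul_cls]
    congr 1

theorem rmul_rmul (g : B v x) (f : B u v) (z : W x y) :
    rmul (⟨g.1 * f.1, mul_mem_B g.2 f.2⟩ : B u x) z = rmul f (rmul g z) := by
  induction z using W_induction with
  | h c =>
    simp only [rmul_cls]
    congr 1

theorem lmul_rmul (h : B x y) (f : B u v) (z : W v x) :
    lmul h (rmul f z) = rmul f (lmul h z) := by
  induction z using W_induction with
  | h c =>
    simp only [rmul_cls, lmul_cls]
    congr 1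

/-- The first component, on `F (w, k+1)`. -/
def first : F (wt u v) (od u v + 1) →ₗ[ℚ] W u v :=
  (cls u v).comp (LinearMap.single ℚ (fun _ : Fin 3 => F (wt u v) (od u v + 1)) 0)

/-- The class of a lift. -/
def iota (u v : Vtx) : ℚ[X] →ₗ[ℚ] W u v :=
  first.comp ((lift (wt u v) (od u v - 1)).codRestrict _ fun p => F_le (by omega) (lift_mem _ _ p))

/-- Only the symbol of a triple `(P,0,0)` with `P` of order `k - 1` matters. -/
theorem first_eq_iota {P : Op} (h : P ∈ F (wt u v) (od u v - 1)) :
    first ⟨P, F_le (by omega) h⟩ = iota u v (sym (od u v - 1).toNat P) := by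
  obtain ⟨q₁, hq₁, q₂, hq₂, e⟩ := sub_lift_sym u.1 h
  have h2 : ∀ {q : Op}, q ∈ F (wt u v) (od u v - 1 - 1) →
      q ∈ B u v ∧ q * eul' u.1 ∈ B u v ∧ q * eul' u.1 * eul' u.1 ∈ B u v := fun {q} hq => by
    have e1 := mul_mem_F hq (eul'_mem u.1)
    have e2 := mul_mem_F e1 (eul'_mem u.1)
    simp only [zero_add] at e1 e2
    exact ⟨F_le (by omega) hq, F_le (by omega) e1, F_le (by omega) e2⟩
  obtain ⟨a1, b1, c1⟩ := h2 hq₁
  obtain ⟨a2, -, -⟩ := h2 hq₂
  rw [iota, LinearMap.comp_apply, ← sub_eq_zero, ← map_sub, first, LinearMap.comp_apply]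
  refine cls_eq_zero (q := ![⟨q₂, a2⟩, ⟨-q₁, neg_mem a1⟩, ⟨-(q₁ * eul' u.1), neg_mem b1⟩,
    ⟨-(q₁ * eul' u.1 * eul' u.1), neg_mem c1⟩]) fun i => ?_
  fin_cases i
  · simpa [neg_add_eq_sub, add_comm] using e
  · simp; rw [← add_mul, neg_add_cancel, zero_mul]
  · simp; rw [← add_mul, neg_add_cancel, zero_mul]

/-- The identity. -/
def oneB (v : Vtx) : B v v := ⟨1, by simpa [B] using one_mem_F⟩

theorem lmul_one (z : W u v) : lmul (oneB v) z = z := by
  induction z using W_induction with
  | h c =>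
    simp only [lmul_cls]
    congr 1

theorem rmul_one (z : W u v) : rmul (oneB u) z = z := by
  induction z using W_induction with
  | h c =>
    simp only [rmul_cls]
    congr 1

end Vale.Agent.P195
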