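import Vale.Agent.P195.Cat

/-!
# P195: algebras of finite linear categories and their representations

A finite `ℚ`-linear category `C` gives the finite-dimensional algebra `Alg C` of matrices with
entries in the hom spaces; a representation gives a module `Tot N`. The columns `col v` give
projective modules, the duals `cod v` of the rows give injective ones.
-/

namespace Vale.Agent.P195

variable {V : Type} [Fintype V] [DecidableEq V]

namespace LinCat

variable (C : LinCat V)

/-- The algebra of matrices of arrows: the entry at `(u, v)` lies in `H u v`. -/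
def Alg : Type := ∀ u v, C.H u v

instance : AddCommGroup C.Alg := inferInstanceAs (AddCommGroup (∀ u v, C.H u v))

instance : Module ℚ C.Alg := inferInstanceAs (Module ℚ (∀ u v, C.H u v))

instance [∀ u v, Module.Finite ℚ (C.H u v)] : Module.Finite ℚ C.Alg := inferInstanceAs (Module.Finite ℚ (∀ u v, C.H u v))

variable {C}

omit [Fintype V] [DecidableEq V] in
@[ext]
lemma Alg.ext {a b : C.Alg} (h : ∀ u v, a u v = b u v) : a = b := funext fun u => funext (h u)

omit [Fintype V] [DecidableEq V] in
@[simp]
lemma Alg.add_apply (a b : C.Alg) (u v : V) : (a + b) u v = a u v + b u v := rfl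

omit [Fintype V] [DecidableEq V] in
@[simp]
lemma Alg.smul_apply (c : ℚ) (a : C.Alg) (u v : V) : (c • a) u v = c • a u v := rfl

omit [Fintype V] [DecidableEq V] in
@[simp]
lemma Alg.zero_apply (u v : V) : (0 : C.Alg) u v = 0 := rfl

/-- The matrix with one entry. -/
def elem {u v : V} (h : C.H u v) : C.Alg := Pi.single u (Pi.single v h)

omit [Fintype V] in
lemma elem_apply_same {u v : V} (h : C.H u v) : elem h u v = h := by
  simp [elem]

omit [Fintype V] in
lemma elem_of_ne_left {u v u' : V} (h : C.H u v) (hu : u' ≠ u) (w : V) : elem h u' w = 0 :=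
  congrFun (Pi.single_eq_of_ne (M := fun a => ∀ b, C.H a b) hu (Pi.single v h)) w

omit [Fintype V] in
lemma elem_of_ne_right {u v v' : V} (h : C.H u v) (hv : v' ≠ v) : elem h u v' = 0 := by
  simp [elem, hv]

omit [Fintype V] in
lemma elem_add {u v : V} (h h' : C.H u v) : elem (h + h') = elem h + elem h' := by
  unfold elem
  rw [Pi.single_add, Pi.single_add]
  rfl

omit [Fintype V] in
lemma elem_smul {u v : V} (c : ℚ) (h : C.H u v) : elem (c • h) = c • elem h := by
  unfold elem
  rw [Pi.single_smul, Pi.single_smul]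
  rfl

instance : Mul C.Alg := ⟨fun g f u w => ∑ v, C.comp (g v w) (f u v)⟩

instance : One C.Alg := ⟨fun u => Pi.single u (C.one u)⟩

omit [DecidableEq V] in
lemma mul_apply (g f : C.Alg) (u w : V) : (g * f) u w = ∑ v, C.comp (g v w) (f u v) := rfl

omit [Fintype V] in
lemma one_apply_same (u : V) : (1 : C.Alg) u u = C.one u := Pi.single_eq_same _ _

omit [Fintype V] in
lemma one_apply_ne {u v : V} (h : v ≠ u) : (1 : C.Alg) u v = 0 := Pi.single_eq_of_ne h _

instance : Ring C.Alg where
  __ := (inferInstance : AddCommGroup C.Alg)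
  mul := (· * ·)
  one := 1
  left_distrib a b c := Alg.ext fun u w => by
    simp [mul_apply, Finset.sum_add_distrib]
  right_distrib a b c := Alg.ext fun u w => by
    simp [mul_apply, Finset.sum_add_distrib]
  zero_mul a := Alg.ext fun u w => by simp [mul_apply]
  mul_zero a := Alg.ext fun u w => by simp [mul_apply]
  one_mul a := Alg.ext fun u w => by
    rw [mul_apply, Fintype.sum_eq_single w fun v hv => by simp [one_apply_ne hv.symm]]
    rw [one_apply_same, C.one_comp]
  mul_one a := Alg.ext fun u w => by
    rw [mul_apply, Fintype.sum_eq_single u fun v hv => by simp [one_apply_ne hv]]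
    rw [one_apply_same, C.comp_one]
  mul_assoc a b c := Alg.ext fun u w => by
    simp only [mul_apply, map_sum, LinearMap.sum_apply, C.assoc]
    exact Finset.sum_comm

instance : Algebra ℚ C.Alg := Algebra.ofModule
  (fun r x y => Alg.ext fun u w => by simp [mul_apply, Finset.smul_sum])
  (fun r x y => Alg.ext fun u w => by simp [mul_apply, Finset.smul_sum])

lemma elem_mul {v w : V} (h : C.H v w) (a : C.Alg) :
    elem h * a = ∑ u, elem (C.comp h (a u v)) := by
  refine Alg.ext fun u' w' => ?_
  rw [mul_apply, Fintype.sum_eq_single v fun x hx => by simp [elem_of_ne_left h hx],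
    show (∑ u, elem (C.comp h (a u v))) u' w' = ∑ u, elem (C.comp h (a u v)) u' w' from
      (congrFun (Finset.sum_apply u' Finset.univ fun u => (elem (C.comp h (a u v)) :
        ∀ a b, C.H a b)) w').trans (Finset.sum_apply w' Finset.univ _),
    Fintype.sum_eq_single u' fun x hx => elem_of_ne_left _ hx.symm w']
  by_cases hw : w' = w
  · subst hw; rw [elem_apply_same, elem_apply_same]
  · rw [elem_of_ne_right _ hw, elem_of_ne_right _ hw]; simp

end LinCat

open LinCat

variable {C : LinCat V}

namespace Rep

/-- The module of a representation. -/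
def Tot (N : Rep C) : Type := ∀ v, N.X v

variable (N M : Rep C)

instance : AddCommGroup N.Tot := inferInstanceAs (AddCommGroup (∀ v, N.X v))

instance : Module ℚ N.Tot := inferInstanceAs (Module ℚ (∀ v, N.X v))

instance [∀ v, Module.Finite ℚ (N.X v)] : Module.Finite ℚ N.Tot := inferInstanceAs (Module.Finite ℚ (∀ v, N.X v))

instance : SMul C.Alg N.Tot := ⟨fun a n w => ∑ v, N.act (a v w) (n v)⟩

omit [DecidableEq V] in
lemma smul_apply (a : C.Alg) (n : N.Tot) (w : V) : (a • n) w = ∑ v, N.act (a v w) (n v) := rfl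

variable {N M}

omit [Fintype V] [DecidableEq V] in
@[ext]
lemma Tot.ext {n m : N.Tot} (h : ∀ v, n v = m v) : n = m := funext h

omit [Fintype V] [DecidableEq V] in
@[simp]
lemma Tot.add_apply (n m : N.Tot) (v : V) : (n + m) v = n v + m v := rfl

omit [Fintype V] [DecidableEq V] in
@[simp]
lemma Tot.smul_scalar_apply (c : ℚ) (n : N.Tot) (v : V) : (c • n) v = c • n v := rfl

omit [Fintype V] [DecidableEq V] in
@[simp]
lemma Tot.zero_apply (v : V) : (0 : N.Tot) v = 0 := rfl

instance : Module C.Alg N.Tot where
  smul := (· • ·)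
  one_smul n := Tot.ext fun w => by
    rw [smul_apply, Fintype.sum_eq_single w fun v hv => by simp [one_apply_ne hv.symm]]
    rw [one_apply_same, N.one_act]
  mul_smul a b n := Tot.ext fun w => by
    simp only [smul_apply, LinCat.mul_apply, map_sum, LinearMap.sum_apply, N.comp_act]
    exact Finset.sum_comm
  smul_zero a := Tot.ext fun w => by simp [smul_apply]
  zero_smul n := Tot.ext fun w => by simp [smul_apply]
  smul_add a n m := Tot.ext fun w => by simp [smul_apply, Finset.sum_add_distrib]
  add_smul a b n := Tot.ext fun w => by simp [smul_apply, Finset.sum_add_distrib]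

instance : IsScalarTower ℚ C.Alg N.Tot :=
  ⟨fun c a n => Tot.ext fun w => by simp [smul_apply, Finset.smul_sum]⟩

instance : SMulCommClass ℚ C.Alg N.Tot :=
  ⟨fun c a n => Tot.ext fun w => by simp [smul_apply, Finset.smul_sum]⟩

instance [∀ v, Module.Finite ℚ (N.X v)] : Module.Finite C.Alg N.Tot := Module.Finite.of_restrictScalars_finite ℚ C.Alg N.Tot

/-- A vector at one vertex. -/
def at' (v : V) : N.X v →ₗ[ℚ] N.Tot := LinearMap.single ℚ N.X v

omit [Fintype V] in
lemma at'_same (v : V) (x : N.X v) : at' v x v = x := Pi.single_eq_same v x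

omit [Fintype V] in
lemma at'_ne {v w : V} (x : N.X v) (h : w ≠ v) : at' v x w = 0 := Pi.single_eq_of_ne h x

lemma sum_at' (n : N.Tot) : ∑ v, at' v (n v) = n := Finset.univ_sum_single n

lemma elem_smul_apply_same {u v : V} (h : C.H u v) (n : N.Tot) :
    (elem h • n) v = N.act h (n u) := by
  rw [smul_apply, Fintype.sum_eq_single u fun x hx => by simp [elem_of_ne_left h hx],
    elem_apply_same]

lemma elem_smul_eq {u v : V} (h : C.H u v) (n : N.Tot) : elem h • n = at' v (N.act h (n u)) := by
  refine Tot.ext fun w => ?_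
  by_cases hw : w = v
  · subst hw; rw [elem_smul_apply_same, at'_same]
  · rw [at'_ne _ hw, smul_apply]
    refine Finset.sum_eq_zero fun x _ => ?_
    by_cases hx : x = u
    · subst hx; simp [elem_of_ne_right h hw]
    · simp [elem_of_ne_left h hx]

/-- A morphism of representations. -/
structure Hom (N M : Rep C) where
  /-- components -/
  app : ∀ v, N.X v →ₗ[ℚ] M.X v
  nat : ∀ {u v : V} (h : C.H u v) (x : N.X u), app v (N.act h x) = M.act h (app u x)

omit [Fintype V] [DecidableEq V] in
@[ext]
lemma Hom.ext {f g : Hom N M} (h : ∀ v x, f.app v x = g.app v x) : f = g := by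
  cases f; cases g; congr; funext v; exact LinearMap.ext (h v)

/-- The linear map of a morphism. -/
def Hom.toLin (f : Hom N M) : N.Tot →ₗ[C.Alg] M.Tot where
  toFun n v := f.app v (n v)
  map_add' n m := Tot.ext fun v => map_add _ _ _
  map_smul' a n := Tot.ext fun v => by
    show f.app v (∑ u, N.act (a u v) (n u)) = ∑ u, M.act (a u v) (f.app u (n u))
    simp [f.nat]

@[simp]
lemma Hom.toLin_apply (f : Hom N M) (n : N.Tot) (v : V) : f.toLin n v = f.app v (n v) := rfl

lemma Hom.toLin_at' (f : Hom N M) (v : V) (x : N.X v) : f.toLin (at' v x) = at' v (f.app v x) := by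
  refine Tot.ext fun w => ?_
  by_cases hw : w = v
  · subst hw; rw [Hom.toLin_apply, at'_same, at'_same]
  · rw [Hom.toLin_apply, at'_ne _ hw, at'_ne _ hw, map_zero]

/-- The components of a linear map. -/
def comps (φ : N.Tot →ₗ[C.Alg] M.Tot) : Hom N M where
  app v := (LinearMap.proj v).comp ((φ.restrictScalars ℚ).comp (at' v))
  nat {u v} h x := by
    show φ (at' v (N.act h x)) v = M.act h (φ (at' u x) u)
    have e : elem h • at' u x = (at' v (N.act h x) : N.Tot) := by
      rw [elem_smul_eq, at'_same]
    rw [← e, map_smul, elem_smul_apply_same]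

lemma lin_at'_ne (φ : N.Tot →ₗ[C.Alg] M.Tot) {v w : V} (x : N.X v) (h : w ≠ v) :
    φ (at' v x) w = 0 := by
  have e : elem (C.one v) • at' v x = (at' v x : N.Tot) := by
    rw [elem_smul_eq, at'_same, N.one_act]
  rw [← e, map_smul, elem_smul_eq, at'_ne _ h]

lemma toLin_comps (φ : N.Tot →ₗ[C.Alg] M.Tot) : (comps φ).toLin = φ := by
  refine LinearMap.ext fun n => Tot.ext fun w => ?_
  conv_rhs => rw [← sum_at' n, map_sum]
  show φ (at' w (n w)) w = (∑ v, φ (at' v (n v))) w
  rw [show (∑ v, φ (at' v (n v))) w = ∑ v, φ (at' v (n v)) w from Finset.sum_apply w _ _,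
    Fintype.sum_eq_single (f := fun v => φ (at' v (n v)) w) w fun v hv => lin_at'_ne φ _ hv.symm]

lemma comps_toLin (f : Hom N M) : comps f.toLin = f := by
  ext v x
  show f.toLin (at' v x) v = _
  rw [Hom.toLin_apply, at'_same]

/-- Linear maps are morphisms of representations. -/
def homEquiv : (N.Tot →ₗ[C.Alg] M.Tot) ≃ Hom N M :=
  ⟨comps, Hom.toLin, toLin_comps, comps_toLin⟩

/-- Linear maps agree if they agree at every vertex. -/
lemma lin_ext {φ ψ : N.Tot →ₗ[C.Alg] M.Tot}
    (h : ∀ v x, φ (at' v x) v = ψ (at' v x) v) : φ = ψ :=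
  homEquiv.injective (Hom.ext h)

lemma toLin_injective_iff (f : Hom N M) :
    Function.Injective f.toLin ↔ ∀ v, Function.Injective (f.app v) := by
  refine ⟨fun hf v x y hxy => ?_, fun h n m e => Tot.ext fun v => h v (congrFun e v)⟩
  have := hf (a₁ := at' v x) (a₂ := at' v y) (by rw [f.toLin_at', f.toLin_at', hxy])
  simpa [at'_same] using congrFun this v

lemma toLin_surjective_iff (f : Hom N M) :
    Function.Surjective f.toLin ↔ ∀ v, Function.Surjective (f.app v) := by
  refine ⟨fun hf v y => ?_, fun h m => ?_⟩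
  · obtain ⟨n, hn⟩ := hf (at' v y)
    exact ⟨n v, (congrFun hn v).trans (at'_same v y)⟩
  · choose x hx using fun v => h v (m v)
    exact ⟨x, Tot.ext hx⟩

lemma toLin_exact_iff {L : Rep C} (f : Hom L N) (g : Hom N M) :
    Function.Exact f.toLin g.toLin ↔ ∀ v, Function.Exact (f.app v) (g.app v) := by
  refine ⟨fun h v y => ⟨fun hy => ?_, ?_⟩, fun h n => ⟨fun hn => ?_, ?_⟩⟩
  · obtain ⟨l, hl⟩ := (h (at' v y)).1 (by rw [g.toLin_at', hy, map_zero])
    exact ⟨l v, (congrFun hl v).trans (at'_same v y)⟩
  · rintro ⟨x, rfl⟩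
    have := congrFun ((h (f.toLin (at' v x))).2 ⟨_, rfl⟩) v
    simpa [at'_same] using this
  · choose x hx using fun v => (h v (n v)).1 (congrFun hn v)
    exact ⟨x, Tot.ext hx⟩
  · rintro ⟨l, rfl⟩
    exact Tot.ext fun v => (h v _).2 ⟨_, rfl⟩

omit [Fintype V] [DecidableEq V] in
lemma subsingleton_tot (h : ∀ v, Subsingleton (N.X v)) : Subsingleton N.Tot :=
  ⟨fun _ _ => Tot.ext fun v => (h v).elim _ _⟩

end Rep

namespace LinCat

open Vale.Agent.P195.Rep

variable (C)

/-- The projective at `v`: arrows out of `v`. -/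
@[reducible] def col (v : V) : Rep C where
  X u := C.H v u
  act := C.comp
  one_act := C.one_comp
  comp_act g f n := C.assoc g f n

/-- The injective at `v`: duals of the arrows into `v`. -/
@[reducible] def cod (v : V) : Rep C where
  X u := Module.Dual ℚ (C.H u v)
  act {u w} := LinearMap.llcomp ℚ _ _ ℚ |>.flip |>.comp (C.comp (u := u) (v := w) (w := v)).flip
  one_act φ := by ext h; simp [C.comp_one]
  comp_act g f φ := by ext h; simp [C.assoc]

variable {C}

omit [Fintype V] [DecidableEq V] in
lemma cod_act_apply {v u w : V} (g : C.H u w) (φ : Module.Dual ℚ (C.H u v)) (h : C.H w v) :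
    (C.cod v).act g φ h = φ (C.comp h g) := rfl

/-- Yoneda: maps out of a column. -/
def colHom (v : V) (M : Rep C) (x : M.X v) : Rep.Hom (C.col v) M where
  app _ := M.act.flip x
  nat g f := M.comp_act g f x

omit [Fintype V] [DecidableEq V] in
lemma colHom_app {v w : V} (M : Rep C) (x : M.X v) (h : C.H v w) :
    (colHom v M x).app w h = M.act h x := rfl

/-- Yoneda, as an equivalence. -/
def yoneda (v : V) (M : Rep C) : ((C.col v).Tot →ₗ[C.Alg] M.Tot) ≃ₗ[ℚ] M.X v where
  toFun φ := φ (at' v (C.one v)) v
  map_add' _ _ := rfl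
  map_smul' _ _ := rfl
  invFun x := (colHom v M x).toLin
  left_inv φ := by
    refine Rep.lin_ext fun w h => ?_
    rw [Rep.Hom.toLin_apply, at'_same, colHom_app]
    have e : elem h • at' v (C.one v) = (at' w h : (C.col v).Tot) := by
      rw [elem_smul_eq, at'_same]
      exact congrArg _ (C.comp_one h)
    rw [← e, map_smul, elem_smul_apply_same]
  right_inv x := by
    show (colHom v M x).toLin (at' v (C.one v)) v = x
    rw [Rep.Hom.toLin_apply, at'_same, colHom_app, M.one_act]

lemma yoneda_natural {v : V} {M M' : Rep C} (g : M.Tot →ₗ[C.Alg] M'.Tot)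
    (φ : (C.col v).Tot →ₗ[C.Alg] M.Tot) :
    yoneda v M' (g.comp φ) = (comps g).app v (yoneda v M φ) := by
  have e : (C.col v).act (C.one v) (at' (N := C.col v) v (C.one v) v) = C.one v := by
    rw [at'_same]; exact C.one_comp _
  have h : elem (C.one v) • at' v (C.one v) = (at' v (C.one v) : (C.col v).Tot) := by
    rw [elem_smul_eq, e]
  show g (φ (at' v (C.one v))) v = g (at' v (φ (at' v (C.one v)) v)) v
  conv_lhs => rw [← h, map_smul, elem_smul_eq, M.one_act]

/-- The algebra is the sum of its columns. -/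
def algEquiv : C.Alg ≃ₗ[C.Alg] (∀ v, (C.col v).Tot) where
  toFun a v u := a v u
  map_add' _ _ := rfl
  map_smul' _ _ := rfl
  invFun x v u := x v u
  left_inv _ := rfl
  right_inv _ := rfl

instance col_projective (v : V) : Module.Projective C.Alg (C.col v).Tot := by
  refine Module.Projective.of_split
    ((algEquiv.symm : (∀ u, (C.col u).Tot) ≃ₗ[C.Alg] C.Alg).toLinearMap.comp
      (LinearMap.single C.Alg (fun u => (C.col u).Tot) v))
    ((LinearMap.proj v).comp (algEquiv (C := C)).toLinearMap) ?_
  refine LinearMap.ext fun x => ?_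
  simp [LinearMap.comp_apply]

/-- Maps into the dual of a row are functionals at its vertex. -/
def codEquiv (v : V) (N : Rep C) : (N.Tot →ₗ[C.Alg] (C.cod v).Tot) ≃ₗ[ℚ] Module.Dual ℚ (N.X v) where
  toFun φ :=
    { toFun := fun x => φ (at' v x) v (C.one v)
      map_add' := fun x y => by simp
      map_smul' := fun c x => by simp [LinearMap.map_smul_of_tower] }
  map_add' _ _ := rfl
  map_smul' _ _ := rfl
  invFun ξ := Rep.Hom.toLin
    { app := fun u => (LinearMap.llcomp ℚ (C.H u v) (N.X v) ℚ ξ).comp (N.act (u := u) (v := v)).flip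
      nat := fun g x => LinearMap.ext fun h => congrArg ξ (N.comp_act h g x).symm }
  left_inv φ := by
    refine Rep.lin_ext fun u x => LinearMap.ext fun h => ?_
    rw [Rep.Hom.toLin_apply, at'_same]
    have e : elem h • at' u x = (at' v (N.act h x) : N.Tot) := by rw [elem_smul_eq, at'_same]
    show φ (at' v (N.act h x)) v (C.one v) = _
    rw [← e, map_smul, elem_smul_apply_same, cod_act_apply, C.one_comp]
  right_inv ξ := LinearMap.ext fun x => by
    show ξ (N.act (C.one v) (at' v x v)) = ξ x
    rw [at'_same, N.one_act]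

section Injective

variable {X : Type} [AddCommGroup X] [Module C.Alg X]

/-- Extension of a functional gives a map into the dual of a row. -/
def toCod (v : V) (ψ : X →+ ℚ) (hψ : ∀ (c : ℚ) (x : X), ψ (algebraMap ℚ C.Alg c • x) = c * ψ x) :
    X →ₗ[C.Alg] (C.cod v).Tot where
  toFun y u :=
    { toFun := fun h => ψ (elem h • y)
      map_add' := fun h h' => by simp [elem_add, add_smul]
      map_smul' := fun c h => by
        rw [elem_smul, Algebra.smul_def, mul_smul, hψ]; rfl }
  map_add' y z := Tot.ext (N := C.cod v) fun u => LinearMap.ext fun (h : C.H u v) => by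
    show ψ (elem h • (y + z)) = ψ (elem h • y) + ψ (elem h • z)
    rw [smul_add, map_add]
  map_smul' a y := Tot.ext (N := C.cod v) fun w => LinearMap.ext fun (h : C.H w v) => by
    show ψ (elem h • a • y) = (∑ u, (C.cod v).act (a u w) _ : Module.Dual ℚ (C.H w v)) h
    rw [← mul_smul, elem_mul, Finset.sum_smul, map_sum, LinearMap.sum_apply]
    rfl

end Injective

instance cod_injective (v : V) : Module.Injective C.Alg (C.cod v).Tot := by
  refine ⟨fun X Y _ _ _ _ g hg f => ?_⟩
  let : Module ℚ X := Module.compHom X (algebraMap ℚ C.Alg)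
  let : Module ℚ Y := Module.compHom Y (algebraMap ℚ C.Alg)
  let gk : X →ₗ[ℚ] Y :=
    { toFun := g
      map_add' := map_add g
      map_smul' := fun c x => g.map_smul (algebraMap ℚ C.Alg c) x }
  let φ : X →ₗ[ℚ] ℚ :=
    { toFun := fun x => f x v (C.one v)
      map_add' := fun x y => by simp
      map_smul' := fun c x => by
        show f (algebraMap ℚ C.Alg c • x) v (C.one v) = c * f x v (C.one v)
        rw [map_smul, algebraMap_smul]; rfl }
  obtain ⟨r, hr⟩ := gk.exists_leftInverse_of_injective (LinearMap.ker_eq_bot.2 hg)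
  let ψ : Y →ₗ[ℚ] ℚ := φ.comp r
  refine ⟨toCod v ψ.toAddMonoidHom fun c y => ψ.map_smul c y, fun x => ?_⟩
  refine Tot.ext (N := C.cod v) fun u => LinearMap.ext fun (h : C.H u v) => ?_
  show φ (r (elem h • g x)) = (f x u : Module.Dual ℚ (C.H u v)) h
  have hrg : r (g (elem h • x)) = elem h • x := LinearMap.congr_fun hr _
  rw [← map_smul, hrg]
  show f (elem h • x) v (C.one v) = _
  rw [map_smul, elem_smul_apply_same, cod_act_apply, C.one_comp]

instance [∀ u v, Module.Finite ℚ (C.H u v)] : IsArtinianRing C.Alg := IsArtinianRing.of_finite ℚ C.Alg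

end LinCat

end Vale.Agent.P195
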