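import Vale.Agent.P195.CoTranspose

/-!
# P195: the glued cochain complex of a `CoDat`

Degrees `0, 1, 2+2s, 3+2s` are `K0, K1, K2 × K0, K3 × K1`. It is injective at the bottom, exact off
degree two, and in degree two its cohomology is `E`, by `(kap, 0)`.
-/

noncomputable section

universe v

namespace Vale.Agent.P195

variable {k : Type v} [Field k]
  {K0 K1 K2 K3 B0 B1 B2 B3 W0 W1 W2 W3 E : Type v}
  [AddCommGroup K0] [Module k K0] [AddCommGroup K1] [Module k K1]
  [AddCommGroup K2] [Module k K2] [AddCommGroup K3] [Module k K3]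
  [AddCommGroup B0] [Module k B0] [AddCommGroup B1] [Module k B1]
  [AddCommGroup B2] [Module k B2] [AddCommGroup B3] [Module k B3]
  [AddCommGroup W0] [Module k W0] [AddCommGroup W1] [Module k W1]
  [AddCommGroup W2] [Module k W2] [AddCommGroup W3] [Module k W3]
  [AddCommGroup E] [Module k E]

/-- Over a field a pair is exact if its transpose is. -/
theorem exact_of_dual {U U' U'' : Type v} [AddCommGroup U] [Module k U] [AddCommGroup U']
    [Module k U'] [AddCommGroup U''] [Module k U''] {f : U →ₗ[k] U'} {g : U' →ₗ[k] U''}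
    (h0 : ∀ x, g (f x) = 0) (h : ∀ φ : Module.Dual k U', φ.comp f = 0 → ∃ ψ : Module.Dual k U'', ψ.comp g = φ) :
    Function.Exact f g := fun x => by
  refine ⟨fun hx => ?_, fun ⟨y, hy⟩ => hy ▸ h0 y⟩
  by_contra hne
  obtain ⟨φ, hφ, hker⟩ := Submodule.exists_dual_map_eq_bot_of_notMem
    (p := LinearMap.range f) (x := x) (fun ⟨y, hy⟩ => hne ⟨y, hy⟩) inferInstance
  obtain ⟨ψ, rfl⟩ := h φ (LinearMap.ext fun y => (Submodule.eq_bot_iff _).1 hker _
    ⟨f y, ⟨y, rfl⟩, rfl⟩)
  exact hφ (by rw [LinearMap.comp_apply, hx, map_zero])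

namespace CoDat

variable (D : CoDat k K0 K1 K2 K3 B0 B1 B2 B3 W0 W1 W2 W3 E)

/-- Degree one to degree two. -/
def cfirst : K1 →ₗ[k] K2 × K0 := (D.δ1 0).prod (D.s0 1)

/-- Degree `2s+2` to degree `2s+3`. -/
def codd (s : ℕ) : K2 × K0 →ₗ[k] K3 × K1 :=
  LinearMap.prod ((D.δ2 s).coprod (D.θ s)) ((D.s1 (s + 1)).coprod (D.δ0 (s + 1)))

/-- Degree `2s+3` to degree `2s+4`. -/
def ceven (s : ℕ) : K3 × K1 →ₗ[k] K2 × K0 :=
  LinearMap.prod ((D.s2 (s + 1)).coprod (D.δ1 (s + 1)))
    ((D.s0 (s + 2)).comp (LinearMap.snd k K3 K1))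

theorem cfirst_apply (x : K1) : D.cfirst x = (D.δ1 0 x, D.s0 1 x) := rfl

theorem codd_apply (s : ℕ) (a : K2) (b : K0) :
    D.codd s (a, b) = (D.δ2 s a + D.θ s b, D.s1 (s + 1) a + D.δ0 (s + 1) b) := rfl

theorem ceven_apply (s : ℕ) (a : K3) (b : K1) :
    D.ceven s (a, b) = (D.s2 (s + 1) a + D.δ1 (s + 1) b, D.s0 (s + 2) b) := rfl

variable {D} (h : D.Good)
include h

theorem s0_δ0 (j : ℕ) (x : K0) : D.s0 (j + 1) (D.δ0 j x) = 0 := h.sδ0 j x

/-- A transposed differential evaluated. -/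
theorem dual_first (φ : Module.Dual k (K2 × K0)) (x : K1) :
    h.coGlue.first (φ.comp (LinearMap.inl k K2 K0), φ.comp (LinearMap.inr k K2 K0)) x =
      φ (D.cfirst x) := by
  show φ (D.δ1 0 x, 0) + φ (0, D.s0 1 x) = _
  rw [← map_add, Prod.mk_add_mk, add_zero, zero_add]
  rfl

theorem c_inj : Function.Injective (D.δ0 0) := by
  refine (injective_iff_map_eq_zero _).2 fun x hx => (Module.forall_dual_apply_eq_zero_iff k x).1
    fun φ => ?_
  obtain ⟨ψ, rfl⟩ := h.coGlue.surj 0 φ
  show ψ (D.δ0 0 x) = 0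
  rw [hx, map_zero]

theorem c_exact₁ : Function.Exact (D.δ0 0) D.cfirst := by
  refine exact_of_dual (fun x => Prod.ext (h.sq_zero x) (h.sδ0 0 x)) fun φ hφ => ?_
  obtain ⟨⟨a, b⟩, hab⟩ := (h.coGlue.exact_first φ).1 hφ
  refine ⟨a.coprod b, ?_⟩
  rw [← hab]
  exact LinearMap.ext fun x => rfl

theorem c_zero (x : K1) : D.codd 0 (D.cfirst x) = 0 := by
  rw [cfirst_apply, codd_apply]
  exact Prod.ext (h.sq' 0 x) (h.sδ1 0 x)

theorem c_exact_odd (s : ℕ) : Function.Exact (D.codd s) (D.ceven s) := by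
  refine exact_of_dual (fun x => ?_) fun φ hφ => ?_
  · obtain ⟨a, b⟩ := x
    rw [codd_apply, ceven_apply, map_add, map_add, map_add]
    refine Prod.ext ?_ ?_
    · have e1 := h.sδ2 s a
      have e2 := h.sq s b
      show _ = (0 : K2)
      linear_combination (norm := module) e1 + e2
    · show D.s0 (s + 2) (D.s1 (s + 1) a) + D.s0 (s + 2) (D.δ0 (s + 1) b) = 0
      rw [h.sδ0]
      show D.i0 (D.σ0 _ (D.p1 (D.i1 _))) + 0 = 0
      rw [h.ex1.apply_apply_eq_zero, map_zero, map_zero, add_zero]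
  · set a := φ.comp (LinearMap.inl k K3 K1) with ha
    set b := φ.comp (LinearMap.inr k K3 K1) with hb
    have e : ∀ x y, φ (x, y) = a x + b y := fun x y => by
      rw [ha, hb]; simp [← map_add]
    obtain ⟨⟨p, q⟩, hpq⟩ := (h.coGlue.exact_odd_even s (a, b)).1 (by
      refine Prod.ext (LinearMap.ext fun z => ?_) (LinearMap.ext fun z => ?_)
      · have := LinearMap.congr_fun hφ (z, 0)
        rw [LinearMap.comp_apply, codd_apply, map_zero, map_zero, add_zero, add_zero, e] at this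
        exact this
      · have := LinearMap.congr_fun hφ (0, z)
        rw [LinearMap.comp_apply, codd_apply, map_zero, map_zero, zero_add, zero_add, e] at this
        exact this)
    refine ⟨p.coprod q, LinearMap.ext fun ⟨x, y⟩ => ?_⟩
    have h1 : p (D.s2 (s + 1) x) = a x := LinearMap.congr_fun (congrArg Prod.fst hpq) x
    have h2 : p (D.δ1 (s + 1) y) + q (D.s0 (s + 2) y) = b y :=
      LinearMap.congr_fun (congrArg Prod.snd hpq) y
    rw [LinearMap.comp_apply, ceven_apply, LinearMap.coprod_apply, e, ← h1, ← h2, map_add]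
    abel

theorem c_exact_even (s : ℕ) : Function.Exact (D.ceven s) (D.codd (s + 1)) := by
  refine exact_of_dual (fun x => ?_) fun φ hφ => ?_
  · obtain ⟨a, b⟩ := x
    rw [ceven_apply, codd_apply, map_add, map_add]
    refine Prod.ext ?_ ?_
    · have e1 := h.δs2 s a
      have e2 := h.sq' (s + 1) b
      show _ = (0 : K3)
      linear_combination (norm := module) e1 + e2
    · show D.s1 (s + 2) (D.s2 (s + 1) a) + D.s1 (s + 2) (D.δ1 (s + 1) b) +
        D.δ0 (s + 2) (D.s0 (s + 2) b) = 0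
      rw [add_assoc, h.sδ1]
      show D.i1 (D.σ1 _ (D.p2 (D.i2 _))) + 0 = 0
      rw [h.ex2.apply_apply_eq_zero, map_zero, map_zero, add_zero]
  · set a := φ.comp (LinearMap.inl k K2 K0) with ha
    set b := φ.comp (LinearMap.inr k K2 K0) with hb
    have e : ∀ x y, φ (x, y) = a x + b y := fun x y => by
      rw [ha, hb]; simp [← map_add]
    obtain ⟨⟨p, q⟩, hpq⟩ := (h.coGlue.exact_even_odd s (a, b)).1 (by
      refine Prod.ext (LinearMap.ext fun z => ?_) (LinearMap.ext fun z => ?_)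
      · have := LinearMap.congr_fun hφ (z, 0)
        rw [LinearMap.comp_apply, ceven_apply, map_zero, map_zero, add_zero, e, map_zero,
          add_zero] at this
        exact this
      · have := LinearMap.congr_fun hφ (0, z)
        rw [LinearMap.comp_apply, ceven_apply, map_zero, zero_add, e] at this
        exact this)
    refine ⟨p.coprod q, LinearMap.ext fun ⟨x, y⟩ => ?_⟩
    have h1 : p (D.δ2 (s + 1) x) + q (D.s1 (s + 2) x) = a x :=
      LinearMap.congr_fun (congrArg Prod.fst hpq) x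
    have h2 : p (D.θ (s + 1) y) + q (D.δ0 (s + 2) y) = b y :=
      LinearMap.congr_fun (congrArg Prod.snd hpq) y
    rw [LinearMap.comp_apply, codd_apply, LinearMap.coprod_apply, e, ← h1, ← h2, map_add,
      map_add]
    abel

theorem c_cocycle (η : E) : D.codd 0 (D.i2 (D.kap η), 0) = 0 := by
  rw [codd_apply, map_zero, map_zero, add_zero, add_zero, h.δi2, h.W_kap, map_zero]
  refine Prod.ext rfl ?_
  show D.i1 (D.σ1 _ (D.p2 (D.i2 _))) = 0
  rw [h.ex2.apply_apply_eq_zero, map_zero, map_zero]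

theorem c_gen (x : K2 × K0) (hx : D.codd 0 x = 0) :
    ∃ a η, x = D.cfirst a + (D.i2 (D.kap η), 0) := by
  set K := D.i2.comp D.kap with hK
  have hex : Function.Exact (D.cfirst.coprod (K.prod 0)) (D.codd 0) := by
    refine exact_of_dual (fun y => ?_) fun φ hφ => ?_
    · obtain ⟨a, η⟩ := y
      rw [LinearMap.coprod_apply, map_add, c_zero h, zero_add]
      exact c_cocycle h η
    · have h1 : ∀ a, φ (D.cfirst a) = 0 := fun a => by
        have := LinearMap.congr_fun hφ (a, 0)
        rw [LinearMap.comp_apply, LinearMap.coprod_apply, map_zero, add_zero] at this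
        exact this
      obtain ⟨⟨p, q⟩, hpq⟩ := (h.coGlue.cycle_iff
          (φ.comp (LinearMap.inl k K2 K0), φ.comp (LinearMap.inr k K2 K0))
          (LinearMap.ext fun z => (dual_first h φ z).trans (h1 z))).1
        (LinearMap.ext fun η => by
          have := LinearMap.congr_fun hφ (0, η)
          rw [LinearMap.comp_apply, LinearMap.coprod_apply, map_zero, zero_add] at this
          exact this)
      refine ⟨p.coprod q, LinearMap.ext fun ⟨z, w⟩ => ?_⟩
      have e1 : p (D.δ2 0 z) + q (D.s1 1 z) = φ (z, 0) :=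
        LinearMap.congr_fun (congrArg Prod.fst hpq) z
      have e2 : p (D.θ 0 w) + q (D.δ0 1 w) = φ (0, w) :=
        LinearMap.congr_fun (congrArg Prod.snd hpq) w
      rw [LinearMap.comp_apply, codd_apply, LinearMap.coprod_apply, map_add, map_add,
        show ((z, w) : K2 × K0) = (z, 0) + (0, w) by simp, map_add, ← e1, ← e2]
      abel
  obtain ⟨⟨a, η⟩, rfl⟩ := (hex x).1 hx
  exact ⟨a, η, rfl⟩

theorem c_kap_inj (a : K1) (η : E) (e : D.cfirst a = (D.i2 (D.kap η), 0)) : η = 0 := by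
  refine (Module.forall_dual_apply_eq_zero_iff k η).1 fun ξ => ?_
  obtain ⟨⟨p, q⟩, hp, rfl⟩ := h.coGlue.cycle_surj ξ
  have h0 : p (D.δ1 0 a) + q (D.s0 1 a) = 0 := LinearMap.congr_fun hp a
  rw [cfirst_apply, Prod.mk.injEq] at e
  rw [e.1, e.2, map_zero, add_zero] at h0
  exact h0

end CoDat

end Vale.Agent.P195
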