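import Vale.Agent.P195.KMap
import Vale.Agent.P195.ResD

/-!
# P195: the squares acting on twisted rows

The identities of `ResD`, applied through `kmap`; maps are composed rightmost first.
-/

noncomputable section

namespace Vale.Agent.P195.Res

variable {N : ℕ} (hN : 2 ≤ N) (u : V)

theorem kmap_eq_zero {ι κ : Type} {vi : ι → V} {vk : κ → V} [Fintype κ] {m : Mat vi vk}
    (h : ∀ g l, m g l = 0) (y : ∀ l, KS u (vk l)) : kmap u m y = 0 := by
  rw [show m = 0 from funext fun g => funext fun l => h g l, kmap_zero]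

include hN

/-- The first copy. -/
theorem ksq_zero (y : ∀ h : G0 N, KS u (vg0 h)) :
    kmap u (vi := vg2) (vk := vg1) (d2 N 0) (kmap u (vi := vg1) (vk := vg0) (d1 N 0) y) = 0 :=
  (kmap_comp _ _ y).trans (kmap_eq_zero u (fun g l => sq21_zero hN g l) y)

/-- Level zero to level two of a later copy. -/
theorem ksq (j : ℕ) (y : ∀ h : G0 N, KS u (vg0 h)) :
    kmap u (vi := vg2) (vk := vg1) (d2 N (j + 1))
        (kmap u (vi := vg1) (vk := vg0) (d1 N (j + 1)) y) +
      kmap u (vi := vg2) (vk := vg3) (Psi2 N) (kmap u (vi := vg3) (vk := vg0) (th N j) y) = 0 :=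
  (congrArg₂ (· + ·) (kmap_comp _ _ y) (kmap_comp _ _ y)).trans ((kmap_add _ _ y).trans
    (kmap_eq_zero u (fun g l => sq21 hN j g l) y))

/-- Level one to level three. -/
theorem ksq' (j : ℕ) (y : ∀ h : G1 N, KS u (vg1 h)) :
    kmap u (vi := vg3) (vk := vg2) (d3 N j) (kmap u (vi := vg2) (vk := vg1) (d2 N j) y) +
      kmap u (vi := vg3) (vk := vg0) (th N j) (kmap u (vi := vg0) (vk := vg1) (Psi0 N) y) = 0 :=
  (congrArg₂ (· + ·) (kmap_comp _ _ y) (kmap_comp _ _ y)).trans ((kmap_add _ _ y).trans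
    (kmap_eq_zero u (fun g l => sq32 hN j g l) y))

theorem ksP0 (j : ℕ) (y : ∀ h : G0 N, KS u (vg0 h)) :
    kmap u (vi := vg0) (vk := vg1) (Psi0 N) (kmap u (vi := vg1) (vk := vg0) (d1 N j) y) = 0 :=
  (kmap_comp _ _ y).trans (kmap_eq_zero u (fun g l => sqP0 hN j g l) y)

theorem ksP1 (j : ℕ) (y : ∀ h : G1 N, KS u (vg1 h)) :
    kmap u (vi := vg1) (vk := vg2) (Psi1 N) (kmap u (vi := vg2) (vk := vg1) (d2 N j) y) +
      kmap u (vi := vg1) (vk := vg0) (d1 N (j + 1))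
        (kmap u (vi := vg0) (vk := vg1) (Psi0 N) y) = 0 :=
  (congrArg₂ (· + ·) (kmap_comp _ _ y) (kmap_comp _ _ y)).trans ((kmap_add _ _ y).trans
    (kmap_eq_zero u (fun g l => sqP1 hN j (j + 1) g l) y))

theorem ksP2 (j : ℕ) (y : ∀ h : G2 N, KS u (vg2 h)) :
    kmap u (vi := vg2) (vk := vg3) (Psi2 N) (kmap u (vi := vg3) (vk := vg2) (d3 N j) y) +
      kmap u (vi := vg2) (vk := vg1) (d2 N (j + 1))
        (kmap u (vi := vg1) (vk := vg2) (Psi1 N) y) = 0 :=
  (congrArg₂ (· + ·) (kmap_comp _ _ y) (kmap_comp _ _ y)).trans ((kmap_add _ _ y).trans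
    (kmap_eq_zero u (fun g l => sqP2 hN j (j + 1) g l) y))

theorem ksP3 (j : ℕ) (y : ∀ h : G3 N, KS u (vg3 h)) :
    kmap u (vi := vg3) (vk := vg2) (d3 N (j + 1))
      (kmap u (vi := vg2) (vk := vg3) (Psi2 N) y) = 0 :=
  (kmap_comp _ _ y).trans (kmap_eq_zero u (fun g l => sqP3 hN (j + 1) g l) y)

omit hN in
/-- The map to the next copy acts through its directed part. -/
theorem thB_fst (j : ℕ) (z : ∀ h : G0 N, KW u (vg0 h)) :
    kfst vg3 u (kmap u (vi := vg3) (vk := vg0) (th N j) (kinr vg0 u z)) = 0 :=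
  (congrArg (kfst vg3 u) (kmap_kinr _ z)).trans (kinr_kfst_exact.apply_apply_eq_zero _)

end Vale.Agent.P195.Res
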