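import Vale.Agent.P195.KLink
import Vale.Agent.P195.KSq
import Vale.Agent.P195.CoTranspose

/-!
# P195: the dual part of the resolution at a vertex

`kdual` is the transpose of the glued complex of twisted rows at `u`: it is exact off degree two,
and in degree two `φ ↦ φ ∘ (0, kap u)` gives its homology, `Dual (KE N u)`.
-/

noncomputable section

namespace Vale.Agent.P195.Res

variable (N : ℕ) (u : V)

/-- A linear section of the pairing. -/
def kapSec (h : ColExactAt N (sdown u)) : KE N u →ₗ[ℚ] ∀ i : G3 N, KB u (vg3 i) :=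
  if hN : 2 ≤ N then (kapSec_exists hN h).choose else 0

/-- Representatives of the classes in degree two. -/
def kapW (h : ColExactAt N (sdown u)) : KE N u →ₗ[ℚ] KWt u (vg2 (N := N)) :=
  (kmapS u (vi := vg2) (vk := vg3) (Psi2 N)).comp (kapSec N u h)

/-- The same, as rows. -/
def kap (h : ColExactAt N (sdown u)) : KE N u →ₗ[ℚ] ∀ i : G2 N, KS u (vg2 i) :=
  (kinr vg2 u).comp (kapW N u h)

/-- The complex of twisted rows at `u`. -/
def kdat (h : ColExactAt N (sdown u)) :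
    CoDat ℚ (∀ i : G0 N, KS u (vg0 i)) (∀ i : G1 N, KS u (vg1 i)) (∀ i : G2 N, KS u (vg2 i))
      (∀ i : G3 N, KS u (vg3 i)) (∀ i : G0 N, KB u (vg0 i)) (∀ i : G1 N, KB u (vg1 i))
      (∀ i : G2 N, KB u (vg2 i)) (∀ i : G3 N, KB u (vg3 i)) (KWt u (vg0 (N := N)))
      (KWt u (vg1 (N := N))) (KWt u (vg2 (N := N))) (KWt u (vg3 (N := N))) (KE N u) where
  i0 := kinr vg0 u
  i1 := kinr vg1 u
  i2 := kinr vg2 u
  i3 := kinr vg3 u
  p0 := kfst vg0 u
  p1 := kfst vg1 u
  p2 := kfst vg2 u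
  p3 := kfst vg3 u
  δ0 j := kmap u (vi := vg1) (vk := vg0) (d1 N j)
  δ1 j := kmap u (vi := vg2) (vk := vg1) (d2 N j)
  δ2 j := kmap u (vi := vg3) (vk := vg2) (d3 N j)
  b0 := kmapB u (vi := vg1) (vk := vg0) (d1 N 0)
  b1 := kmapB u (vi := vg2) (vk := vg1) (d2 N 0)
  b2 := kmapB u (vi := vg3) (vk := vg2) (d3 N 0)
  w0 := lW (m1 N) u
  w1 := lW (m2 N) u
  w2 := lW (m3 N) u
  σ0 _ := kmapS u (vi := vg0) (vk := vg1) (Psi0 N)
  σ1 _ := kmapS u (vi := vg1) (vk := vg2) (Psi1 N)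
  σ2 _ := kmapS u (vi := vg2) (vk := vg3) (Psi2 N)
  θ j := kmap u (vi := vg3) (vk := vg0) (th N j)
  kap := kapW N u h
  L := pairB N u

variable {N u}

theorem pairB_kapSec (hN : 2 ≤ N) (h : ColExactAt N (sdown u)) (ξ : KE N u) :
    pairB N u (kapSec N u h ξ) = ξ := by
  rw [kapSec, dif_pos hN]
  exact (kapSec_exists hN h).choose_spec ξ

theorem kmapB_lap {ι κ : Type} [Fintype κ] {vi : ι → V} {vk : κ → V} (m : Mat vi vk)
    (f : ∀ h, KB u (vk h)) :
    (fun g => (kmapB u m f g).1) = lap (fun g h => (m g h).1.1) (fun h => (f h).1) :=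
  funext fun g => kmapB_val m f g

theorem exact_kmapB {ι κ μ : Type} [Fintype κ] [Fintype μ] {vi : ι → V} {vk : κ → V} {vm : μ → V}
    (m' : Mat vi vk) (m : Mat vk vm)
    (h : ∀ f, CMem (sdown u) vk f → (lap (fun g h => (m' g h).1.1) f = 0 ↔
      ∃ w, CMem (sdown u) vm w ∧ lap (fun g h => (m g h).1.1) w = f)) :
    Function.Exact (kmapB u m) (kmapB u m') := by
  intro f
  have hf : CMem (sdown u) vk fun i => (f i).1 := fun i => (B_sdown u (vk i)).ge (f i).2
  have e : kmapB u m' f = 0 ↔ lap (fun g h => (m' g h).1.1) (fun i => (f i).1) = 0 := by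
    rw [← kmapB_lap]
    exact ⟨fun e => by rw [e]; rfl, fun e => funext fun g => Subtype.ext (congrFun e g)⟩
  rw [e, h _ hf]
  constructor
  · rintro ⟨w, hw, e⟩
    refine ⟨fun i => ⟨w i, (B_sdown u (vm i)).le (hw i)⟩, funext fun g => Subtype.ext ?_⟩
    exact (congrFun (kmapB_lap m _) g).trans (congrFun e g)
  · rintro ⟨w, rfl⟩
    exact ⟨fun i => (w i).1, fun i => (B_sdown u (vm i)).ge (w i).2, (kmapB_lap m w).symm⟩

variable (hN : 2 ≤ N) (h : ColExactAt N (sdown u)) (h' : ColExactAt N (sdown' u))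
include hN h h'

theorem kap_gen' {z : KWt u (vg2 (N := N))} (hz : lW (m3 N) u z = 0) :
    ∃ a ξ, z = lW (m2 N) u a + kapW N u h ξ := by
  obtain ⟨a, f, rfl⟩ := kap_gen hN h h' hz
  obtain ⟨a', ha'⟩ := (kap_boundary_iff hN h h' (f - kapSec N u h (pairB N u f))).2
    (by rw [map_sub, pairB_kapSec hN h, sub_self])
  refine ⟨a + a', pairB N u f, ?_⟩
  show _ = lW (m2 N) u (a + a') + kmapS u (vi := vg2) (vk := vg3) (Psi2 N)
    (kapSec N u h (pairB N u f))
  rw [map_add, ha', map_sub]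
  abel

theorem kap_inj' (a : KWt u (vg1 (N := N))) (ξ : KE N u)
    (e : lW (m2 N) u a = kapW N u h ξ) : ξ = 0 := by
  have := (kap_boundary_iff hN h h' (kapSec N u h ξ)).1 ⟨a, e⟩
  rwa [pairB_kapSec hN h] at this

theorem exact_pairB :
    Function.Exact (kmapB u (vi := vg3) (vk := vg2) (d3 N 0)) (pairB N u) := fun f => by
  have hf : CMem (sdown u) vg3 fun i => (f i).1 := fun i => (B_sdown u (vg3 i)).ge (f i).2
  refine ⟨fun e => ?_, ?_⟩
  · obtain ⟨w, hw, e'⟩ := (top_iff h hf).1 fun z => LinearMap.congr_fun e z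
    refine ⟨fun i => ⟨w i, (B_sdown u (vg2 i)).le (hw i)⟩, funext fun g => Subtype.ext ?_⟩
    exact (congrFun (kmapB_lap _ _) g).trans (congrFun e' g)
  · rintro ⟨w, rfl⟩
    have key : lap (o3 N) (fun i => (w i).1) =
        fun g => (kmapB u (vi := vg3) (vk := vg2) (d3 N 0) w g).1 :=
      (kmapB_lap (vi := vg3) (vk := vg2) (d3 N 0) w).symm
    have e := (top_iff h hf).2
      ⟨fun i => (w i).1, fun i => (B_sdown u (vg2 i)).ge (w i).2, key⟩
    exact LinearMap.ext e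

theorem kap_link (f : ∀ i : G3 N, KB u (vg3 i)) :
    ∃ a, kmapS u (vi := vg2) (vk := vg3) (Psi2 N) f =
      lW (m2 N) u a + kapW N u h (pairB N u f) := by
  obtain ⟨a, ha⟩ := (kap_boundary_iff hN h h' (f - kapSec N u h (pairB N u f))).2
    (by rw [map_sub, pairB_kapSec hN h, sub_self])
  refine ⟨a, ?_⟩
  show kmapS u (vi := vg2) (vk := vg3) (Psi2 N) f = lW (m2 N) u a +
    kmapS u (vi := vg2) (vk := vg3) (Psi2 N) (kapSec N u h (pairB N u f))
  rw [ha, map_sub, sub_add_cancel]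

theorem kdat_good : (kdat N u h).Good where
  inj0 := kinr_injective
  inj1 := kinr_injective
  inj2 := kinr_injective
  inj3 := kinr_injective
  ex0 := kinr_kfst_exact
  ex1 := kinr_kfst_exact
  ex2 := kinr_kfst_exact
  ex3 := kinr_kfst_exact
  sur0 := kfst_surjective
  sur1 := kfst_surjective
  sur2 := kfst_surjective
  sur3 := kfst_surjective
  pδ0 _ x := (kfst_kmap _ x).trans rfl
  pδ1 _ x := (kfst_kmap _ x).trans rfl
  pδ2 _ x := (kfst_kmap _ x).trans rfl
  δi0 _ x := (kmap_kinr _ x).trans rfl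
  δi1 _ x := (kmap_kinr _ x).trans rfl
  δi2 _ x := (kmap_kinr _ x).trans rfl
  θW j x := thB_fst u j x
  sq_zero x := ksq_zero hN u x
  sq j x := (congrArg (_ + ·) (kmap_of_fst_zero _ (fun _ _ => rfl) _).symm).trans (ksq hN u j x)
  sq' j x := (congrArg (fun y => _ + kmap u (vi := vg3) (vk := vg0) (th N j) y)
    (kmap_of_fst_zero _ (fun _ _ => rfl) _).symm).trans (ksq' hN u j x)
  sδ0 j x := (kmap_of_fst_zero _ (fun _ _ => rfl) _).symm.trans (ksP0 hN u j x)
  sδ1 j x := (congrArg₂ (fun a b => a + kmap u (vi := vg1) (vk := vg0) (d1 N (j + 1)) b)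
    (kmap_of_fst_zero _ (fun _ _ => rfl) _).symm
    (kmap_of_fst_zero _ (fun _ _ => rfl) _).symm).trans (ksP1 hN u j x)
  sδ2 j x := (congrArg₂ (fun a b => a + kmap u (vi := vg2) (vk := vg1) (d2 N (j + 1)) b)
    (kmap_of_fst_zero _ (fun _ _ => rfl) _).symm
    (kmap_of_fst_zero _ (fun _ _ => rfl) _).symm).trans (ksP2 hN u j x)
  δs2 j x := (congrArg (kmap u (vi := vg3) (vk := vg2) (d3 N (j + 1)))
    (kmap_of_fst_zero _ (fun _ _ => rfl) _).symm).trans (ksP3 hN u j x)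
  W_inj := (colW N u h h').inj₀
  W_one := (colW N u h h').exact₁
  W_surj := (colW N u h h').surj₃ (kR_surjective N u)
  W_kap ξ := lW_kap hN h h' _
  W_gen z hz := kap_gen' hN h h' hz
  W_kap_inj a ξ e := kap_inj' hN h h' a ξ e
  B_inj := (injective_iff_map_eq_zero _).2 fun f e => funext fun i => Subtype.ext <| congrFun
    (h.inj (fun i => (f i).1) (fun i => (B_sdown u (vg0 i)).ge (f i).2)
      ((kmapB_lap _ f).symm.trans (funext fun g => congrArg Subtype.val (congrFun e g)))) i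
  B_one := exact_kmapB _ _ h.exact₁
  B_two := exact_kmapB _ _ h.exact₂
  B_three := exact_pairB hN h h'
  B_surj := pairB_surjective hN h h'
  link _ f := kap_link hN h h' f

/-- The transposed glued complex at `u`. -/
def kdual :
    CoGlueData ℚ (Module.Dual ℚ (∀ i : G0 N, KS u (vg0 i)))
      (Module.Dual ℚ (∀ i : G1 N, KS u (vg1 i))) (Module.Dual ℚ (∀ i : G2 N, KS u (vg2 i)))
      (Module.Dual ℚ (∀ i : G3 N, KS u (vg3 i))) (Module.Dual ℚ (KE N u)) :=
  (kdat_good hN h h').coGlue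

theorem kdual_ε (φ : Module.Dual ℚ (∀ i : G2 N, KS u (vg2 i))) :
    (kdual hN h h').ε φ = φ.comp (kap N u h) := rfl

theorem kdual_d1 (j : ℕ) :
    (kdual hN h h').d1 j = (kmap u (vi := vg1) (vk := vg0) (d1 N j)).dualMap := rfl

theorem kdual_d2 (j : ℕ) :
    (kdual hN h h').d2 j = (kmap u (vi := vg2) (vk := vg1) (d2 N j)).dualMap := rfl

theorem kdual_d3 (j : ℕ) :
    (kdual hN h h').d3 j = (kmap u (vi := vg3) (vk := vg2) (d3 N j)).dualMap := rfl

theorem kdual_θ (j : ℕ) :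
    (kdual hN h h').θ j = (kmap u (vi := vg3) (vk := vg0) (th N j)).dualMap := rfl

theorem kdual_Ψ0 (j : ℕ) :
    (kdual hN h h').Ψ0 j = (kmap u (vi := vg0) (vk := vg1) (Psi0 N)).dualMap :=
  congrArg LinearMap.dualMap (LinearMap.ext fun x => (kmap_of_fst_zero _ (fun _ _ => rfl) x).symm)

theorem kdual_Ψ1 (j : ℕ) :
    (kdual hN h h').Ψ1 j = (kmap u (vi := vg1) (vk := vg2) (Psi1 N)).dualMap :=
  congrArg LinearMap.dualMap (LinearMap.ext fun x => (kmap_of_fst_zero _ (fun _ _ => rfl) x).symm)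

theorem kdual_Ψ2 (j : ℕ) :
    (kdual hN h h').Ψ2 j = (kmap u (vi := vg2) (vk := vg3) (Psi2 N)).dualMap :=
  congrArg LinearMap.dualMap (LinearMap.ext fun x => (kmap_of_fst_zero _ (fun _ _ => rfl) x).symm)

end Vale.Agent.P195.Res
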