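import Vale.Agent.P195.KCol
import Vale.Agent.P195.ResD

/-!
# P195: the maps between copies on twisted rows

`kapF u f` is the action of `Psi2` on a table at level three. Its triples `(X, mX, m²X)` have
boundary `rel (-m^l f)`, so it identifies the degree three classes of the directed part with the
degree two classes of the bimodule part.
-/

noncomputable section

namespace Vale.Agent.P195.Res

open ResR

variable {N : ℕ} {u : V}

/-- The entries of `S` from level two to level three. -/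
def sX2 (N : ℕ) (g : G2 N) (h : G3 N) :
    F (wt (emb (vg3 h)) (emb (vg2 g))) (od (emb (vg3 h)) (emb (vg2 g)) + 1) :=
  ⟨sRow N (gen2 g) (gen3 h), mem_entry (sRow_mem N (gen2 g))⟩

theorem Psi2_snd (g : G2 N) (h : G3 N) : (Psi2 N g h).2 = cls _ _ (sigTri N (sX2 N g h)) := rfl

theorem Psi2_fst (g : G2 N) (h : G3 N) : (Psi2 N g h).1 = 0 := rfl

/-- `S d = -(E - a - n)` at level three. -/
theorem d_S_top (hN : 2 ≤ N) (g h : G3 N) :
    ∑ g₂ : G2 N, dRow N (gen3 g) (gen2 g₂) * sRow N (gen2 g₂) (gen3 h) =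
      if g = h then -(eul' (-(N : ℤ))) else 0 := by
  obtain ⟨hg, hl⟩ := lev3 g
  have hx : dRow N (gen3 g) ∈ Lev N 2 := by simpa [hl] using dRow_lev (N := N) (gen3 g)
  refine ((enum2 N).sum_mul hx (sRow N) (gen3 h)).trans ?_
  have e := congrArg (fun y : Row => y (gen3 h)) (euler_row hN hg)
  have z : sRow N (gen3 g) = 0 := rfl
  simp only [z, map_zero, zero_add, Finsupp.neg_apply] at e
  rw [e, smul_v_apply]
  by_cases hh : g = h
  · subst hh
    rw [if_pos ⟨rfl, hg⟩, if_pos rfl]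
    simp [gen3, Gen.vtx]
  · have hh' : gen3 g ≠ gen3 h := fun q => hh ((enum3 N).inj q)
    simp [hh', hh]

/-- A representing table of triples. -/
def kapRep (N : ℕ) (u : V) :
    (∀ i : G3 N, KB u (vg3 i)) →ₗ[ℚ] K3 u (vg2 (N := N)) where
  toFun f g := ∑ h, rmulTri (f h) (phTri (sigTri N (sX2 N g h)))
  map_add' f f' := funext fun g => by
    rw [Pi.add_apply, ← Finset.sum_add_distrib]
    refine Finset.sum_congr rfl fun h _ => ?_
    ext l : 2
    simp [rmulTri, mul_add]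
  map_smul' c f := funext fun g => by
    rw [RingHom.id_apply, Pi.smul_apply, Finset.smul_sum]
    refine Finset.sum_congr rfl fun h _ => ?_
    ext l : 2
    simp [rmulTri]

theorem kpr_kapRep (f : ∀ i : G3 N, KB u (vg3 i)) :
    kpr u vg2 (kapRep N u f) = kmapS u (Psi2 N) f := by
  funext g
  refine Eq.trans ?_ (kmapS_apply (Psi2 N) f g).symm
  show cls _ _ (∑ h, rmulTri (f h) (phTri (sigTri N (sX2 N g h)))) = _
  rw [map_sum]
  exact Finset.sum_congr rfl fun h _ => rfl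

theorem phTri_sigTri (v w : Vtx) (X : F (wt v w) (od v w + 1)) (l : Fin 3) :
    (phTri (sigTri N X) l).1 = ((mm N : ℚ) ^ (l : ℕ)) • X.1 := by
  have e : (mm N : ℚ) = (nn N : ℚ) - 1 := by
    simp only [mm, nn]
    push_cast
    ring
  fin_cases l <;> simp [phTri, sigTri, e]
  all_goals module

theorem kapRep_coe (f : ∀ i : G3 N, KB u (vg3 i)) (g : G2 N) (l : Fin 3) :
    (kapRep N u f g l).1 =
      ((mm N : ℚ) ^ (l : ℕ)) • ∑ h, (sX2 N g h).1 * (f h).1 := by
  show ((∑ h, rmulTri (f h) (phTri (sigTri N (sX2 N g h)))) l).1 = _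
  rw [Finset.sum_apply, Submodule.coe_sum, Finset.smul_sum]
  refine Finset.sum_congr rfl fun h _ => ?_
  show (phTri (sigTri N (sX2 N g h)) l).1 * (f h).1 = _
  rw [phTri_sigTri, smul_mul_assoc]

/-- The four tables of the boundary. -/
def kapCl (N : ℕ) (u : V) (f : ∀ i : G3 N, KB u (vg3 i)) : K4 u (vg3 (N := N)) :=
  fun i l => -(((mm N : ℚ) ^ (l : ℕ)) • f i)

theorem eul'_shift (N : ℕ) (u : V) (g : G3 N) :
    eul' (-(N : ℤ)) = eul' (ph (emb (vg3 g))).1 - (mm N : ℚ) • 1 := by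
  have h1 : (ph (emb (vg3 g))).1 = 2 := rfl
  have h : ((-(N : ℤ) : ℤ) : ℚ) = ((ph (emb (vg3 g))).1 : ℤ) + (mm N : ℚ) := by
    rw [h1]
    simp only [mm, nn]
    push_cast
    ring
  simp only [eul', h, add_smul]
  abel

theorem l3_kapRep (hN : 2 ≤ N) (f : ∀ i : G3 N, KB u (vg3 i)) :
    l3 (m3 N) u (kapRep N u f) = krho u vg3 (kapCl N u f) := by
  ext g l : 3
  rw [l3_val, lap_apply]
  show ∑ g₂, dRow N (gen3 g) (gen2 g₂) * (kapRep N u f g₂ l).1 =
    (kapCl N u f g l.castSucc).1 * eul' (emb u).1 - (kapCl N u f g l.succ).1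
  simp only [kapRep_coe, mul_smul_comm, Finset.mul_sum]
  rw [← Finset.smul_sum, Finset.sum_comm]
  have key : ∀ h, ∑ g₂, dRow N (gen3 g) (gen2 g₂) * ((sX2 N g₂ h).1 * (f h).1) =
      if g = h then -(eul' (-(N : ℤ))) * (f h).1 else 0 := fun h => by
    simp only [← mul_assoc, ← Finset.sum_mul]
    rw [show ∑ g₂, dRow N (gen3 g) (gen2 g₂) * (sX2 N g₂ h).1 = _ from d_S_top hN g h, ite_mul,
      zero_mul]
  simp only [key, Finset.sum_ite_eq, Finset.mem_univ, if_true]
  have c := eul'_mul (f g)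
  rw [eul'_shift N u g, neg_mul (α := Op), sub_mul, smul_mul_assoc, one_mul, c]
  simp [kapCl, pow_succ, neg_mul (α := Op), smul_smul]
  module

theorem pair4_kapCl (f : ∀ i : G3 N, KB u (vg3 i)) (l : Fin 4) :
    pair4 N u (kapCl N u f) l = -(((mm N : ℚ) ^ (l : ℕ)) • pairB N u f) := by
  rw [pair4_apply, ← map_smul, ← map_neg]
  rfl

variable (hN : 2 ≤ N) (h : ColExactAt N (sdown u)) (h' : ColExactAt N (sdown' u))
include hN h h'

theorem lW_kap (f : ∀ i : G3 N, KB u (vg3 i)) :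
    lW (m3 N) u (kmapS u (Psi2 N) f) = 0 := by
  rw [← kpr_kapRep, lW_kpr, l3_kapRep hN]
  exact exact_krho_kpr.apply_apply_eq_zero _

theorem kap_boundary_iff (f : ∀ i : G3 N, KB u (vg3 i)) :
    (∃ a, lW (m2 N) u a = kmapS u (Psi2 N) f) ↔ pairB N u f = 0 := by
  rw [← kpr_kapRep]
  refine ((colW N u h h').class₂ (l3_kapRep hN f)).trans ⟨fun e => ?_, fun e => ?_⟩
  · have := congrFun (show pair4 N u (kapCl N u f) = 0 from e) 0
    simpa [pair4_kapCl] using this
  · funext l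
    show pair4 N u (kapCl N u f) l = 0
    rw [pair4_kapCl, e, smul_zero, neg_zero]

theorem kap_gen {z : KWt u (vg2 (N := N))} (hz : lW (m3 N) u z = 0) :
    ∃ a f, z = lW (m2 N) u a + kmapS u (Psi2 N) f := by
  obtain ⟨x, c, rfl, hd, hy⟩ := (colW N u h h').exists_class (s := z) hz
  obtain ⟨f, hf⟩ : ∃ f, pairB N u f = -(pair4 N u c 0) := by
    obtain ⟨f, hf, e⟩ := exists_pair h (-(pair4 N u c 0))
    exact ⟨fun i => ⟨f i, (B_sdown u (vg3 i)).le (hf i)⟩, LinearMap.ext e⟩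
  have hdiff : l3 (m3 N) u (x - kapRep N u f) = krho u vg3 (c - kapCl N u f) := by
    rw [map_sub, map_sub, l3_kapRep hN]
    exact congrArg (· - _) hd
  have hzero : pair4 N u (c - kapCl N u f) = 0 := by
    rw [map_sub]
    funext l
    have := eq_of_kR (show kR N u (pair4 N u c) = 0 from hy) l
    rw [Pi.sub_apply, pair4_kapCl, this, hf]
    simp
  obtain ⟨a, ha⟩ := ((colW N u h h').class₂ hdiff).2 hzero
  refine ⟨a, f, ?_⟩
  show kpr u vg2 x = _
  rw [show lW (m2 N) u a = kpr u vg2 (x - kapRep N u f) from ha, map_sub, kpr_kapRep,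
    sub_add_cancel]

theorem pairB_surjective : Function.Surjective (pairB N u) := fun ξ => by
  obtain ⟨f, hf, e⟩ := exists_pair h ξ
  exact ⟨fun i => ⟨f i, (B_sdown u (vg3 i)).le (hf i)⟩, LinearMap.ext e⟩

omit h'

theorem kapSec_exists : ∃ sec : KE N u →ₗ[ℚ] ∀ i : G3 N, KB u (vg3 i),
    ∀ ξ, pairB N u (sec ξ) = ξ := by
  obtain ⟨s, hs⟩ := (pairB N u).exists_rightInverse_of_surjective
    (LinearMap.range_eq_top.2 fun ξ => by
      obtain ⟨f, hf, e⟩ := exists_pair h ξ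
      exact ⟨fun i => ⟨f i, (B_sdown u (vg3 i)).le (hf i)⟩, LinearMap.ext e⟩)
  exact ⟨s, LinearMap.congr_fun hs⟩

end Vale.Agent.P195.Res
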