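import Mathlib

/-!
# P195: exact squares `0 → L → M² → R → 0`

`p₀, p₁ : L → M` and `q₀, q₁ : M → R` are multiplication by `x, y`. Exactness passes to products,
duals, extensions and quotients.
-/

namespace Vale.Agent.P195

variable {L M R L' M' R' L'' M'' R'' : Type*}
  [AddCommGroup L] [Module ℚ L] [AddCommGroup M] [Module ℚ M] [AddCommGroup R] [Module ℚ R]
  [AddCommGroup L'] [Module ℚ L'] [AddCommGroup M'] [Module ℚ M'] [AddCommGroup R'] [Module ℚ R']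
  [AddCommGroup L''] [Module ℚ L''] [AddCommGroup M''] [Module ℚ M''] [AddCommGroup R'']
  [Module ℚ R'']

/-- `0 → L → M² → R → 0`, by `x ↦ (p₁ x, -p₀ x)` and `(m₀, m₁) ↦ q₀ m₀ + q₁ m₁`, is exact. -/
structure Kos (p₀ p₁ : L →ₗ[ℚ] M) (q₀ q₁ : M →ₗ[ℚ] R) : Prop where
  zero : ∀ x, q₀ (p₁ x) = q₁ (p₀ x)
  inj : ∀ x, p₀ x = 0 → p₁ x = 0 → x = 0
  mid : ∀ m₀ m₁, q₀ m₀ + q₁ m₁ = 0 → ∃ x, p₁ x = m₀ ∧ p₀ x = -m₁
  surj : ∀ r, ∃ m₀ m₁, q₀ m₀ + q₁ m₁ = r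

variable {p₀ p₁ : L →ₗ[ℚ] M} {q₀ q₁ : M →ₗ[ℚ] R} {p₀' p₁' : L' →ₗ[ℚ] M'} {q₀' q₁' : M' →ₗ[ℚ] R'}
  {p₀'' p₁'' : L'' →ₗ[ℚ] M''} {q₀'' q₁'' : M'' →ₗ[ℚ] R''}

theorem Kos.dual (h : Kos p₀ p₁ q₀ q₁) : Kos q₀.dualMap q₁.dualMap p₀.dualMap p₁.dualMap := by
  refine ⟨fun φ => LinearMap.ext fun x => congrArg φ (h.zero x).symm, fun φ e₀ e₁ => ?_,
    fun φ₀ φ₁ e => ?_, fun ψ => ?_⟩
  · refine LinearMap.ext fun r => ?_
    obtain ⟨m₀, m₁, rfl⟩ := h.surj r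
    have a : φ (q₀ m₀) = 0 := LinearMap.congr_fun e₀ m₀
    have b : φ (q₁ m₁) = 0 := LinearMap.congr_fun e₁ m₁
    rw [map_add, a, b, add_zero, LinearMap.zero_apply]
  · obtain ⟨s, hs⟩ := (q₀.coprod q₁).exists_rightInverse_of_surjective
      (LinearMap.range_eq_top.2 fun r => let ⟨a, b, e⟩ := h.surj r; ⟨(a, b), e⟩)
    set Φ := (-φ₁).coprod φ₀ with hΦ
    have key : ∀ m₀ m₁, Φ (s (q₀ m₀ + q₁ m₁)) = -φ₁ m₀ + φ₀ m₁ := fun m₀ m₁ => by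
      have es : q₀ (s (q₀ m₀ + q₁ m₁)).1 + q₁ (s (q₀ m₀ + q₁ m₁)).2 = q₀ m₀ + q₁ m₁ :=
        LinearMap.congr_fun hs _
      obtain ⟨x, hx₀, hx₁⟩ := h.mid ((s (q₀ m₀ + q₁ m₁)).1 - m₀) ((s (q₀ m₀ + q₁ m₁)).2 - m₁)
        (by rw [map_sub, map_sub, sub_add_sub_comm, es, sub_self])
      have ex : φ₀ (p₀ x) + φ₁ (p₁ x) = 0 := LinearMap.congr_fun e x
      rw [hx₀, hx₁, map_neg, map_sub, map_sub] at ex
      show -φ₁ _ + φ₀ _ = _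
      simp only [LinearMap.fst_apply, LinearMap.snd_apply]
      linear_combination -ex
    refine ⟨Φ.comp s, LinearMap.ext fun m => ?_, LinearMap.ext fun m => ?_⟩
    · simpa using key 0 m
    · simpa using key m 0
  · obtain ⟨r, hr⟩ := (p₀.prod p₁).exists_leftInverse_of_injective
      (LinearMap.ker_eq_bot'.2 fun x hx => h.inj x (congrArg Prod.fst hx) (congrArg Prod.snd hx))
    refine ⟨ψ.comp (r.comp (LinearMap.inl ℚ M M)), ψ.comp (r.comp (LinearMap.inr ℚ M M)),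
      LinearMap.ext fun x => ?_⟩
    show ψ (r (p₀ x, 0)) + ψ (r (0, p₁ x)) = ψ x
    rw [← map_add, ← map_add, Prod.mk_add_mk, add_zero, zero_add]
    exact congrArg ψ (LinearMap.congr_fun hr x)

theorem Kos.prod (h : Kos p₀ p₁ q₀ q₁) (h' : Kos p₀' p₁' q₀' q₁') :
    Kos (p₀.prodMap p₀') (p₁.prodMap p₁') (q₀.prodMap q₀') (q₁.prodMap q₁') := by
  refine ⟨fun x => Prod.ext (h.zero x.1) (h'.zero x.2),
    fun x e₀ e₁ => Prod.ext (h.inj x.1 (congrArg Prod.fst e₀) (congrArg Prod.fst e₁))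
      (h'.inj x.2 (congrArg Prod.snd e₀) (congrArg Prod.snd e₁)), fun m₀ m₁ e => ?_, fun r => ?_⟩
  · obtain ⟨x, a, b⟩ := h.mid _ _ (congrArg Prod.fst e)
    obtain ⟨x', a', b'⟩ := h'.mid _ _ (congrArg Prod.snd e)
    exact ⟨(x, x'), Prod.ext a a', Prod.ext b b'⟩
  · obtain ⟨a, b, e⟩ := h.surj r.1
    obtain ⟨a', b', e'⟩ := h'.surj r.2
    exact ⟨(a, a'), (b, b'), Prod.ext e e'⟩

theorem Kos.pi (h : Kos p₀ p₁ q₀ q₁) (ι : Type*) :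
    Kos (p₀.compLeft ι) (p₁.compLeft ι) (q₀.compLeft ι) (q₁.compLeft ι) := by
  refine ⟨fun x => funext fun i => h.zero (x i),
    fun x e₀ e₁ => funext fun i => h.inj (x i) (congrFun e₀ i) (congrFun e₁ i),
    fun m₀ m₁ e => ?_, fun r => ?_⟩
  · choose x hx hx' using fun i => h.mid (m₀ i) (m₁ i) (congrFun e i)
    exact ⟨x, funext hx, funext hx'⟩
  · choose a b hab using fun i => h.surj (r i)
    exact ⟨a, b, funext hab⟩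

/-- An extension of exact squares is exact. -/
theorem Kos.extend (h : Kos p₀ p₁ q₀ q₁) (h'' : Kos p₀'' p₁'' q₀'' q₁'')
    (iL : L →ₗ[ℚ] L') (iM : M →ₗ[ℚ] M') (iR : R →ₗ[ℚ] R')
    (sL : L' →ₗ[ℚ] L'') (sM : M' →ₗ[ℚ] M'') (sR : R' →ₗ[ℚ] R'')
    (eL : Function.Exact iL sL) (eM : Function.Exact iM sM) (eR : Function.Exact iR sR)
    (hsL : Function.Surjective sL) (hsM : Function.Surjective sM)
    (hiM : Function.Injective iM) (hiR : Function.Injective iR)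
    (cp₀ : ∀ x, p₀' (iL x) = iM (p₀ x)) (cp₁ : ∀ x, p₁' (iL x) = iM (p₁ x))
    (cq₀ : ∀ x, q₀' (iM x) = iR (q₀ x)) (cq₁ : ∀ x, q₁' (iM x) = iR (q₁ x))
    (dp₀ : ∀ x, sM (p₀' x) = p₀'' (sL x)) (dp₁ : ∀ x, sM (p₁' x) = p₁'' (sL x))
    (dq₀ : ∀ x, sR (q₀' x) = q₀'' (sM x)) (dq₁ : ∀ x, sR (q₁' x) = q₁'' (sM x))
    (hz : ∀ x, q₀' (p₁' x) = q₁' (p₀' x)) : Kos p₀' p₁' q₀' q₁' := by
  refine ⟨hz, fun x e₀ e₁ => ?_, fun m₀ m₁ e => ?_, fun r => ?_⟩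
  · obtain ⟨y, rfl⟩ := (eL x).1 (h''.inj _ (by rw [← dp₀, e₀, map_zero]) (by rw [← dp₁, e₁, map_zero]))
    rw [h.inj y (hiM (by rw [← cp₀, e₀, map_zero])) (hiM (by rw [← cp₁, e₁, map_zero])), map_zero]
  · obtain ⟨x'', a, b⟩ := h''.mid (sM m₀) (sM m₁) (by rw [← dq₀, ← dq₁, ← map_add, e, map_zero])
    obtain ⟨x, rfl⟩ := hsL x''
    obtain ⟨k₀, hk₀⟩ := (eM (m₀ - p₁' x)).1 (by rw [map_sub, dp₁, a, sub_self])
    obtain ⟨k₁, hk₁⟩ := (eM (m₁ + p₀' x)).1 (by rw [map_add, dp₀, b, add_neg_cancel])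
    obtain ⟨y, a', b'⟩ := h.mid k₀ k₁ (hiR (by
      rw [map_add, ← cq₀, ← cq₁, hk₀, hk₁, map_sub, map_add, map_zero, hz]
      linear_combination (norm := module) e))
    refine ⟨x + iL y, ?_, ?_⟩
    · rw [map_add, cp₁, a', hk₀]; abel
    · rw [map_add, cp₀, b', map_neg, hk₁]; abel
  · obtain ⟨a, b, e⟩ := h''.surj (sR r)
    obtain ⟨a, rfl⟩ := hsM a
    obtain ⟨b, rfl⟩ := hsM b
    obtain ⟨k, hk⟩ := (eR (r - (q₀' a + q₁' b))).1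
      (by rw [map_sub, map_add, dq₀, dq₁, e, sub_self])
    obtain ⟨c, d, rfl⟩ := h.surj k
    exact ⟨a + iM c, b + iM d, by
      rw [map_add, map_add, cq₀, cq₁]; rw [map_add] at hk; linear_combination (norm := module) hk⟩

/-- The quotient of exact squares by an injective map is exact. -/
theorem Kos.quot (h : Kos p₀ p₁ q₀ q₁) (h' : Kos p₀' p₁' q₀' q₁')
    (iL : L →ₗ[ℚ] L') (iM : M →ₗ[ℚ] M') (iR : R →ₗ[ℚ] R')
    (sL : L' →ₗ[ℚ] L'') (sM : M' →ₗ[ℚ] M'') (sR : R' →ₗ[ℚ] R'')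
    (eL : Function.Exact iL sL) (eM : Function.Exact iM sM) (eR : Function.Exact iR sR)
    (hsL : Function.Surjective sL) (hsM : Function.Surjective sM) (hsR : Function.Surjective sR)
    (hiR : Function.Injective iR)
    (cp₀ : ∀ x, p₀' (iL x) = iM (p₀ x)) (cp₁ : ∀ x, p₁' (iL x) = iM (p₁ x))
    (cq₀ : ∀ x, q₀' (iM x) = iR (q₀ x)) (cq₁ : ∀ x, q₁' (iM x) = iR (q₁ x))
    (dp₀ : ∀ x, sM (p₀' x) = p₀'' (sL x)) (dp₁ : ∀ x, sM (p₁' x) = p₁'' (sL x))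
    (dq₀ : ∀ x, sR (q₀' x) = q₀'' (sM x)) (dq₁ : ∀ x, sR (q₁' x) = q₁'' (sM x)) :
    Kos p₀'' p₁'' q₀'' q₁'' := by
  refine ⟨fun x => ?_, fun x e₀ e₁ => ?_, fun m₀ m₁ e => ?_, fun r => ?_⟩
  · obtain ⟨x, rfl⟩ := hsL x
    rw [← dp₁, ← dp₀, ← dq₀, ← dq₁, h'.zero]
  · obtain ⟨u, rfl⟩ := hsL x
    obtain ⟨a, ha⟩ := (eM (p₀' u)).1 ((dp₀ u).trans e₀)
    obtain ⟨b, hb⟩ := (eM (p₁' u)).1 ((dp₁ u).trans e₁)
    obtain ⟨v, hv₁, hv₀⟩ := h.mid b (-a) (hiR (by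
      rw [map_neg, map_add, map_neg, ← cq₀, ← cq₁, ha, hb, h'.zero, add_neg_cancel, map_zero]))
    rw [neg_neg] at hv₀
    rw [sub_eq_zero.1 (h'.inj (u - iL v) (by rw [map_sub, cp₀, hv₀, ha, sub_self])
      (by rw [map_sub, cp₁, hv₁, hb, sub_self]))]
    exact (eL _).2 ⟨v, rfl⟩
  · obtain ⟨g₀, rfl⟩ := hsM m₀
    obtain ⟨g₁, rfl⟩ := hsM m₁
    obtain ⟨k, hk⟩ := (eR (q₀' g₀ + q₁' g₁)).1 (by rw [map_add, dq₀, dq₁, e])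
    obtain ⟨c, d, rfl⟩ := h.surj k
    obtain ⟨x, a, b⟩ := h'.mid (g₀ - iM c) (g₁ - iM d) (by
      rw [map_sub, map_sub, cq₀, cq₁]; rw [map_add] at hk; linear_combination (norm := module) -hk)
    refine ⟨sL x, ?_, ?_⟩
    · rw [← dp₁, a, map_sub, (eM _).2 ⟨c, rfl⟩, sub_zero]
    · rw [← dp₀, b, map_neg, map_sub, (eM _).2 ⟨d, rfl⟩, sub_zero]
  · obtain ⟨r, rfl⟩ := hsR r
    obtain ⟨a, b, rfl⟩ := h'.surj r
    exact ⟨sM a, sM b, by rw [← dq₀, ← dq₁, map_add]⟩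

end Vale.Agent.P195
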