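import Vale.Agent.P195.KoszulF
import Vale.Agent.P195.Kos
import Vale.Agent.P195.Defs

/-!
# P195: the Koszul squares of `x, y` on morphisms

The arrows `x, y : v → ph v` make `H u v → (H u (ph v))² → H u (ph (ph v))` and
`H (ph (ph u)) v → (H (ph u) v)² → H u v` exact squares, once the last weight is positive and the
order at most two: it holds for operators, passes to the bimodule as the relations are injective
(`rel_injective`), and to the extension.
-/

noncomputable section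

namespace Vale.Agent.P195

variable (u v : Vtx)

/-- `x` as an arrow. -/
def xB₀ : B v (ph v) := ⟨X₀, by
  rw [B, show wt v (ph v) = 0 + 1 by ring, show od v (ph v) = 0 by ring]
  simpa using X₀_mul_mem one_mem_F⟩

/-- `y` as an arrow. -/
def xB₁ : B v (ph v) := ⟨X₁, by
  rw [B, show wt v (ph v) = 0 + 1 by ring, show od v (ph v) = 0 by ring]
  simpa using X₁_mul_mem one_mem_F⟩

/-- `x *`. -/
def opL₀ (k : ℤ) : F (wt u v) k →ₗ[ℚ] F (wt u (ph v)) k :=
  (LinearMap.mulLeft ℚ X₀).restrict fun _ hf => by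
    rw [show wt u (ph v) = wt u v + 1 by ring]; exact X₀_mul_mem hf

/-- `y *`. -/
def opL₁ (k : ℤ) : F (wt u v) k →ₗ[ℚ] F (wt u (ph v)) k :=
  (LinearMap.mulLeft ℚ X₁).restrict fun _ hf => by
    rw [show wt u (ph v) = wt u v + 1 by ring]; exact X₁_mul_mem hf

/-- `* x`. -/
def opR₀ (k : ℤ) : F (wt (ph u) v) k →ₗ[ℚ] F (wt u v) k :=
  (LinearMap.mulRight ℚ X₀).restrict fun _ hf => by
    rw [show wt u v = wt (ph u) v + 1 by ring]; exact mul_X₀_mem hf

/-- `* y`. -/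
def opR₁ (k : ℤ) : F (wt (ph u) v) k →ₗ[ℚ] F (wt u v) k :=
  (LinearMap.mulRight ℚ X₁).restrict fun _ hf => by
    rw [show wt u v = wt (ph u) v + 1 by ring]; exact mul_X₁_mem hf

theorem kosF_left (k : ℤ) (hw : -1 ≤ wt u v) :
    Kos (opL₀ u v k) (opL₁ u v k) (opL₀ u (ph v) k) (opL₁ u (ph v) k) := by
  have e1 : wt u (ph (ph v)) - 1 = wt u (ph v) := by ring
  have e2 : wt u (ph (ph v)) - 2 = wt u v := by ring
  have h1 : 1 ≤ wt u (ph (ph v)) := by simp only [wt] at hw ⊢; omega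
  refine ⟨fun x => Subtype.ext ?_, fun x h _ => Subtype.ext (X₀_mul_cancel ?_),
    fun m₀ m₁ h => ?_, fun r => ?_⟩
  · show X₀ * (X₁ * x.1) = X₁ * (X₀ * x.1)
    rw [← mul_assoc, X₀_comm_X₁, mul_assoc]
  · exact (congrArg Subtype.val h).trans (mul_zero X₀).symm
  · obtain ⟨x, hx, h₁, h₀⟩ := leftK_mid (w := wt u (ph (ph v))) (k := k) (g₀ := m₀.1) (g₁ := m₁.1)
      (e1.symm ▸ m₀.2) (e1.symm ▸ m₁.2) (congrArg Subtype.val h)
    exact ⟨⟨x, e2 ▸ hx⟩, Subtype.ext h₁, Subtype.ext h₀⟩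
  · obtain ⟨g₀, h₀, g₁, h₁, e⟩ := leftK_surj h1 r.2
    exact ⟨⟨g₀, e1 ▸ h₀⟩, ⟨g₁, e1 ▸ h₁⟩, Subtype.ext e⟩

theorem kosF_right (k : ℤ) (hw : 1 ≤ wt u v) :
    Kos (opR₀ (ph u) v k) (opR₁ (ph u) v k) (opR₀ u v k) (opR₁ u v k) := by
  have e1 : wt u v - 1 = wt (ph u) v := by ring
  have e2 : wt u v - 2 = wt (ph (ph u)) v := by ring
  refine ⟨fun x => Subtype.ext ?_, fun x h _ => Subtype.ext (mul_X₀_cancel ?_),
    fun m₀ m₁ h => ?_, fun r => ?_⟩
  · show x.1 * X₁ * X₀ = x.1 * X₀ * X₁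
    rw [mul_assoc, mul_assoc, X₀_comm_X₁]
  · exact (congrArg Subtype.val h).trans (zero_mul X₀).symm
  · obtain ⟨x, hx, h₁, h₀⟩ := rightK_mid (w := wt u v) (k := k) (g₀ := m₀.1) (g₁ := m₁.1)
      hw (e1.symm ▸ m₀.2) (e1.symm ▸ m₁.2) (congrArg Subtype.val h)
    exact ⟨⟨x, e2 ▸ hx⟩, Subtype.ext h₁, Subtype.ext h₀⟩
  · obtain ⟨g₀, h₀, g₁, h₁, e⟩ := rightK_surj hw r.2
    exact ⟨⟨g₀, e1 ▸ h₀⟩, ⟨g₁, e1 ▸ h₁⟩, Subtype.ext e⟩

theorem rel_injective (hk : od u v ≤ 2) : Function.Injective (rel u v) := by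
  rw [← LinearMap.ker_eq_bot, LinearMap.ker_eq_bot']
  intro q h
  have e : ∀ i : Fin 3, (q i.castSucc).1 * eul' u.1 = (q i.succ).1 := fun i =>
    sub_eq_zero.1 (congrArg Subtype.val (congrFun h i))
  have e₁ : (q 0).1 * eul' u.1 = (q 1).1 := e 0
  have e₂ : (q 1).1 * eul' u.1 = (q 2).1 := e 1
  have e₃ : (q 2).1 * eul' u.1 = (q 3).1 := e 2
  have z : (q 0).1 = 0 := eul3_inj u.1 (q 0).2 hk (by rw [e₁, e₂, e₃]; exact (q 3).2)
  rw [z, zero_mul] at e₁
  rw [← e₁, zero_mul] at e₂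
  rw [← e₂, zero_mul] at e₃
  funext j
  fin_cases j
  · exact Subtype.ext z
  · exact Subtype.ext e₁.symm
  · exact Subtype.ext e₂.symm
  · exact Subtype.ext e₃.symm

theorem kosW_left (hw : -1 ≤ wt u v) (hk : od u v ≤ 2) :
    Kos (lmul (u := u) (xB₀ v)) (lmul (u := u) (xB₁ v)) (lmul (u := u) (xB₀ (ph v)))
      (lmul (u := u) (xB₁ (ph v))) :=
  Kos.quot ((kosF_left u v (od u v) hw).pi (Fin 4)) ((kosF_left u v (od u v + 1) hw).pi (Fin 3))
    (rel u v) (rel u (ph v)) (rel u (ph (ph v)))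
    (cls u v) (cls u (ph v)) (cls u (ph (ph v)))
    (LinearMap.exact_map_mkQ_range _) (LinearMap.exact_map_mkQ_range _)
    (LinearMap.exact_map_mkQ_range _)
    (Submodule.mkQ_surjective _) (Submodule.mkQ_surjective _) (Submodule.mkQ_surjective _)
    (rel_injective u (ph (ph v)) hk)
    (fun _ => funext fun _ => Subtype.ext
      ((mul_sub' _ _ _).trans (congrArg (· - _) (mul_assoc _ _ _).symm)))
    (fun _ => funext fun _ => Subtype.ext
      ((mul_sub' _ _ _).trans (congrArg (· - _) (mul_assoc _ _ _).symm)))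
    (fun _ => funext fun _ => Subtype.ext
      ((mul_sub' _ _ _).trans (congrArg (· - _) (mul_assoc _ _ _).symm)))
    (fun _ => funext fun _ => Subtype.ext
      ((mul_sub' _ _ _).trans (congrArg (· - _) (mul_assoc _ _ _).symm)))
    (fun _ => rfl) (fun _ => rfl) (fun _ => rfl) (fun _ => rfl)

theorem rel_mul_arrow {u u' : Vtx} (x : B u u') (f g : Op) :
    (f * eul' u'.1 - g) * x.1 = f * x.1 * eul' u.1 - g * x.1 := by
  rw [sub_mul', mul_assoc, eul'_mul x, ← mul_assoc]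

theorem kosW_right (hw : 1 ≤ wt u v) (hk : od u v ≤ 2) :
    Kos (rmul (x := v) (xB₀ (ph u))) (rmul (x := v) (xB₁ (ph u))) (rmul (x := v) (xB₀ u))
      (rmul (x := v) (xB₁ u)) :=
  Kos.quot ((kosF_right u v (od u v) hw).pi (Fin 4)) ((kosF_right u v (od u v + 1) hw).pi (Fin 3))
    (rel (ph (ph u)) v) (rel (ph u) v) (rel u v)
    (cls (ph (ph u)) v) (cls (ph u) v) (cls u v)
    (LinearMap.exact_map_mkQ_range _) (LinearMap.exact_map_mkQ_range _)
    (LinearMap.exact_map_mkQ_range _)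
    (Submodule.mkQ_surjective _) (Submodule.mkQ_surjective _) (Submodule.mkQ_surjective _)
    (rel_injective u v hk)
    (fun _ => funext fun _ => Subtype.ext (rel_mul_arrow (xB₀ (ph u)) _ _))
    (fun _ => funext fun _ => Subtype.ext (rel_mul_arrow (xB₁ (ph u)) _ _))
    (fun _ => funext fun _ => Subtype.ext (rel_mul_arrow (xB₀ u) _ _))
    (fun _ => funext fun _ => Subtype.ext (rel_mul_arrow (xB₁ u) _ _))
    (fun _ => rfl) (fun _ => rfl) (fun _ => rfl) (fun _ => rfl)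

/-- `x` in the extension. -/
def xH₀ : H v (ph v) := (xB₀ v, 0)

/-- `y` in the extension. -/
def xH₁ : H v (ph v) := (xB₁ v, 0)

/-- `x` and `y` commute. -/
theorem xH_comm : hcomp (xH₀ (ph v)) (xH₁ v) = hcomp (xH₁ (ph v)) (xH₀ v) := by
  have h : ¬(v.2 = 0 ∧ 0 < (ph (ph v)).2) := by simp only; omega
  rw [hcomp_apply, hcomp_apply, cocy_apply, cocy_apply, if_neg h, if_neg h]
  refine Prod.ext (Subtype.ext X₀_comm_X₁) ?_
  simp [xH₀, xH₁]

theorem kosB_left (hw : -1 ≤ wt u v) :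
    Kos (mulBL (u := u) (xB₀ v)) (mulBL (u := u) (xB₁ v)) (mulBL (u := u) (xB₀ (ph v)))
      (mulBL (u := u) (xB₁ (ph v))) :=
  kosF_left u v (od u v) hw

theorem kosB_right (hw : 1 ≤ wt u v) :
    Kos ((mulBL (x := v)).flip (xB₀ (ph u))) ((mulBL (x := v)).flip (xB₁ (ph u)))
      ((mulBL (x := v)).flip (xB₀ u)) ((mulBL (x := v)).flip (xB₁ u)) :=
  kosF_right u v (od u v) hw

theorem kosH_left (hw : -1 ≤ wt u v) (hk : od u v ≤ 2) (hu : 0 ≤ u.2) :
    Kos (hcomp (u := u) (xH₀ v)) (hcomp (u := u) (xH₁ v)) (hcomp (u := u) (xH₀ (ph v)))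
      (hcomp (u := u) (xH₁ (ph v))) := by
  have a : ∀ (y : Vtx) (g : B y (ph y)) (z : W u y),
      hcomp ((g, 0) : H y (ph y)) ((0, z) : H u y) = (0, lmul g z) := fun y g z => by
    rw [hcomp_apply]
    refine Prod.ext (Subtype.ext (mul_zero _)) ?_
    simp
  have b : ∀ (y : Vtx) (g : B y (ph y)) (f : H u y),
      (hcomp ((g, 0) : H y (ph y)) f).1 = mulBL g f.1 := fun y g f => by rw [hcomp_apply]; rfl
  refine (kosW_left u v hw hk).extend (kosB_left u v hw)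
    (LinearMap.inr ℚ _ _) (LinearMap.inr ℚ _ _) (LinearMap.inr ℚ _ _)
    (LinearMap.fst ℚ _ _) (LinearMap.fst ℚ _ _) (LinearMap.fst ℚ _ _)
    Function.Exact.inr_fst Function.Exact.inr_fst Function.Exact.inr_fst
    LinearMap.fst_surjective LinearMap.fst_surjective
    LinearMap.inr_injective LinearMap.inr_injective
    (a v _) (a v _) (a (ph v) _) (a (ph v) _) (b v _) (b v _) (b (ph v) _) (b (ph v) _)
    fun x => ?_
  have h₂ : -1 ≤ wt v (ph (ph v)) := by simp only [wt]; omega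
  have h₁ : -1 ≤ wt u (ph v) := by simp only [wt] at hw ⊢; omega
  rw [← hcomp_assoc _ _ x hu h₁ h₂, ← hcomp_assoc _ _ x hu h₁ h₂, xH_comm]

theorem kosH_right (hw : 1 ≤ wt u v) (hk : od u v ≤ 2) (hu : 0 ≤ u.2) :
    Kos ((hcomp (x := v)).flip (xH₀ (ph u))) ((hcomp (x := v)).flip (xH₁ (ph u)))
      ((hcomp (x := v)).flip (xH₀ u)) ((hcomp (x := v)).flip (xH₁ u)) := by
  have a : ∀ (y : Vtx) (g : B y (ph y)) (z : W (ph y) v),
      hcomp ((0, z) : H (ph y) v) ((g, 0) : H y (ph y)) = (0, rmul g z) := fun y g z => by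
    rw [hcomp_apply]
    refine Prod.ext (Subtype.ext (zero_mul _)) ?_
    simp
  have b : ∀ (y : Vtx) (g : B y (ph y)) (f : H (ph y) v),
      (hcomp f ((g, 0) : H y (ph y))).1 = mulBL.flip g f.1 := fun y g f => by
    rw [hcomp_apply]; rfl
  refine (kosW_right u v hw hk).extend (kosB_right u v hw)
    (LinearMap.inr ℚ _ _) (LinearMap.inr ℚ _ _) (LinearMap.inr ℚ _ _)
    (LinearMap.fst ℚ _ _) (LinearMap.fst ℚ _ _) (LinearMap.fst ℚ _ _)
    Function.Exact.inr_fst Function.Exact.inr_fst Function.Exact.inr_fst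
    LinearMap.fst_surjective LinearMap.fst_surjective
    LinearMap.inr_injective LinearMap.inr_injective
    (a (ph u) _) (a (ph u) _) (a u _) (a u _) (b (ph u) _) (b (ph u) _) (b u _) (b u _)
    fun x => ?_
  show hcomp (hcomp x (xH₁ (ph u))) (xH₀ u) = hcomp (hcomp x (xH₀ (ph u))) (xH₁ u)
  have h₁ : -1 ≤ wt u (ph (ph u)) := by simp only [wt]; omega
  have h₂ : -1 ≤ wt (ph u) v := by simp only [wt] at hw ⊢; omega
  rw [hcomp_assoc x _ _ hu h₁ h₂, hcomp_assoc x _ _ hu h₁ h₂, xH_comm]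

end Vale.Agent.P195
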