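import Vale.Agent.P195.AExt.Bind
import Vale.Agent.P195.ExtA
import Vale.Agent.P195.HomY.Vanish

/-!
# P195: the Auslander-Reiten conjecture fails

Over `catA.Alg` the module `M = Y (-5)` has no higher self-extensions (the family lemma along the
orbit `Y (-5-d)`), none into the algebra, and is not projective.
-/

noncomputable section

namespace Vale.Agent.P195

open AExt Res

/-- `Ext^{≥1}(Y (-5-d), M) = 0`. -/
theorem extVan_orbit : ∀ i d : ℕ,
    ExtVan catA.Alg (repY (nn (4 + d))).Tot (repY (nn 4)).Tot (i + 1) :=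
  extVan_repY (m₀ := nn 4) (N := fun d => nn (4 + d)) (I := fun d => GI (4 + d))
    (g := fun d => gI (4 + d)) (m := fun d => mI (4 + d)) (e := fun d => eps (4 + d))
    (z := fun d => zI (N := 4 + d) (Nat.le_add_right 4 d))
    (fun d => factsI (N := 4 + d) (Nat.le_add_right 4 d))
    (fun d l y hy => cocycle_glued (N := 4 + d) (N' := 4) (by omega) (by omega) (by omega) l y hy)
    fun d φ u x => HomY.hom_vanish (N := 4 + (d + 1)) (N' := 4) (by omega) (by omega) φ u x

/-- `Ext^{≥1}(M, M) = 0`. -/
theorem extVan_M_self (i : ℕ) : ExtVan catA.Alg repM.Tot repM.Tot (i + 1) := by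
  have e : (nn 4 : ℤ) = -5 := by norm_num [nn]
  have h := extVan_orbit i 0
  rw [e] at h
  exact h

/-- A counterexample to the Auslander-Reiten conjecture over `ℚ`. -/
theorem arFails : ARFails ℚ := by
  refine ⟨catA.Alg, inferInstance, inferInstance, repM.Tot, inferInstance, inferInstance,
    inferInstance, inferInstance, not_projective_M, fun i hi => ?_⟩
  obtain ⟨j, rfl⟩ := Nat.exists_eq_add_of_le' hi
  exact ⟨extVan_M_self j, extVan_M_alg j⟩

end Vale.Agent.P195
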