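import Vale.Agent.P195.Hom

/-!
# P195: the cocycle and the square-zero extension

For composable `f : u → v`, `g : v → x` with `b u = 0 < b x` the cocycle is `-iota` of `D σg · σf(0)`
if `b v > 0` and of `σg(0) · D σf` if `b v = 0`, where `D p = (p - p(0)) / z`. Associativity is
Leibniz' rule for `D`.
-/

noncomputable section

namespace Vale.Agent.P195

open Polynomial

variable {u v x y : Vtx}

/-- `D (p q) = D p · q(0) + p · D q`. -/
theorem divX_mul (p q : ℚ[X]) : (p * q).divX = p.divX * C (q.coeff 0) + p * q.divX := by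
  apply mul_left_cancel₀ (X_ne_zero (R := ℚ))
  have hp := X_mul_divX_add p
  have hq := X_mul_divX_add q
  have hpq := X_mul_divX_add (p * q)
  rw [mul_coeff_zero, C_mul] at hpq
  linear_combination hpq - C (q.coeff 0) * hp - p * hq

/-- The symbol of a morphism. -/
abbrev sg (f : B u v) : ℚ[X] := sym (od u v).toNat f.1

/-- The argument of `iota` in the cocycle. -/
def omegaPoly (g : B v x) (f : B u v) : ℚ[X] :=
  if v.2 = 0 then C ((sg g).coeff 0) * (sg f).divX else (sg g).divX * C ((sg f).coeff 0)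

theorem omegaPoly_add_left (g g' : B v x) (f : B u v) :
    omegaPoly (g + g') f = omegaPoly g f + omegaPoly g' f := by
  unfold omegaPoly sg
  split <;> simp [divX_add, add_mul]

theorem omegaPoly_add_right (g : B v x) (f f' : B u v) :
    omegaPoly g (f + f') = omegaPoly g f + omegaPoly g f' := by
  unfold omegaPoly sg
  split <;> simp [divX_add, mul_add]

theorem omegaPoly_smul_left (r : ℚ) (g : B v x) (f : B u v) :
    omegaPoly (r • g) f = r • omegaPoly g f := by
  unfold omegaPoly sg
  split <;> simp [smul_eq_C_mul, divX_C_mul, mul_assoc]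

theorem omegaPoly_smul_right (r : ℚ) (g : B v x) (f : B u v) :
    omegaPoly g (r • f) = r • omegaPoly g f := by
  unfold omegaPoly sg
  split <;> simp [smul_eq_C_mul, divX_C_mul, mul_left_comm]

/-- `omegaPoly`, bilinearly. -/
def omegaLin : B v x →ₗ[ℚ] B u v →ₗ[ℚ] ℚ[X] :=
  LinearMap.mk₂ ℚ omegaPoly omegaPoly_add_left omegaPoly_smul_left omegaPoly_add_right
    omegaPoly_smul_right

/-- The cocycle. -/
def cocy : B v x →ₗ[ℚ] B u v →ₗ[ℚ] W u x :=
  if u.2 = 0 ∧ 0 < x.2 then omegaLin.compr₂ (-iota u x) else 0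

theorem cocy_apply (g : B v x) (f : B u v) :
    cocy g f = if u.2 = 0 ∧ 0 < x.2 then -iota u x (omegaPoly g f) else 0 := by
  unfold cocy
  split <;> rfl

theorem B_eq_zero (f : B u v) (h : od u v < 0 ∨ wt u v + od u v < 0) : f = 0 := by
  apply Subtype.ext
  exact (Submodule.mem_bot ℚ).1 (F_eq_bot h ▸ f.2)

theorem first_lmul (h : B x y) {P : Op} (hP : P ∈ F (wt u x) (od u x + 1)) :
    lmul h (first ⟨P, hP⟩) = first ⟨h.1 * P, mul_mem_B_succ_left h.2 hP⟩ := by
  rw [first, first, LinearMap.comp_apply, LinearMap.comp_apply, lmul_cls]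
  congr 1
  ext i : 2
  fin_cases i <;> simp [lmulTri]

theorem first_rmul (f : B u v) {P : Op} (hP : P ∈ F (wt v y) (od v y + 1)) :
    rmul f (first ⟨P, hP⟩) = first ⟨P * f.1, mul_mem_B_succ_right hP f.2⟩ := by
  rw [first, first, LinearMap.comp_apply, LinearMap.comp_apply, rmul_cls]
  congr 1
  ext i : 2
  fin_cases i <;> simp [rmulTri]

theorem mem_Sy {w j : ℤ} {p : ℚ[X]} :
    p ∈ Sy w j ↔ ∀ m : ℕ, w + 2 * j + 1 ≤ m → p.coeff m = 0 := by
  rw [Sy, mem_degreeLT, degree_lt_iff_coeff_zero]
  simp [Int.toNat_le]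

theorem iota_eq (p : ℚ[X]) :
    iota u x p = first ⟨lift (wt u x) (od u x - 1) p, F_le (by omega) (lift_mem _ _ p)⟩ := rfl

theorem lmul_iota (h : B x y) {p : ℚ[X]} (hw : -1 ≤ wt u x) (ho : 0 < od u x)
    (hp : p ∈ Sy (wt u x) (od u x - 1)) : lmul h (iota u x p) = iota u y (sg h * p) := by
  by_cases hxy : od x y < 0
  · simp [B_eq_zero h (Or.inl hxy), sg]
  by_cases hwj : 0 ≤ wt u x + (od u x - 1)
  · have hL := lift_mem (wt u x) (od u x - 1) p
    have hP : h.1 * lift (wt u x) (od u x - 1) p ∈ F (wt u y) (od u y - 1) := by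
      have e := mul_mem_F h.2 hL
      rwa [show wt u x + wt x y = wt u y by ring,
        show od u x - 1 + od x y = od u y - 1 by ring] at e
    rw [iota_eq, first_lmul, first_eq_iota hP]
    have e := sym_mul (k := od u x - 1) (k' := od x y) (by omega) (by omega) h.2 hL
    rw [show od u x - 1 + od x y = od u y - 1 by ring] at e
    rw [e, sym_lift (by omega) hwj hp]
  · have : p = 0 := Polynomial.ext fun m => by
      rw [mem_Sy.1 hp m (by omega), coeff_zero]
    simp [this]

theorem rmul_iota (f : B u v) {p : ℚ[X]} (hw : -1 ≤ wt v y) (ho : 0 < od v y)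
    (hp : p ∈ Sy (wt v y) (od v y - 1)) : rmul f (iota v y p) = iota u y (p * sg f) := by
  by_cases huv : od u v < 0
  · simp [B_eq_zero f (Or.inl huv), sg]
  by_cases hwj : 0 ≤ wt v y + (od v y - 1)
  · have hL := lift_mem (wt v y) (od v y - 1) p
    have hP : lift (wt v y) (od v y - 1) p * f.1 ∈ F (wt u y) (od u y - 1) := by
      have e := mul_mem_F hL f.2
      rwa [show wt u v + wt v y = wt u y by ring,
        show od u v + (od v y - 1) = od u y - 1 by ring] at e
    rw [iota_eq, first_rmul, first_eq_iota hP]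
    have e := sym_mul (k := od u v) (k' := od v y - 1) (by omega) (by omega) hL f.2
    rw [show od u v + (od v y - 1) = od u y - 1 by ring] at e
    rw [e, sym_lift (by omega) hwj hp]
  · have : p = 0 := Polynomial.ext fun m => by
      rw [mem_Sy.1 hp m (by omega), coeff_zero]
    simp [this]

theorem sg_coeff (f : B u v) {m : ℕ} (h : wt u v + 2 * od u v + 1 ≤ m) : (sg f).coeff m = 0 :=
  mem_Sy.1 (sym_mem f.2) m h

theorem omegaPoly_mem (g : B v x) (f : B u v) (hu : u.2 = 0) (hx : 0 < x.2) :
    omegaPoly g f ∈ Sy (wt u x) (od u x - 1) := by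
  rw [mem_Sy]
  intro m hm
  by_cases hf : od u v < 0 ∨ wt u v + od u v < 0
  · simp [omegaPoly, B_eq_zero f hf, sg]
  by_cases hg : od v x < 0 ∨ wt v x + od v x < 0
  · simp [omegaPoly, B_eq_zero g hg, sg]
  rw [not_or] at hf hg
  simp only [wt, od] at hm hf hg
  unfold omegaPoly
  split
  · rw [coeff_C_mul, coeff_divX, sg_coeff f (by simp only [wt, od]; omega), mul_zero]
  · rw [coeff_mul_C, coeff_divX, sg_coeff g (by simp only [wt, od]; omega), zero_mul]

/-- The product of two morphisms. -/
def mulB (g : B v x) (f : B u v) : B u x := ⟨g.1 * f.1, mul_mem_B g.2 f.2⟩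

theorem sg_mulB (g : B v x) (f : B u v) (h : 0 ≤ od u v) (h' : 0 ≤ od v x) :
    sg (mulB g f) = sg g * sg f := by
  have e := sym_mul h h' g.2 f.2
  rwa [show od u v + od v x = od u x by ring] at e

/-- The cocycle identity. -/
theorem cocy_cocycle (h : B x y) (g : B v x) (f : B u v) (hu0 : 0 ≤ u.2) (hux : -1 ≤ wt u x)
    (hvy : -1 ≤ wt v y) :
    rmul f (cocy h g) + cocy (mulB h g) f = lmul h (cocy g f) + cocy h (mulB g f) := by
  by_cases hf : od u v < 0
  · simp [B_eq_zero f (Or.inl hf), show mulB g (0 : B u v) = 0 from Subtype.ext (mul_zero _)]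
  by_cases hg : od v x < 0
  · simp [B_eq_zero g (Or.inl hg), show mulB (0 : B v x) f = 0 from Subtype.ext (zero_mul _),
      show mulB h (0 : B v x) = 0 from Subtype.ext (mul_zero _)]
  by_cases hh : od x y < 0
  · simp [B_eq_zero h (Or.inl hh), show mulB (0 : B x y) g = 0 from Subtype.ext (zero_mul _)]
  have e1 := sg_mulB g f (by omega) (by omega)
  have e2 := sg_mulB h g (by omega) (by omega)
  simp only [od] at hf hg hh
  by_cases hc : u.2 = 0 ∧ 0 < y.2
  swap
  · have a : ¬(v.2 = 0 ∧ 0 < y.2 ∧ u.2 = 0) := fun q => hc ⟨q.2.2, q.2.1⟩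
    simp only [cocy_apply, if_neg hc]
    rcases not_and_or.1 hc with hu | hy
    · rw [if_neg (by omega), if_neg (by omega)]
      simp
    · rw [if_neg (by omega), if_neg (by omega)]
      simp
  obtain ⟨hu, hy⟩ := hc
  simp only [cocy_apply, if_pos (And.intro hu hy)]
  have L : ∀ p ∈ Sy (wt u x) (od u x - 1), 0 < x.2 →
      lmul h (iota u x p) = iota u y (sg h * p) := fun p hp hx =>
    lmul_iota h hux (by simp only [od]; omega) hp
  by_cases hv : v.2 = 0
  · rw [if_pos (And.intro hv hy), map_neg,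
      rmul_iota f hvy (by simp only [od]; omega) (omegaPoly_mem h g hv hy)]
    by_cases hx : x.2 = 0
    · rw [if_neg (by omega), map_zero, zero_add, ← neg_add, ← map_add]
      congr 2
      simp only [omegaPoly, if_pos hv, if_pos hx, e1, e2, mul_coeff_zero, divX_mul, C_mul]
      linear_combination (C ((sg h).coeff 0) * (sg f).divX) * (X_mul_divX_add (sg g)) -
        (C ((sg h).coeff 0) * (sg g).divX) * (X_mul_divX_add (sg f))
    · rw [if_pos (And.intro hu (by omega)), map_neg, L _ (omegaPoly_mem g f hu (by omega))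
        (by omega), ← neg_add, ← neg_add, ← map_add, ← map_add]
      congr 2
      simp only [omegaPoly, if_pos hv, if_neg hx, e1, e2, mul_coeff_zero, C_mul]
      linear_combination
        (C ((sg g).coeff 0) * (sg f).divX) * (X_mul_divX_add (sg h)) -
          (C ((sg g).coeff 0) * (sg h).divX) * (X_mul_divX_add (sg f))
  · rw [if_neg (by omega), map_zero, zero_add, if_pos (And.intro hu (by omega)), map_neg,
      L _ (omegaPoly_mem g f hu (by omega)) (by omega), ← neg_add, ← map_add]
    congr 2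
    simp only [omegaPoly, if_neg hv, if_neg (show ¬x.2 = 0 by omega), e1, e2, mul_coeff_zero,
      divX_mul, C_mul]
    ring

end Vale.Agent.P195
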