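import Mathlib

/-!
# P195: differential operators in two variables and their symbols

Operators act on Laurent polynomials `T`. `F w k` is spanned by the monomials `x^p y^q ∂x^r ∂y^s`
with `p + q = w + r + s` and `r + s ≤ k`; `sym k` reads off the top symbol at `(x,y)=(1,z)`,
`(∂x,∂y)=(-z,1)`.
-/

noncomputable section

namespace Vale.Agent.P195

open Polynomial Finset

/-- Laurent polynomials, as exponent tables. -/
abbrev T : Type := (ℤ × ℤ) →₀ ℚ

/-- Operators on them. -/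
abbrev Op : Type := Module.End ℚ T

/-- Multiplication by `x`. -/
def X₀ : Op := Finsupp.lmapDomain ℚ ℚ fun e => (e.1 + 1, e.2)

/-- Multiplication by `y`. -/
def X₁ : Op := Finsupp.lmapDomain ℚ ℚ fun e => (e.1, e.2 + 1)

/-- `∂x`. -/
def D₀ : Op := Finsupp.linearCombination ℚ fun e : ℤ × ℤ => Finsupp.single (e.1 - 1, e.2) (e.1 : ℚ)

/-- `∂y`. -/
def D₁ : Op := Finsupp.linearCombination ℚ fun e : ℤ × ℤ => Finsupp.single (e.1, e.2 - 1) (e.2 : ℚ)

/-- `x^p y^q ∂x^r ∂y^s`. -/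
def mono (m : ℕ × ℕ × ℕ × ℕ) : Op := X₀ ^ m.1 * X₁ ^ m.2.1 * D₀ ^ m.2.2.1 * D₁ ^ m.2.2.2

/-- The exponents of weight `w` and order at most `k`. -/
def Idx (w k : ℤ) : Set (ℕ × ℕ × ℕ × ℕ) :=
  {m | (m.1 : ℤ) + m.2.1 = w + m.2.2.1 + m.2.2.2 ∧ (m.2.2.1 : ℤ) + m.2.2.2 ≤ k}

/-- Operators of weight `w` and order at most `k`. -/
def F (w k : ℤ) : Submodule ℚ Op := Submodule.span ℚ (mono '' Idx w k)

instance F_addCommGroup (w k : ℤ) : AddCommGroup (F w k) := Submodule.addCommGroup _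

/-- The Euler operator. -/
def eul : Op := X₀ * D₀ + X₁ * D₁

/-- The Euler operator minus the degree of the source. -/
def eul' (a : ℤ) : Op := eul - (a : ℚ) • 1

/-- The value at `(1, z)`. -/
def ev : T →ₗ[ℚ] ℚ[X] := Finsupp.linearCombination ℚ fun e : ℤ × ℤ => (X : ℚ[X]) ^ e.2.toNat

/-- `(1/k!) P ((y - z x)^k)` at `(1, z)`. -/
def sym (k : ℕ) : Op →ₗ[ℚ] ℚ[X] :=
  ∑ i ∈ range (k + 1),
    (LinearMap.mulLeft ℚ (C ((i.factorial * (k - i).factorial : ℕ) : ℚ)⁻¹ * (-X) ^ i)).comp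
      (ev.comp (LinearMap.applyₗ (Finsupp.single ((i : ℤ), ((k - i : ℕ) : ℤ)) (1 : ℚ))))

/-- A preimage of `z^e` under the symbol, in weight `w` and order `j`. -/
def liftMono (w j : ℤ) (e : ℕ) : Op :=
  if (e : ℤ) ≤ w + j then mono ((w + j - e).toNat, e, 0, j.toNat)
  else (-1 : ℚ) ^ (e - (w + j).toNat) •
    mono (0, (w + j).toNat, e - (w + j).toNat, j.toNat - (e - (w + j).toNat))

/-- The same, linearly; zero outside `0 ≤ j`, `0 ≤ w + j`, `e ≤ w + 2 j`. -/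
def lift (w j : ℤ) : ℚ[X] →ₗ[ℚ] Op :=
  Polynomial.lsum fun e => LinearMap.toSpanSingleton ℚ Op
    (if 0 ≤ j ∧ 0 ≤ w + j ∧ (e : ℤ) ≤ w + 2 * j then liftMono w j e else 0)

/-- Polynomials that are symbols in weight `w` and order `j`. -/
def Sy (w j : ℤ) : Submodule ℚ ℚ[X] := Polynomial.degreeLT ℚ (w + 2 * j + 1).toNat

end Vale.Agent.P195
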