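import Vale.Agent.P195.Ops

/-!
# P195: products, symbols and lifts of operators

Everything is read off the value of `x^p y^q ∂x^r ∂y^s` on a monomial (`mono_single`).
-/

noncomputable section

namespace Vale.Agent.P195

open Polynomial

/-- `n (n - 1) ⋯ (n - r + 1)`. -/
def ff (n : ℤ) (r : ℕ) : ℚ := ∏ i ∈ Finset.range r, ((n : ℚ) - i)

theorem ff_zero (n : ℤ) : ff n 0 = 1 := by simp [ff]

theorem ff_succ (n : ℤ) (r : ℕ) : ff n (r + 1) = ff n r * ((n : ℚ) - r) := by
  simp [ff, Finset.prod_range_succ]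

theorem ff_eq_zero {n : ℤ} {r : ℕ} (h0 : 0 ≤ n) (h : n < r) : ff n r = 0 := by
  obtain ⟨i, rfl⟩ := Int.eq_ofNat_of_zero_le h0
  exact Finset.prod_eq_zero (i := i) (Finset.mem_range.2 (by omega)) (by simp)

theorem ff_self_ne_zero (r : ℕ) : ff r r ≠ 0 := by
  refine Finset.prod_ne_zero_iff.2 fun i hi => sub_ne_zero.2 ?_
  have := Finset.mem_range.1 hi
  exact_mod_cast (show (r : ℤ) ≠ i by omega)

/-! ### Values on monomials -/

theorem X₀_single (e : ℤ × ℤ) (c : ℚ) :
    X₀ (Finsupp.single e c) = Finsupp.single (e.1 + 1, e.2) c := by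
  simp [X₀]

theorem X₁_single (e : ℤ × ℤ) (c : ℚ) :
    X₁ (Finsupp.single e c) = Finsupp.single (e.1, e.2 + 1) c := by
  simp [X₁]

theorem D₀_single (e : ℤ × ℤ) (c : ℚ) :
    D₀ (Finsupp.single e c) = Finsupp.single (e.1 - 1, e.2) ((e.1 : ℚ) * c) := by
  simp [D₀, mul_comm]

theorem D₁_single (e : ℤ × ℤ) (c : ℚ) :
    D₁ (Finsupp.single e c) = Finsupp.single (e.1, e.2 - 1) ((e.2 : ℚ) * c) := by
  simp [D₁, mul_comm]

theorem X₀_pow_single (p : ℕ) (e : ℤ × ℤ) (c : ℚ) :
    (X₀ ^ p) (Finsupp.single e c) = Finsupp.single (e.1 + p, e.2) c := by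
  induction p with
  | zero => simp
  | succ p ih =>
    rw [pow_succ', Module.End.mul_apply, ih, X₀_single]
    congr 2
    simp [add_assoc]

theorem X₁_pow_single (q : ℕ) (e : ℤ × ℤ) (c : ℚ) :
    (X₁ ^ q) (Finsupp.single e c) = Finsupp.single (e.1, e.2 + q) c := by
  induction q with
  | zero => simp
  | succ q ih =>
    rw [pow_succ', Module.End.mul_apply, ih, X₁_single]
    congr 2
    simp [add_assoc]

theorem D₀_pow_single (r : ℕ) (e : ℤ × ℤ) (c : ℚ) :
    (D₀ ^ r) (Finsupp.single e c) = Finsupp.single (e.1 - r, e.2) (ff e.1 r * c) := by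
  induction r with
  | zero => simp [ff_zero]
  | succ r ih =>
    rw [pow_succ', Module.End.mul_apply, ih, D₀_single, ff_succ]
    congr 1
    · simp only [Prod.mk.injEq, and_true]; push_cast; ring
    · push_cast; ring

theorem D₁_pow_single (s : ℕ) (e : ℤ × ℤ) (c : ℚ) :
    (D₁ ^ s) (Finsupp.single e c) = Finsupp.single (e.1, e.2 - s) (ff e.2 s * c) := by
  induction s with
  | zero => simp [ff_zero]
  | succ s ih =>
    rw [pow_succ', Module.End.mul_apply, ih, D₁_single, ff_succ]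
    congr 1
    · simp only [Prod.mk.injEq, true_and]; push_cast; ring
    · push_cast; ring

theorem mono_single (p q r s : ℕ) (e : ℤ × ℤ) (c : ℚ) :
    mono (p, q, r, s) (Finsupp.single e c) =
      Finsupp.single (e.1 - r + p, e.2 - s + q) (ff e.1 r * ff e.2 s * c) := by
  simp only [mono, Module.End.mul_apply, D₁_pow_single, D₀_pow_single, X₁_pow_single,
    X₀_pow_single, mul_assoc]

theorem eul_single (e : ℤ × ℤ) (c : ℚ) :
    eul (Finsupp.single e c) = Finsupp.single e (((e.1 : ℚ) + e.2) * c) := by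
  simp only [eul, LinearMap.add_apply, Module.End.mul_apply, D₀_single, D₁_single, X₀_single,
    X₁_single, sub_add_cancel, Prod.mk.eta, ← Finsupp.single_add, add_mul]

theorem eul'_single (a : ℤ) (e : ℤ × ℤ) (c : ℚ) :
    eul' a (Finsupp.single e c) = Finsupp.single e (((e.1 : ℚ) + e.2 - a) * c) := by
  simp only [eul', LinearMap.sub_apply, LinearMap.smul_apply, Module.End.one_apply, eul_single,
    Finsupp.smul_single, smul_eq_mul, ← Finsupp.single_sub, sub_mul]

theorem mono_zero : mono (0, 0, 0, 0) = 1 := by simp [mono]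

theorem X₀_mul_mono (p q r s : ℕ) : X₀ * mono (p, q, r, s) = mono (p + 1, q, r, s) := by
  simp [mono, pow_succ', mul_assoc]

theorem X₁_mul_mono (p q r s : ℕ) : X₁ * mono (p, q, r, s) = mono (p, q + 1, r, s) := by
  refine Finsupp.lhom_ext fun e c => ?_
  simp only [Module.End.mul_apply, mono_single, X₁_single]
  congr 2
  push_cast; ring

theorem D₀_mul_mono (p q r s : ℕ) :
    D₀ * mono (p, q, r, s) = mono (p, q, r + 1, s) + (p : ℚ) • mono (p - 1, q, r, s) := by
  refine Finsupp.lhom_ext fun e c => ?_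
  cases p with
  | zero =>
    simp only [Module.End.mul_apply, mono_single, D₀_single, ff_succ, Nat.cast_zero, zero_smul,
      add_zero]
    congr 1
    · simp only [Prod.mk.injEq, and_true]; push_cast; ring
    · push_cast; ring
  | succ p =>
    simp only [Module.End.mul_apply, LinearMap.add_apply, LinearMap.smul_apply, mono_single,
      D₀_single, ff_succ, Finsupp.smul_single, smul_eq_mul, Nat.add_sub_cancel]
    rw [show e.1 - ((r + 1 : ℕ) : ℤ) + ((p + 1 : ℕ) : ℤ) = e.1 - r + p by omega,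
      show e.1 - (r : ℤ) + ((p + 1 : ℕ) : ℤ) - 1 = e.1 - r + p by omega, ← Finsupp.single_add]
    congr 1
    push_cast; ring

theorem D₁_mul_mono (p q r s : ℕ) :
    D₁ * mono (p, q, r, s) = mono (p, q, r, s + 1) + (q : ℚ) • mono (p, q - 1, r, s) := by
  refine Finsupp.lhom_ext fun e c => ?_
  cases q with
  | zero =>
    simp only [Module.End.mul_apply, mono_single, D₁_single, ff_succ, Nat.cast_zero, zero_smul,
      add_zero]
    congr 1
    · simp only [Prod.mk.injEq, true_and]; push_cast; ring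
    · push_cast; ring
  | succ q =>
    simp only [Module.End.mul_apply, LinearMap.add_apply, LinearMap.smul_apply, mono_single,
      D₁_single, ff_succ, Finsupp.smul_single, smul_eq_mul, Nat.add_sub_cancel]
    rw [show e.2 - ((s + 1 : ℕ) : ℤ) + ((q + 1 : ℕ) : ℤ) = e.2 - s + q by omega,
      show e.2 - (s : ℤ) + ((q + 1 : ℕ) : ℤ) - 1 = e.2 - s + q by omega, ← Finsupp.single_add]
    congr 1
    push_cast; ring

/-! ### Membership -/

variable {w w' k k' j : ℤ} {f g : Op}

theorem F_le_of_mem (hf : f ∈ F w k) (S : Submodule ℚ Op) (h : ∀ m ∈ Idx w k, mono m ∈ S) :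
    f ∈ S :=
  Submodule.span_le.2 (Set.forall_mem_image.2 h) hf

theorem F_eq_of_mono {M : Type*} [AddCommMonoid M] [Module ℚ M] (hf : f ∈ F w k)
    (φ ψ : Op →ₗ[ℚ] M) (h : ∀ m ∈ Idx w k, φ (mono m) = ψ (mono m)) : φ f = ψ f :=
  LinearMap.eqOn_span (Set.forall_mem_image.2 h) hf

theorem mono_mem {m : ℕ × ℕ × ℕ × ℕ} (h : m ∈ Idx w k) : mono m ∈ F w k :=
  Submodule.subset_span ⟨m, h, rfl⟩

theorem F_le (h : k ≤ k') : F w k ≤ F w k' :=
  Submodule.span_mono (Set.image_mono fun _ hm => ⟨hm.1, hm.2.trans h⟩)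

theorem F_eq_bot (h : k < 0 ∨ w + k < 0) : F w k = ⊥ := by
  refine le_bot_iff.1 (Submodule.span_le.2 (Set.forall_mem_image.2 fun m hm => ?_))
  obtain ⟨h1, h2⟩ := hm
  omega

theorem one_mem_F : (1 : Op) ∈ F 0 0 := by
  rw [← mono_zero]
  exact mono_mem ⟨by simp, by simp⟩

theorem X₀_mul_mem (hf : f ∈ F w k) : X₀ * f ∈ F (w + 1) k :=
  F_le_of_mem hf ((F (w + 1) k).comap (LinearMap.mulLeft ℚ X₀)) fun ⟨p, q, r, s⟩ hm => by
    simp only [Idx, Set.mem_ofPred_eq] at hm
    rw [Submodule.mem_comap, LinearMap.mulLeft_apply, X₀_mul_mono]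
    exact mono_mem ⟨by push_cast; omega, by push_cast; omega⟩

theorem X₁_mul_mem (hf : f ∈ F w k) : X₁ * f ∈ F (w + 1) k :=
  F_le_of_mem hf ((F (w + 1) k).comap (LinearMap.mulLeft ℚ X₁)) fun ⟨p, q, r, s⟩ hm => by
    simp only [Idx, Set.mem_ofPred_eq] at hm
    rw [Submodule.mem_comap, LinearMap.mulLeft_apply, X₁_mul_mono]
    exact mono_mem ⟨by push_cast; omega, by push_cast; omega⟩

theorem D₀_mul_mem (hf : f ∈ F w k) : D₀ * f ∈ F (w - 1) (k + 1) :=
  F_le_of_mem hf ((F (w - 1) (k + 1)).comap (LinearMap.mulLeft ℚ D₀)) fun ⟨p, q, r, s⟩ hm => by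
    simp only [Idx, Set.mem_ofPred_eq] at hm
    rw [Submodule.mem_comap, LinearMap.mulLeft_apply, D₀_mul_mono]
    refine add_mem (mono_mem ⟨by push_cast; omega, by push_cast; omega⟩) ?_
    cases p with
    | zero => simp
    | succ p =>
      exact Submodule.smul_mem _ _
        (mono_mem ⟨by push_cast at hm ⊢; omega, by push_cast at hm ⊢; omega⟩)

theorem D₁_mul_mem (hf : f ∈ F w k) : D₁ * f ∈ F (w - 1) (k + 1) :=
  F_le_of_mem hf ((F (w - 1) (k + 1)).comap (LinearMap.mulLeft ℚ D₁)) fun ⟨p, q, r, s⟩ hm => by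
    simp only [Idx, Set.mem_ofPred_eq] at hm
    rw [Submodule.mem_comap, LinearMap.mulLeft_apply, D₁_mul_mono]
    refine add_mem (mono_mem ⟨by push_cast; omega, by push_cast; omega⟩) ?_
    cases q with
    | zero => simp
    | succ q =>
      exact Submodule.smul_mem _ _
        (mono_mem ⟨by push_cast at hm ⊢; omega, by push_cast at hm ⊢; omega⟩)

theorem X₀_pow_mul_mem (p : ℕ) (hf : f ∈ F w k) : X₀ ^ p * f ∈ F (w + p) k := by
  induction p with
  | zero => simpa using hf
  | succ p ih =>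
    rw [pow_succ', mul_assoc, show w + ((p + 1 : ℕ) : ℤ) = w + p + 1 by push_cast; ring]
    exact X₀_mul_mem ih

theorem X₁_pow_mul_mem (q : ℕ) (hf : f ∈ F w k) : X₁ ^ q * f ∈ F (w + q) k := by
  induction q with
  | zero => simpa using hf
  | succ q ih =>
    rw [pow_succ', mul_assoc, show w + ((q + 1 : ℕ) : ℤ) = w + q + 1 by push_cast; ring]
    exact X₁_mul_mem ih

theorem D₀_pow_mul_mem (r : ℕ) (hf : f ∈ F w k) : D₀ ^ r * f ∈ F (w - r) (k + r) := by
  induction r with
  | zero => simpa using hf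
  | succ r ih =>
    rw [pow_succ', mul_assoc, show w - ((r + 1 : ℕ) : ℤ) = w - r - 1 by push_cast; ring,
      show k + ((r + 1 : ℕ) : ℤ) = k + r + 1 by push_cast; ring]
    exact D₀_mul_mem ih

theorem D₁_pow_mul_mem (s : ℕ) (hf : f ∈ F w k) : D₁ ^ s * f ∈ F (w - s) (k + s) := by
  induction s with
  | zero => simpa using hf
  | succ s ih =>
    rw [pow_succ', mul_assoc, show w - ((s + 1 : ℕ) : ℤ) = w - s - 1 by push_cast; ring,
      show k + ((s + 1 : ℕ) : ℤ) = k + s + 1 by push_cast; ring]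
    exact D₁_mul_mem ih

theorem mono_mul_mem (p q r s : ℕ) (hf : f ∈ F w k) :
    mono (p, q, r, s) * f ∈ F (w - s - r + q + p) (k + s + r) := by
  simp only [mono, mul_assoc]
  exact X₀_pow_mul_mem p (X₁_pow_mul_mem q (D₀_pow_mul_mem r (D₁_pow_mul_mem s hf)))

theorem mul_mem_F (hg : g ∈ F w' k') (hf : f ∈ F w k) : g * f ∈ F (w + w') (k + k') :=
  F_le_of_mem hg ((F (w + w') (k + k')).comap (LinearMap.mulRight ℚ f)) fun ⟨p, q, r, s⟩ hm => by
    simp only [Idx, Set.mem_ofPred_eq] at hm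
    rw [Submodule.mem_comap, LinearMap.mulRight_apply,
      show w + w' = w - s - r + q + p by omega]
    exact F_le (by omega) (mono_mul_mem p q r s hf)

theorem eul'_mem (a : ℤ) : eul' a ∈ F 0 1 := by
  refine sub_mem (add_mem ?_ ?_) (Submodule.smul_mem _ _ (F_le zero_le_one one_mem_F))
  · rw [show X₀ * D₀ = mono (1, 0, 1, 0) by simp [mono]]
    exact mono_mem ⟨by simp, by simp⟩
  · rw [show X₁ * D₁ = mono (0, 1, 0, 1) by simp [mono]]
    exact mono_mem ⟨by simp, by simp⟩

theorem eul'_comm (a : ℤ) (hf : f ∈ F w k) : eul' (a + w) * f = f * eul' a := by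
  refine F_eq_of_mono hf (LinearMap.mulLeft ℚ (eul' (a + w))) (LinearMap.mulRight ℚ (eul' a))
    fun ⟨p, q, r, s⟩ hm => Finsupp.lhom_ext fun e c => ?_
  simp only [Idx, Set.mem_ofPred_eq] at hm
  simp only [LinearMap.mulLeft_apply, LinearMap.mulRight_apply, Module.End.mul_apply, mono_single,
    eul'_single]
  congr 1
  have h : (p : ℚ) + q = w + r + s := by exact_mod_cast hm.1
  push_cast
  linear_combination (ff e.1 r * ff e.2 s * c) * h

/-! ### Supports -/

theorem apply_mem_supported_of_single {s t : Set (ℤ × ℤ)} {x : T}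
    (h : ∀ e ∈ s, f (Finsupp.single e 1) ∈ Finsupp.supported ℚ ℚ t)
    (hx : x ∈ Finsupp.supported ℚ ℚ s) : f x ∈ Finsupp.supported ℚ ℚ t := by
  rw [Finsupp.supported_eq_span_single] at hx
  have : Submodule.span ℚ ((fun i => Finsupp.single i (1 : ℚ)) '' s) ≤
      (Finsupp.supported ℚ ℚ t).comap f := Submodule.span_le.2 (Set.forall_mem_image.2 h)
  exact this hx

theorem apply_supported (hf : f ∈ F w k) {d : ℤ} {x : T}
    (hx : x ∈ Finsupp.supported ℚ ℚ {e : ℤ × ℤ | e.1 + e.2 = d}) :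
    f x ∈ Finsupp.supported ℚ ℚ {e : ℤ × ℤ | e.1 + e.2 = d + w} := by
  refine apply_mem_supported_of_single (fun e he => ?_) hx
  refine F_le_of_mem hf ((Finsupp.supported ℚ ℚ _).comap (LinearMap.applyₗ (Finsupp.single e 1)))
    fun ⟨p, q, r, s⟩ hm => ?_
  simp only [Idx, Set.mem_ofPred_eq] at hm he
  rw [Submodule.mem_comap, LinearMap.applyₗ_apply_apply, mono_single]
  exact Finsupp.single_mem_supported ℚ _ (by simp only [Set.mem_ofPred_eq]; omega)

theorem apply_nonneg (hf : f ∈ F w k) {x : T}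
    (hx : x ∈ Finsupp.supported ℚ ℚ {e : ℤ × ℤ | 0 ≤ e.1 ∨ 0 ≤ e.2}) :
    f x ∈ Finsupp.supported ℚ ℚ {e : ℤ × ℤ | 0 ≤ e.1 ∨ 0 ≤ e.2} := by
  refine apply_mem_supported_of_single (fun e he => ?_) hx
  refine F_le_of_mem hf ((Finsupp.supported ℚ ℚ _).comap (LinearMap.applyₗ (Finsupp.single e 1)))
    fun ⟨p, q, r, s⟩ _ => ?_
  rw [Submodule.mem_comap, LinearMap.applyₗ_apply_apply, mono_single]
  by_cases h : (0 ≤ e.1 - r + p ∨ 0 ≤ e.2 - s + q)
  · exact Finsupp.single_mem_supported ℚ _ h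
  · suffices ff e.1 r * ff e.2 s = 0 by simp [this]
    push Not at h
    rcases he with he | he
    · rw [ff_eq_zero he (by omega), zero_mul]
    · rw [ff_eq_zero he (by omega), mul_zero]

/-! ### Symbols -/

theorem ev_single (e : ℤ × ℤ) (c : ℚ) :
    ev (Finsupp.single e c) = c • (X : ℚ[X]) ^ e.2.toNat := by
  simp [ev]

theorem sym_apply (K : ℕ) (h : Op) :
    sym K h = ∑ i ∈ Finset.range (K + 1),
      C ((i.factorial * (K - i).factorial : ℕ) : ℚ)⁻¹ * (-X) ^ i *
        ev (h (Finsupp.single ((i : ℤ), ((K - i : ℕ) : ℤ)) 1)) := by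
  simp only [sym, LinearMap.sum_apply, LinearMap.comp_apply, LinearMap.mulLeft_apply,
    LinearMap.applyₗ_apply_apply]

theorem ev_apply_single (h : Op) (e : ℤ × ℤ) (c : ℚ) :
    ev (h (Finsupp.single e c)) = C c * ev (h (Finsupp.single e 1)) := by
  rw [← smul_eq_C_mul, ← map_smul, ← map_smul, Finsupp.smul_single, smul_eq_mul, mul_one]

theorem sym_mul_D₁ (K : ℕ) (h : Op) : sym (K + 1) (h * D₁) = sym K h := by
  rw [sym_apply, sym_apply, Finset.sum_range_succ]
  simp only [Module.End.mul_apply, D₁_single, Nat.sub_self, Nat.cast_zero, Int.cast_zero, zero_mul,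
    Finsupp.single_zero, map_zero, mul_zero, add_zero]
  refine Finset.sum_congr rfl fun i hi => ?_
  have hi : i ≤ K := Nat.lt_succ_iff.1 (Finset.mem_range.1 hi)
  rw [Nat.sub_add_comm hi, ev_apply_single,
    show ((K - i + 1 : ℕ) : ℤ) - 1 = ((K - i : ℕ) : ℤ) by omega, ← mul_assoc,
    mul_right_comm (C _) ((-X) ^ i) (C _), ← C_mul]
  congr 3
  rw [Nat.factorial_succ]
  push_cast
  field_simp

theorem sym_mul_D₀ (K : ℕ) (h : Op) : sym (K + 1) (h * D₀) = -X * sym K h := by
  rw [sym_apply, sym_apply, Finset.sum_range_succ', Finset.mul_sum]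
  simp only [Module.End.mul_apply, D₀_single, Nat.cast_zero, Int.cast_zero, zero_mul,
    Finsupp.single_zero, map_zero, mul_zero, add_zero]
  refine Finset.sum_congr rfl fun i _ => ?_
  rw [Nat.add_sub_add_right, ev_apply_single,
    show ((i + 1 : ℕ) : ℤ) - 1 = (i : ℤ) by omega,
    show (C ((i.factorial * (K - i).factorial : ℕ) : ℚ)⁻¹ : ℚ[X]) =
      C (((i + 1).factorial * (K - i).factorial : ℕ) : ℚ)⁻¹ * C ((((i + 1 : ℕ) : ℤ) : ℚ) * 1) by
      rw [← C_mul, Nat.factorial_succ]; congr 1; push_cast; field_simp]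
  ring

theorem sym_mul_D₀_pow (L r : ℕ) (h : Op) : sym (L + r) (h * D₀ ^ r) = (-X) ^ r * sym L h := by
  induction r with
  | zero => simp
  | succ r ih => rw [pow_succ, ← mul_assoc, ← add_assoc, sym_mul_D₀, ih, pow_succ']; ring

theorem sym_mul_D₁_pow (L s : ℕ) (h : Op) : sym (L + s) (h * D₁ ^ s) = sym L h := by
  induction s with
  | zero => simp
  | succ s ih => rw [pow_succ, ← mul_assoc, ← add_assoc, sym_mul_D₁, ih]

theorem sum_alternating_inv (L : ℕ) :
    ∑ i ∈ Finset.range (L + 1), ((i.factorial * (L - i).factorial : ℕ) : ℚ)⁻¹ * (-1) ^ i =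
      if L = 0 then 1 else 0 := by
  have h : ((L.factorial : ℚ))⁻¹ * ((∑ i ∈ Finset.range (L + 1),
      (-1 : ℤ) ^ i * (L.choose i : ℤ) : ℤ) : ℚ) = if L = 0 then 1 else 0 := by
    rw [Int.alternating_sum_range_choose]
    split_ifs with h <;> simp [h]
  rw [← h]
  push_cast
  rw [Finset.mul_sum]
  refine Finset.sum_congr rfl fun i hi => ?_
  rw [Nat.cast_choose ℚ (Nat.lt_succ_iff.1 (Finset.mem_range.1 hi))]
  field_simp

theorem sym_mono {K : ℕ} {m : ℕ × ℕ × ℕ × ℕ} (h : m.2.2.1 + m.2.2.2 ≤ K) :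
    sym K (mono m) =
      if m.2.2.1 + m.2.2.2 = K then (-1) ^ m.2.2.1 * X ^ (m.2.1 + m.2.2.1) else 0 := by
  obtain ⟨p, q, r, s⟩ := m
  obtain ⟨L, rfl⟩ := Nat.exists_eq_add_of_le h
  have base : sym L (X₀ ^ p * X₁ ^ q) = C (if L = 0 then 1 else 0) * X ^ (L + q) := by
    rw [sym_apply, ← sum_alternating_inv, map_sum, Finset.sum_mul]
    refine Finset.sum_congr rfl fun i hi => ?_
    have hi : i ≤ L := Nat.lt_succ_iff.1 (Finset.mem_range.1 hi)
    rw [Module.End.mul_apply, X₁_pow_single, X₀_pow_single, ev_single, one_smul, C_mul, C_pow,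
      C_neg, C_1, show ((((L - i : ℕ) : ℤ) + q).toNat) = L - i + q by omega,
      show L + q = i + (L - i + q) by omega, pow_add X i, neg_pow]
    ring
  change sym (r + s + L) (X₀ ^ p * X₁ ^ q * D₀ ^ r * D₁ ^ s) = _
  rw [show r + s + L = L + r + s by ring, sym_mul_D₁_pow, sym_mul_D₀_pow, base, neg_pow]
  by_cases hL : L = 0
  · subst hL
    simp [pow_add]; ring
  · rw [if_neg hL, if_neg (show ¬ r + s = L + r + s by omega)]
    simp

theorem sym_eq_zero (hf : f ∈ F w k) {K : ℕ} (h : k < K) : sym K f = 0 :=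
  F_eq_of_mono hf (sym K) 0 fun m hm => by
    obtain ⟨_, h2⟩ := hm
    rw [sym_mono (by omega), if_neg (by omega), LinearMap.zero_apply]

theorem sym_one : sym 0 (1 : Op) = 1 := by
  rw [← mono_zero, sym_mono (by simp)]
  simp

theorem sym_mem (hf : f ∈ F w k) : sym k.toNat f ∈ Sy w k :=
  F_le_of_mem hf ((Sy w k).comap (sym k.toNat)) fun ⟨p, q, r, s⟩ hm => by
    simp only [Idx, Set.mem_ofPred_eq] at hm
    rw [Submodule.mem_comap, sym_mono (by simp only; omega)]
    split_ifs with h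
    · rw [show ((-1 : ℚ[X]) ^ r) = C ((-1) ^ r) by simp, ← smul_eq_C_mul]
      refine Submodule.smul_mem _ _ ?_
      rw [Sy, mem_degreeLT, degree_X_pow]
      simp only at h ⊢
      exact_mod_cast (show q + r < (w + 2 * k + 1).toNat by omega)
    · exact zero_mem _

theorem sym_X₀_mul {K : ℕ} (hf : f ∈ F w K) : sym K (X₀ * f) = sym K f :=
  F_eq_of_mono hf ((sym K).comp (LinearMap.mulLeft ℚ X₀)) (sym K) fun ⟨p, q, r, s⟩ hm => by
    obtain ⟨-, h2⟩ := hm
    simp only at h2
    rw [LinearMap.comp_apply, LinearMap.mulLeft_apply, X₀_mul_mono,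
      sym_mono (by simp only; omega), sym_mono (by simp only; omega)]

theorem sym_X₁_mul {K : ℕ} (hf : f ∈ F w K) : sym K (X₁ * f) = X * sym K f :=
  F_eq_of_mono hf ((sym K).comp (LinearMap.mulLeft ℚ X₁))
    ((LinearMap.mulLeft ℚ X).comp (sym K)) fun ⟨p, q, r, s⟩ hm => by
    obtain ⟨-, h2⟩ := hm
    simp only at h2
    rw [LinearMap.comp_apply, LinearMap.mulLeft_apply, X₁_mul_mono, LinearMap.comp_apply,
      LinearMap.mulLeft_apply, sym_mono (by simp only; omega), sym_mono (by simp only; omega)]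
    simp only
    split_ifs <;> ring

theorem sym_D₀_mul {K : ℕ} (hf : f ∈ F w K) : sym (K + 1) (D₀ * f) = -X * sym K f :=
  F_eq_of_mono hf ((sym (K + 1)).comp (LinearMap.mulLeft ℚ D₀))
    ((LinearMap.mulLeft ℚ (-X)).comp (sym K)) fun ⟨p, q, r, s⟩ hm => by
    obtain ⟨-, h2⟩ := hm
    simp only at h2
    rw [LinearMap.comp_apply, LinearMap.mulLeft_apply, D₀_mul_mono, LinearMap.comp_apply,
      LinearMap.mulLeft_apply, map_add, map_smul, sym_mono (by simp only; omega),
      sym_mono (by simp only; omega), sym_mono (by simp only; omega)]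
    simp only
    rw [if_neg (show ¬ r + s = K + 1 by omega), smul_zero, add_zero]
    by_cases h : r + s = K
    · rw [if_pos (by omega), if_pos h]; ring
    · rw [if_neg (by omega), if_neg h]; ring

theorem sym_D₁_mul {K : ℕ} (hf : f ∈ F w K) : sym (K + 1) (D₁ * f) = sym K f :=
  F_eq_of_mono hf ((sym (K + 1)).comp (LinearMap.mulLeft ℚ D₁)) (sym K) fun ⟨p, q, r, s⟩ hm => by
    obtain ⟨-, h2⟩ := hm
    simp only at h2
    rw [LinearMap.comp_apply, LinearMap.mulLeft_apply, D₁_mul_mono, map_add, map_smul,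
      sym_mono (by simp only; omega), sym_mono (by simp only; omega),
      sym_mono (by simp only; omega)]
    simp only
    rw [if_neg (show ¬ r + s = K + 1 by omega), smul_zero, add_zero]
    by_cases h : r + s = K
    · rw [if_pos (by omega), if_pos h]
    · rw [if_neg (by omega), if_neg h]

theorem sym_mono_mul (p q r s : ℕ) {K : ℕ} (hf : f ∈ F w K) :
    sym (K + s + r) (mono (p, q, r, s) * f) = X ^ q * (-X) ^ r * sym K f := by
  have h1 : ∀ s : ℕ, sym (K + s) (D₁ ^ s * f) = sym K f := by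
    intro s
    induction s with
    | zero => simp
    | succ s ih =>
      rw [pow_succ', mul_assoc, ← add_assoc, sym_D₁_mul (w := w - s), ih]
      exact_mod_cast D₁_pow_mul_mem s hf
  have h2 : ∀ r : ℕ, sym (K + s + r) (D₀ ^ r * (D₁ ^ s * f)) = (-X) ^ r * sym K f := by
    intro r
    induction r with
    | zero => simpa using h1 s
    | succ r ih =>
      rw [pow_succ', mul_assoc, ← add_assoc, sym_D₀_mul (w := w - s - r), ih, pow_succ']
      · ring
      · exact_mod_cast D₀_pow_mul_mem r (D₁_pow_mul_mem s hf)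
  have m2 : D₀ ^ r * (D₁ ^ s * f) ∈ F (w - s - r) ((K + s + r : ℕ) : ℤ) := by
    exact_mod_cast D₀_pow_mul_mem r (D₁_pow_mul_mem s hf)
  have h3 : ∀ q : ℕ, sym (K + s + r) (X₁ ^ q * (D₀ ^ r * (D₁ ^ s * f))) =
      X ^ q * (-X) ^ r * sym K f := by
    intro q
    induction q with
    | zero => simpa using h2 r
    | succ q ih =>
      rw [pow_succ', mul_assoc, sym_X₁_mul (X₁_pow_mul_mem q m2), ih]
      ring
  simp only [mono, mul_assoc]
  induction p with
  | zero => simpa [mul_assoc] using h3 q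
  | succ p ih =>
    rw [pow_succ', mul_assoc, sym_X₀_mul (X₀_pow_mul_mem p (X₁_pow_mul_mem q m2)), ih]

theorem sym_mul (hk : 0 ≤ k) (hk' : 0 ≤ k') (hg : g ∈ F w' k') (hf : f ∈ F w k) :
    sym (k + k').toNat (g * f) = sym k'.toNat g * sym k.toNat f := by
  obtain ⟨K, rfl⟩ := Int.eq_ofNat_of_zero_le hk
  obtain ⟨K', rfl⟩ := Int.eq_ofNat_of_zero_le hk'
  simp only [Int.toNat_natCast, ← Nat.cast_add]
  refine F_eq_of_mono hg ((sym (K + K')).comp (LinearMap.mulRight ℚ f))
    ((LinearMap.mulRight ℚ (sym K f)).comp (sym K')) fun ⟨p, q, r, s⟩ hm => ?_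
  obtain ⟨-, h2⟩ := hm
  simp only at h2
  rw [LinearMap.comp_apply, LinearMap.mulRight_apply, LinearMap.comp_apply,
    LinearMap.mulRight_apply, sym_mono (by simp only; omega)]
  simp only
  by_cases h : r + s = K'
  · rw [if_pos h, ← h, show K + (r + s) = K + s + r by ring, sym_mono_mul p q r s hf, neg_pow]
    ring
  · rw [if_neg h, zero_mul, sym_eq_zero (mono_mul_mem p q r s hf) (by omega)]

/-! ### Lifts -/

theorem lift_monomial (w j : ℤ) (e : ℕ) (c : ℚ) :
    lift w j (monomial e c) =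
      c • (if 0 ≤ j ∧ 0 ≤ w + j ∧ (e : ℤ) ≤ w + 2 * j then liftMono w j e else 0) := by
  simp [lift, Polynomial.sum_monomial_index]

theorem liftMono_mem {e : ℕ} (hj : 0 ≤ j) (hw : 0 ≤ w + j) (he : (e : ℤ) ≤ w + 2 * j) :
    liftMono w j e ∈ F w j := by
  rw [liftMono]
  split_ifs with h
  · exact mono_mem ⟨by push_cast; omega, by push_cast; omega⟩
  · exact Submodule.smul_mem _ _ (mono_mem ⟨by push_cast; omega, by push_cast; omega⟩)

theorem lift_mem (w j : ℤ) (p : ℚ[X]) : lift w j p ∈ F w j := by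
  induction p using Polynomial.induction_on' with
  | add p q hp hq => rw [map_add]; exact add_mem hp hq
  | monomial e c =>
    rw [lift_monomial]
    refine Submodule.smul_mem _ _ ?_
    split_ifs with h
    · exact liftMono_mem h.1 h.2.1 h.2.2
    · exact zero_mem _

theorem sym_liftMono {e : ℕ} (hj : 0 ≤ j) (hw : 0 ≤ w + j) (he : (e : ℤ) ≤ w + 2 * j) :
    sym j.toNat (liftMono w j e) = X ^ e := by
  rw [liftMono]
  split_ifs with h
  · rw [sym_mono (by simp), if_pos (by simp)]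
    simp
  · have hr : e - (w + j).toNat + (j.toNat - (e - (w + j).toNat)) = j.toNat := by omega
    rw [map_smul, sym_mono hr.le, if_pos hr, smul_eq_C_mul, C_pow, C_neg, C_1, ← mul_assoc,
      ← mul_pow, neg_mul_neg, one_mul, one_pow, one_mul]
    congr 1
    simp only
    omega

theorem sym_lift {p : ℚ[X]} (hj : 0 ≤ j) (hw : 0 ≤ w + j) (hp : p ∈ Sy w j) :
    sym j.toNat (lift w j p) = p := by
  rw [Sy, degreeLT_eq_span_X_pow] at hp
  refine LinearMap.eqOn_span (f := (sym j.toNat).comp (lift w j)) (g := LinearMap.id) ?_ hp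
  intro x hx
  simp only [Finset.coe_image, Finset.coe_range, Set.mem_image, Set.mem_Iio] at hx
  obtain ⟨e, he, rfl⟩ := hx
  rw [LinearMap.comp_apply, LinearMap.id_apply, ← monomial_one_right_eq_X_pow, lift_monomial,
    one_smul, if_pos ⟨hj, hw, by omega⟩, sym_liftMono hj hw (by omega), X_pow_eq_monomial]

/-- `x (x^p y^q ∂x^r ∂y^s) ∂x + y (⋯) ∂y` in terms of the Euler operator. -/
theorem mono_step (a : ℤ) (p q r s : ℕ) :
    mono (p + 1, q, r + 1, s) + mono (p, q + 1, r, s + 1) =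
      ((a : ℚ) - r - s) • mono (p, q, r, s) + mono (p, q, r, s) * eul' a := by
  refine Finsupp.lhom_ext fun e c => ?_
  simp only [Module.End.mul_apply, LinearMap.add_apply, LinearMap.smul_apply, mono_single,
    eul'_single, ff_succ, Finsupp.smul_single, smul_eq_mul]
  rw [show e.1 - ((r + 1 : ℕ) : ℤ) + ((p + 1 : ℕ) : ℤ) = e.1 - r + p by omega,
    show e.2 - ((s + 1 : ℕ) : ℤ) + ((q + 1 : ℕ) : ℤ) = e.2 - s + q by omega,
    ← Finsupp.single_add, ← Finsupp.single_add]
  congr 1
  ring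

/-- The kernel of the symbol. -/
theorem sub_lift_sym (a : ℤ) (hf : f ∈ F w j) :
    ∃ q₁ ∈ F w (j - 1), ∃ q₂ ∈ F w (j - 1),
      f - lift w j (sym j.toNat f) = q₁ + q₂ * eul' a := by
  set S : Submodule ℚ Op := F w (j - 1) ⊔ (F w (j - 1)).map (LinearMap.mulRight ℚ (eul' a))
    with hS
  suffices f - lift w j (sym j.toNat f) ∈ S by
    obtain ⟨q₁, h₁, _, ⟨q₂, h₂, rfl⟩, hq⟩ := Submodule.mem_sup.1 this
    exact ⟨q₁, h₁, q₂, h₂, hq.symm⟩
  have step : ∀ t p q r s : ℕ, (p : ℤ) + t + q = w + r + t + s → (r : ℤ) + t + s = j →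
      mono (p + t, q, r + t, s) - (-1 : ℚ) ^ t • mono (p, q + t, r, s + t) ∈ S := by
    intro t
    induction t with
    | zero => intros; simp
    | succ t ih =>
      intro p q r s h1 h2
      have hm : mono (p + t, q, r + t, s) ∈ F w (j - 1) :=
        mono_mem ⟨by push_cast; omega, by push_cast; omega⟩
      have h3 : mono (p + t + 1, q, r + t + 1, s) + mono (p + t, q + 1, r + t, s + 1) ∈ S := by
        rw [mono_step a]
        exact add_mem (Submodule.mem_sup_left (Submodule.smul_mem _ _ hm))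
          (Submodule.mem_sup_right ⟨_, hm, rfl⟩)
      have h4 := ih p (q + 1) r (s + 1) (by push_cast at h1 ⊢; omega) (by push_cast at h2 ⊢; omega)
      convert sub_mem h3 h4 using 1
      rw [← add_assoc p, ← add_assoc r, add_right_comm q 1 t, add_right_comm s 1 t,
        add_assoc q t 1, add_assoc s t 1, pow_succ]
      module
  refine F_le_of_mem hf (S.comap (LinearMap.id - (lift w j).comp (sym j.toNat)))
    fun ⟨p, q, r, s⟩ hm => ?_
  simp only [Idx, Set.mem_ofPred_eq] at hm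
  obtain ⟨h1, h2⟩ := hm
  rw [Submodule.mem_comap, LinearMap.sub_apply, LinearMap.id_apply, LinearMap.comp_apply,
    sym_mono (by simp only; omega)]
  simp only
  by_cases h : r + s = j.toNat
  swap
  · rw [if_neg h, map_zero, sub_zero]
    exact Submodule.mem_sup_left (mono_mem ⟨h1, by simp only; omega⟩)
  rw [if_pos h, show ((-1 : ℚ[X]) ^ r) = C ((-1) ^ r) by simp, C_mul_X_pow_eq_monomial,
    lift_monomial, if_pos ⟨by omega, by omega, by push_cast; omega⟩, liftMono]
  by_cases hn : ((q + r : ℕ) : ℤ) ≤ w + j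
  · obtain ⟨p', rfl⟩ : ∃ p', p = p' + r := ⟨p - r, by omega⟩
    rw [if_pos hn, show (w + j - ((q + r : ℕ) : ℤ)).toNat = p' by omega,
      show j.toNat = s + r by omega]
    simpa using step r p' q 0 s (by push_cast at h1 ⊢; omega) (by push_cast at h2 ⊢; omega)
  · obtain ⟨r', rfl⟩ : ∃ r', r = r' + p := ⟨r - p, by omega⟩
    rw [if_neg hn, show (w + j).toNat = q + p by omega,
      show q + (r' + p) - (q + p) = r' by omega,
      show j.toNat - r' = s + p by omega, smul_smul, ← pow_add,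
      show r' + p + r' = p + 2 * r' by ring, pow_add, pow_mul, neg_one_sq, one_pow, mul_one]
    simpa using step p 0 q r' s (by push_cast at h1 ⊢; omega) (by push_cast at h2 ⊢; omega)

/-! ### Independence, finiteness -/

theorem mono_linearIndependent : LinearIndependent ℚ mono := by
  rw [linearIndependent_iff]
  intro l hl
  by_contra hne
  obtain ⟨⟨p, q, r, s⟩, hm, hmin⟩ := l.support.exists_min_image (fun m => m.2.2.1 + m.2.2.2)
    (Finsupp.support_nonempty_iff.2 hne)
  have h := DFunLike.congr_fun (LinearMap.congr_fun hl (Finsupp.single ((r : ℤ), (s : ℤ)) 1))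
    ((p : ℤ), (q : ℤ))
  rw [Finsupp.linearCombination_apply, Finsupp.sum, LinearMap.sum_apply,
    Finsupp.finsetSum_apply, Finset.sum_eq_single (p, q, r, s)] at h
  · simp [mono_single, ff_self_ne_zero] at h
    exact Finsupp.mem_support_iff.1 hm h
  · rintro ⟨p', q', r', s'⟩ hm' hne'
    have hle : r + s ≤ r' + s' := hmin _ hm'
    rw [LinearMap.smul_apply, Finsupp.smul_apply, mono_single, Finsupp.single_apply]
    split_ifs with he
    · simp only [Prod.mk.injEq] at he
      by_cases hr : r < r'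
      · simp [ff_eq_zero (Int.natCast_nonneg r) (Int.ofNat_lt.2 hr)]
      · by_cases hs : s < s'
        · simp [ff_eq_zero (Int.natCast_nonneg s) (Int.ofNat_lt.2 hs)]
        · exact absurd (by simp only [Prod.mk.injEq]; omega) hne'
    · exact smul_zero _
  · exact fun h' => absurd hm h'

instance F_finite (w k : ℤ) : Module.Finite ℚ (F w k) := by
  refine Module.Finite.span_of_finite ℚ (Set.Finite.image _ ?_)
  refine (Set.finite_Iic
    (((w + k).toNat, (w + k).toNat, k.toNat, k.toNat) : ℕ × ℕ × ℕ × ℕ)).subset ?_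
  rintro ⟨p, q, r, s⟩ ⟨h1, h2⟩
  simp only [Set.mem_Iic, Prod.mk_le_mk] at h1 h2 ⊢
  omega

end Vale.Agent.P195
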