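import Vale.Agent.P195.ResX.Bind
import Vale.Agent.P195.ResX.AtVertex

/-!
# P195: exactness of the resolution at every vertex

`Squares N` lists the squares of the glued matrix on generators. With them and the exactness of the
operators, `glueAt` is `GlueData` over `ℚ` at each of the six vertices; `glueAt_d₁` to `glueAt_eps`
identify its maps with the maps of sums of columns given by the matrices.
-/

noncomputable section

namespace Vale.Agent.P195.Res

open ResX LinCat

variable (N : ℕ)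

/-- The vertices at level zero, as pairs of integers. -/
abbrev eg0 (i : G0 N) : Vtx := emb (vg0 i)

/-- The vertices at level one, as pairs of integers. -/
abbrev eg1 (i : G1 N) : Vtx := emb (vg1 i)

/-- The vertices at level two, as pairs of integers. -/
abbrev eg2 (i : G2 N) : Vtx := emb (vg2 i)

/-- The vertices at level three, as pairs of integers. -/
abbrev eg3 (i : G3 N) : Vtx := emb (vg3 i)

/-- The squares of the glued matrix, on generators. -/
structure Squares : Prop where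
  sq21_zero : mmul (g := eg2 N) (g' := eg1 N) (g'' := eg0 N) (d2 N 0) (d1 N 0) = 0
  sq21 : ∀ k, mmul (g := eg2 N) (g' := eg1 N) (g'' := eg0 N) (d2 N (k + 1)) (d1 N (k + 1)) +
    mmul (g := eg2 N) (g' := eg3 N) (g'' := eg0 N) (Psi2 N) (th N k) = 0
  sq32 : ∀ k, mmul (g := eg3 N) (g' := eg2 N) (g'' := eg1 N) (d3 N k) (d2 N k) +
    mmul (g := eg3 N) (g' := eg0 N) (g'' := eg1 N) (th N k) (Psi0 N) = 0
  sqP₁ : ∀ k, mmul (g := eg1 N) (g' := eg2 N) (g'' := eg1 N) (Psi1 N) (d2 N k) +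
    mmul (g := eg1 N) (g' := eg0 N) (g'' := eg1 N) (d1 N (k + 1)) (Psi0 N) = 0
  sqP₂ : ∀ k, mmul (g := eg2 N) (g' := eg3 N) (g'' := eg2 N) (Psi2 N) (d3 N k) +
    mmul (g := eg2 N) (g' := eg1 N) (g'' := eg2 N) (d2 N (k + 1)) (Psi1 N) = 0

variable {N}

theorem sigma_eq {u v : Vtx} (X : F (wt u v) (od u v + 1)) :
    sigma N X = ResX.sigma (nn N) X := by
  unfold sigma ResX.sigma sigTri
  rw [LinearMap.comp_apply]
  congr 1

/-- The data of the resolution. -/
def rdata (hN : 2 ≤ N) (hsq : Squares N) : RData (nn N) where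
  toBCx := bcx N
  win₀ _ := inWin_emb _
  win₁ _ := inWin_emb _
  win₂ _ := inWin_emb _
  win₃ _ := inWin_emb _
  X := sX N
  euler := euler_sX hN
  D₁ k := fun g h => d1 N k g h
  D₂ k := fun g h => d2 N k g h
  D₃ k := fun g h => d3 N k g h
  P₀ _ := fun g h => Psi0 N g h
  P₁ _ := fun g h => Psi1 N g h
  P₂ _ := fun g h => Psi2 N g h
  Th k := fun g h => th N k g h
  D₁_fst _ _ _ := rfl
  D₂_fst _ _ _ := rfl
  D₃_fst _ _ _ := rfl
  P₀_fst _ _ _ := rfl
  P₀_snd _ _ _ := sigma_eq _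
  P₁_fst _ _ _ := rfl
  P₂_fst _ _ _ := rfl
  sq21_zero := hsq.sq21_zero
  sq21 := hsq.sq21
  sq32 := hsq.sq32
  sqP₁ := hsq.sqP₁
  sqP₂ := hsq.sqP₂

variable (N) in
/-- Exactness of the operators at the vertices of the window and one level above. -/
def OpsExact : Prop :=
  ∀ v : Vtx, 0 ≤ v.1 → v.1 ≤ 1 → 0 ≤ v.2 → v.2 ≤ 3 → (bcx N).ExactAt v

variable (hN : 2 ≤ N) (hsq : Squares N) (hex : OpsExact N)

/-- The glued complex at a vertex. -/
def glueAt (u : V) : GlueData ℚ ((catA0.free (vg0 (N := N))).X u) ((catA0.free (vg1 (N := N))).X u)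
    ((catA0.free (vg2 (N := N))).X u) ((catA0.free (vg3 (N := N))).X u) (Y (nn N) (emb u)) :=
  have h := inWin_emb u
  (rdata hN hsq).glue (hex _ h.1 h.2.1 h.2.2.1 (h.2.2.2.trans (by norm_num)))
    (hex (up (emb u)) h.1 h.2.1 (by simp only; linarith [h.2.2.1])
      (by simp only; linarith [h.2.2.2])) h

include hN hsq hex

theorem glueAt_d₁ (u : V) (k : ℕ) (x : (catA0.free (vg1 (N := N))).X u) :
    (glueAt hN hsq hex u).d1 k x = (freeHom vg1 (catA0.free vg0) (d1 N k)).app u x :=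
  (freeHom_eq_apM (d1 N k) u x).symm

theorem glueAt_d₂ (u : V) (k : ℕ) (x : (catA0.free (vg2 (N := N))).X u) :
    (glueAt hN hsq hex u).d2 k x = (freeHom vg2 (catA0.free vg1) (d2 N k)).app u x :=
  (freeHom_eq_apM (d2 N k) u x).symm

theorem glueAt_d₃ (u : V) (k : ℕ) (x : (catA0.free (vg3 (N := N))).X u) :
    (glueAt hN hsq hex u).d3 k x = (freeHom vg3 (catA0.free vg2) (d3 N k)).app u x :=
  (freeHom_eq_apM (d3 N k) u x).symm

theorem glueAt_Psi₀ (u : V) (k : ℕ) (x : (catA0.free (vg0 (N := N))).X u) :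
    (glueAt hN hsq hex u).Ψ0 k x = (freeHom vg0 (catA0.free vg1) (Psi0 N)).app u x :=
  (freeHom_eq_apM (Psi0 N) u x).symm

theorem glueAt_Psi₁ (u : V) (k : ℕ) (x : (catA0.free (vg1 (N := N))).X u) :
    (glueAt hN hsq hex u).Ψ1 k x = (freeHom vg1 (catA0.free vg2) (Psi1 N)).app u x :=
  (freeHom_eq_apM (Psi1 N) u x).symm

theorem glueAt_Psi₂ (u : V) (k : ℕ) (x : (catA0.free (vg2 (N := N))).X u) :
    (glueAt hN hsq hex u).Ψ2 k x = (freeHom vg2 (catA0.free vg3) (Psi2 N)).app u x :=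
  (freeHom_eq_apM (Psi2 N) u x).symm

theorem glueAt_th (u : V) (k : ℕ) (x : (catA0.free (vg3 (N := N))).X u) :
    (glueAt hN hsq hex u).θ k x = (freeHom vg3 (catA0.free vg0) (th N k)).app u x :=
  (freeHom_eq_apM (th N k) u x).symm

theorem glueAt_eps (u : V) (x : (catA0.free (vg0 (N := N))).X u) :
    (glueAt hN hsq hex u).ε x = (freeHom vg0 (repY0 (nn N)) (eps N)).app u x :=
  (freeHom_eq_trunc (nn N) (eps N) u x).symm

end Vale.Agent.P195.Res
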